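import Vale.Agent.P165.QT.Geo
import Vale.Agent.P165.FQ.Exit
import Vale.Agent.P165.FQ.Glue
import Vale.Agent.P165.FQ.Basic

/-!
# Actions on quasi-trees: setting, connection probabilities, statements of the steps

A regular graph on `V` with an action of `Γ` with finitely many orbits, an equivariant map to a thin
graph `X` and frames at the image `t₀` of the anchor. The excluded sets are shadows of a point `b`
seen from `t₀`. Targets are pairs of a level and a cell of root `t₀`: cells of one root are nested or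
disjoint and a point is the gate of at most `D` of them, whatever the valence of `X`.
-/

namespace Vale.Agent.P165.QT

open Finset FF
open Vale.Agent.P165.FP (hit)
open Vale.Agent.P165.FQ (hitN tauW)

variable {Γ O ι V X : Type} [Group Γ]

/-- A region around every vertex with less than one expected open exit. -/
def Witness [DecidableEq V] [Fintype ι] (nb : V → ι → V) (p : ℝ) : Prop :=
  ∀ v : V, ∃ Q : Finset V, v ∈ Q ∧ phiIn nb Q p v < 1

/-- A parameter below which there always is an exit certificate. -/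
def Sub [DecidableEq V] [Fintype ι] (nb : V → ι → V) (p : ℝ) : Prop :=
  0 < p ∧ p ≤ 1 ∧ ∀ q, 0 ≤ q → q < p → Witness nb q

/-- The points whose product with `b` seen from `t` is more than `k`, translated by `ψ`. -/
def Shadow (H : SimpleGraph X) (act : Γ →* (H ≃g H)) (t b : X) (k : ℕ) (ψ : Γ) : Set X :=
  {q | k < GP H (act ψ t) q (act ψ b)}

/-- A walk of at most `ℓ` steps from `z` to the translate by `ψ` of the anchor `a₁`, all of it outside
the translate of the excluded set. -/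
def Joined₀ (G : SimpleGraph V) (H : SimpleGraph X) (Φ : Γ →* (G ≃g G)) (act : Γ →* (H ≃g H))
    (pos : V → X) (a₁ : V) (b : X) (k : ℕ) (ψ : Γ) (ℓ : ℕ) (z : V) : Prop :=
  ∃ w : G.Walk z (Φ ψ a₁), w.length ≤ ℓ ∧ ∀ v ∈ w.support, pos v ∉ Shadow H act (pos a₁) b k ψ

/-- A graph with an action, an equivariant map to a thin graph, and frames. -/
structure Env (Γ O ι V X : Type) [Group Γ] [Fintype ι] where
  make ::
  /-- The graph. -/
  G : SimpleGraph V
  /-- The neighbours of a vertex. -/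
  nb : V → ι → V
  hl : Labelling G nb
  conn : G.Connected
  /-- The action on the graph. -/
  Φ : Γ →* (G ≃g G)
  /-- The representatives of the orbits. -/
  rep : O → V
  /-- A translation to a vertex from the representative of its orbit. -/
  sec : V → Γ
  /-- The orbit of a vertex. -/
  typ : V → O
  sec_spec : ∀ v, Φ (sec v) (rep (typ v)) = v
  /-- The type of the anchor. -/
  o₁ : O
  /-- The thin graph. -/
  H : SimpleGraph X
  hc : H.Connected
  /-- The constant of thinness. -/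
  Δ : ℕ
  thin : Thin H Δ
  /-- The action on the thin graph. -/
  act : Γ →* (H ≃g H)
  /-- The equivariant map. -/
  pos : V → X
  pos_eq : ∀ γ v, pos (Φ γ v) = act γ (pos v)
  /-- The Lipschitz constant of the map. -/
  D : ℕ
  lip : ∀ x y, G.Adj x y → H.dist (pos x) (pos y) ≤ D
  /-- The centre of the excluded shadows. -/
  b : X
  /-- The threshold of the shadow avoided by the points of a tail. -/
  k₁ : ℕ
  /-- The threshold of the shadow avoided by targets. -/
  k₂ : ℕ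
  /-- The threshold of the shadow avoided by all windows. -/
  k₀ : ℕ
  /-- The constant of avoidance. -/
  Kf : ℕ
  /-- The depth of cells. -/
  M : ℕ
  /-- The bound on the paths of the frames. -/
  blk : ℕ
  /-- The bound on the excursion of these paths. -/
  R₀ : ℕ
  one_le_blk : 1 ≤ blk
  hrep : ∀ o, 4 * H.dist (pos (rep o₁)) (pos (rep o)) ≤ Kf
  hk₁ : k₁ + 6 * Kf + 3 * Δ + 8 ≤ k₂
  hk₀ : k₂ + 2 * (R₀ + D + Kf) + Δ + 3 ≤ k₀
  hM : 8 * (k₂ + Kf + Δ + D + 2) ≤ M
  /-- The levels of the three target cells. -/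
  nU : Fin 3 → ℕ
  /-- The three target cells at the anchor. -/
  U : Fin 3 → Set X
  /-- The forward frames. -/
  σ : Fin 3 → Γ
  /-- The backward frames. -/
  τ : Fin 3 → Γ
  isCell_U : ∀ i, IsCell H M (pos (rep o₁)) (nU i) (U i)
  U_b₂ : ∀ i, Disjoint (U i) (Shadow H act (pos (rep o₁)) b k₂ 1)
  U_apart : ∀ i j, i ≠ j → Disjoint (U i) (U j)
  avoid : ∀ u w, ∃ i, ∀ q ∈ U i, GP H (pos (rep o₁)) q u ≤ Kf ∧ GP H (pos (rep o₁)) q w ≤ Kf
  σ_maps : ∀ i q, q ∉ Shadow H act (pos (rep o₁)) b k₀ 1 → act (σ i) q ∈ U i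
  τ_maps : ∀ i q, q ∈ Shadow H act (pos (rep o₁)) b k₁ 1 → act (τ i) q ∈ U i
  σ_path : ∀ i o, ∃ w : G.Walk (rep o) (Φ (σ i) (rep o₁)), w.length ≤ blk ∧
    ∀ v ∈ w.support, ∃ q, (q = pos (rep o₁) ∨ q ∈ U i) ∧ H.dist q (pos v) ≤ R₀
  τ_path : ∀ i o, Joined₀ G H Φ act pos (rep o₁) b k₀ (τ i) blk (rep o)
  deep : ∀ (m : ℕ) (o : O), ∃ (P : Finset Γ) (lv : Γ → ℕ) (C : Γ → Set X), P.card = 2 ^ m ∧
    (∀ ψ ∈ P, IsCell H M (pos (rep o₁)) (lv ψ) (C ψ) ∧ lv ψ ≤ blk * (m + 1) ∧
      Joined₀ G H Φ act pos (rep o₁) b k₀ ψ (blk * (m + 1)) (rep o) ∧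
      Shadow H act (pos (rep o₁)) b k₁ ψ ⊆ C ψ) ∧
    (P : Set Γ).Pairwise fun ψ ψ' => Disjoint (C ψ) (C ψ')

/-- A target: a level and a set, meant to be a cell of that level. -/
abbrev Tgt (X : Type) : Type := ℕ × Set X

/-- Targets that are pairwise disjoint. -/
def Apart (W : Finset (Tgt X)) : Prop :=
  (W : Set (Tgt X)).Pairwise fun e e' => Disjoint e.2 e'.2

variable [Fintype ι]

/-- The vertices within `n` steps. -/
def wball [DecidableEq V] (nb : V → ι → V) (a : V) (n : ℕ) : Finset V :=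
  (range (n + 1)).biUnion fun r => walkBall nb r a

namespace Env

variable (E : Env Γ O ι V X)

/-- The anchor. -/
def a₁ : V := E.rep E.o₁

/-- The image of the anchor. -/
def t₀ : X := E.pos E.a₁

/-- The translate of `t₀` at which the frames of a vertex are based. -/
def base (v : V) : X := E.act (E.sec v) E.t₀

/-- The excluded shadow of threshold `k` of a translate. -/
def B (k : ℕ) (ψ : Γ) : Set X := Shadow E.H E.act E.t₀ E.b k ψ

/-- The vertices over a set. -/
def pre (A : Set X) : Set V := {v | E.pos v ∈ A}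

/-- The three directions at a vertex. -/
def Uat (z : V) (i : Fin 3) : Set X := E.act (E.sec z) '' E.U i

/-- See `Joined₀`. -/
def Joined (ψ : Γ) (ℓ : ℕ) (z : V) : Prop :=
  Joined₀ E.G E.H E.Φ E.act E.pos E.a₁ E.b E.k₀ ψ ℓ z

/-- A vertex at which a graph edge enters a set. -/
def Gate (A : Set X) (z : V) : Prop :=
  E.pos z ∈ A ∧ ∃ x, E.G.Adj x z ∧ E.pos x ∉ A

/-- The shift of levels when cells are seen from a new root. -/
def shift : ℕ := E.k₂ + 2 * E.Kf + 2 * E.Δ + 4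

/-- The part of a target that is deeper by `c`. -/
def deeper (c : ℕ) (e : Tgt X) : Set X := {q | q ∈ e.2 ∧ e.1 + E.M + c < E.H.dist E.t₀ q}

/-- The part of a chain target that is hit. -/
def core (e : Tgt X) : Set X := E.deeper (E.Kf + E.shift) e

/-- An admissible target. -/
def Strict (e : Tgt X) : Prop :=
  IsCell E.H E.M E.t₀ e.1 e.2 ∧ Disjoint e.2 (E.B E.k₂ 1)

variable [DecidableEq V]

/-- The ball in the graph. -/
def ball (a : V) (n : ℕ) : Finset V := wball E.nb a n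

open Classical in
/-- The ball around the anchor outside the excluded shadow. -/
noncomputable def om (ρ : ℕ) : Finset V :=
  (E.ball E.a₁ ρ).filter fun v => E.pos v ∉ E.B E.k₀ 1

open Classical in
/-- The window of a chain from a representative in the frame `i`. -/
noncomputable def chain0 (o : O) (i : Fin 3) (n : ℕ) : Finset V :=
  (E.ball (E.rep o) n).filter fun v => ∃ q, (q = E.t₀ ∨ q ∈ E.U i) ∧ E.H.dist q (E.pos v) ≤ E.R₀

/-- The cost of one join: a push and a gluing. -/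
noncomputable def c₁ (p : ℝ) : ℝ := p ^ (2 * E.blk) / 2

/-- The chance of joining the anchor to a target inside `om ρ`. -/
noncomputable def Psi (ρ : ℕ) (p : ℝ) (e : Tgt X) : ℝ :=
  hit E.nb (E.om ρ) p E.a₁ (E.pre e.2)

/-- The same with at most `n` steps. -/
noncomputable def PsiN (ρ n : ℕ) (p : ℝ) (e : Tgt X) : ℝ :=
  hitN E.nb (E.om ρ) p E.a₁ (E.pre e.2) n

/-- The code bound with exponent `θ`. -/
def Bound (p θ : ℝ) : Prop :=
  ∀ (ρ : ℕ) (W : Finset (Tgt X)), Apart W → (∀ e ∈ W, E.Strict e) →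
    E.c₁ p ^ θ * ∑ e ∈ W, E.Psi ρ p e ^ θ ≤ 1

/-- Joining a family of disjoint targets with any other family. -/
def JoinSum (p : ℝ) : Prop :=
  ∀ (ρ ρ' : ℕ) (W W' : Finset (Tgt X)), Apart W → (∀ e ∈ W, E.Strict e) →
    (∀ e ∈ W', E.Strict e) → ∃ (ρ'' : ℕ) (W'' : Finset (Tgt X)), (∀ e ∈ W'', E.Strict e) ∧
      E.c₁ p * (∑ e ∈ W, E.Psi ρ p e) * (∑ e ∈ W', E.Psi ρ' p e) ≤ ∑ e ∈ W'', E.Psi ρ'' p e

/-- The chance of at most `K` open steps from `a` to `y`. -/
noncomputable def tau (p : ℝ) (K : ℕ) (a y : V) : ℝ := tauW E.nb (E.ball a K) p a y K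

open Classical in
/-- The expected number of points within `K` open steps at one distance from a representative. -/
noncomputable def shell (p : ℝ) (K : ℕ) (o : O) (j : ℕ) : ℝ :=
  ∑ y ∈ (E.ball (E.rep o) K).filter (fun y => E.H.dist (E.pos (E.rep o)) (E.pos y) = j),
    E.tau p K (E.rep o) y

variable [Fintype O]

/-- The expected number of points within `K` open steps, summed over the representatives. -/
noncomputable def vol (p : ℝ) (K : ℕ) : ℝ :=
  ∑ o : O, ∑ y ∈ E.ball (E.rep o) K, E.tau p K (E.rep o) y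

/-- The largest shell. -/
noncomputable def own (p : ℝ) (K : ℕ) : ℝ :=
  ((univ : Finset O) ×ˢ range (E.D * K + 1)).sup' ⟨(E.o₁, 0), by simp⟩
    fun q => E.shell p K q.1 q.2

/-- The bound on the points at one product, seen from outside an excluded shadow. -/
def TailLe (p : ℝ) (K : ℕ) (T : ℝ) : Prop :=
  ∀ (ψ : Γ) (ℓ : ℕ) (z : V), E.Joined ψ ℓ z → ∀ (w : X) (d : ℕ) (S Y : Finset V),
    (∀ v ∈ S, E.pos v ∉ E.B E.k₀ ψ) →
    (∀ y ∈ Y, E.pos y ∉ E.B E.k₁ ψ ∧ GP E.H (E.pos y) (E.act ψ E.t₀) w = d) →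
    p ^ ℓ * ∑ y ∈ Y, tauW E.nb S p z y K ≤ T

/-- The exponents, the chains and the bound on short balls at one parameter. -/
structure Data (ps δ : ℝ) where
  /-- The exponent at which the code bound fails. -/
  θ : ℝ
  /-- The exponent at which the code bound holds. -/
  θ' : ℝ
  /-- The constant of the chains. -/
  κ : ℝ
  /-- The constant in the length of a chain. -/
  C : ℕ
  /-- The constant for short balls. -/
  S : ℝ
  /-- The targets of a level in each frame. -/
  W : ℕ → Fin 3 → Finset (Tgt X)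
  /-- Their level. -/
  lev : ℕ → Fin 3 → ℕ
  θ_pos : 0 < θ
  θ_le : θ ≤ θ'
  θ'_le_one : θ' ≤ 1
  ratio : θ' * (1 - δ) ≤ θ
  bound : E.Bound ps θ'
  κ_pos : 0 < κ
  mem : ∀ L i, ∀ e ∈ W L i, IsCell E.H E.M E.t₀ e.1 e.2 ∧ e.1 = lev L i ∧ e.2 ⊆ E.U i
  chain : ∀ L : ℕ, 1 ≤ L → ∀ (i : Fin 3) (o : O), κ * (L : ℝ) ^ (θ - δ) ≤
    ∑ e ∈ W L i, min ((L : ℝ) * hitN E.nb (E.chain0 o i (C * (Nat.log 2 L + 1))) ps
      (E.rep o) (E.pre (E.core e)) (C * (Nat.log 2 L + 1))) 1
  S_nonneg : 0 ≤ S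
  short : ∀ L : ℕ, 1 ≤ L →
    ((C * (Nat.log 2 L + 1) : ℕ) + 1 : ℝ) * E.vol ps (C * (Nat.log 2 L + 1)) ≤ S * (L : ℝ) ^ δ

/-- Steps 1, 2: data for every small `δ`, with exponents bounded below. -/
def DataExists (ps : ℝ) : Prop :=
  ∃ θ₀ : ℝ, 0 < θ₀ ∧ ∀ δ : ℝ, 0 < δ → δ < 1 / 2 → ∃ D : E.Data ps δ, θ₀ ≤ D.θ

/-- Step 3: the tail. -/
def Tails (ps : ℝ) : Prop :=
  ∀ ε : ℝ, 0 < ε → ∃ C : ℝ, 0 ≤ C ∧ ∀ K, E.TailLe ps K (C * (E.vol ps K + 1) ^ ε)

/-- Step 4: the shells. -/
def OwnBound (p : ℝ) : Prop :=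
  ∃ (C : ℝ) (A : ℕ), 0 ≤ C ∧ ∀ (K : ℕ) (T : ℝ), 1 ≤ T → E.TailLe p K T → E.own p K ≤ C * T ^ A

/-- Step 5: closing at the last parameter. -/
def Closed (ps : ℝ) : Prop :=
  ∀ ε : ℝ, 0 < ε → ∃ C : ℝ, 0 ≤ C ∧ ∀ K, E.own ps K ≤ C * ((K : ℝ) + 1) ^ ε ∧
    E.TailLe ps K (C * ((K : ℝ) + 1) ^ ε)

/-- Step 6: the small form. -/
def Small (ps : ℝ) : Prop :=
  ∃ n, 1 ≤ n ∧ FQ.FormSmall E.nb (fun x => E.ball x n) n ps (1 / 4)

end Env

end Vale.Agent.P165.QT
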