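import Vale.Agent.P165.QT.Base
import Vale.Agent.P165.FF.Main
import Vale.Agent.P165.FF.Transport
import Vale.Agent.P165.FF.Unique

/-!
# Nonuniqueness from a small form at the last subcritical parameter, for a cofinite action

The translations of one group action move every vertex to one of finitely many, so an exit
certificate at each vertex gives finite susceptibility, and a small form is stable in the parameter.
-/

namespace Vale.Agent.P165.QT

open Finset MeasureTheory ProbabilityTheory FF
open Vale.Agent.P165.FQ (Covers FormSmall tauW tauW_map tauW_continuous tauW_eq_zero square_summable)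

variable {Γ V ι : Type} [Group Γ] [DecidableEq V] [Fintype ι]
  {G : SimpleGraph V} {nb : V → ι → V}

/-! ### Balls -/

theorem walkBall_mem (hl : Labelling G nb) {n : ℕ} {a y : V} :
    y ∈ walkBall nb n a ↔ ∃ w : G.Walk a y, w.length = n := by
  induction n generalizing y with
  | zero =>
    simp only [walkBall, mem_singleton]
    exact ⟨fun h => h ▸ ⟨.nil, rfl⟩,
      fun ⟨w, hw⟩ => (SimpleGraph.Walk.eq_of_length_eq_zero hw).symm⟩
  | succ n ih =>
    simp only [walkBall, mem_image, mem_product, mem_univ, and_true]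
    constructor
    · rintro ⟨⟨u, j⟩, hu, rfl⟩
      obtain ⟨w, hw⟩ := ih.1 hu
      exact ⟨w.concat (hl.adj_nb u j), by rw [SimpleGraph.Walk.length_concat, hw]⟩
    · rintro ⟨w, hw⟩
      cases h : w.reverse with
      | nil =>
        have h2 := congrArg SimpleGraph.Walk.length h
        rw [SimpleGraph.Walk.length_reverse, SimpleGraph.Walk.length_nil] at h2
        omega
      | @cons _ u _ hadj w' =>
        obtain ⟨j, hj⟩ := (hl.adj u y).1 hadj.symm
        have h2 := congrArg SimpleGraph.Walk.length h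
        rw [SimpleGraph.Walk.length_reverse, SimpleGraph.Walk.length_cons] at h2
        exact ⟨(u, j), ih.2 ⟨w'.reverse, by rw [SimpleGraph.Walk.length_reverse]; omega⟩, hj⟩

theorem wball_mem (hl : Labelling G nb) {n : ℕ} {a y : V} :
    y ∈ wball nb a n ↔ ∃ w : G.Walk a y, w.length ≤ n := by
  simp only [wball, mem_biUnion, mem_range, walkBall_mem hl]
  exact ⟨fun ⟨r, hr, w, hw⟩ => ⟨w, by omega⟩, fun ⟨w, hw⟩ => ⟨w.length, by omega, w, rfl⟩⟩

theorem covers_wball (hl : Labelling G nb) (n : ℕ) : Covers G (fun x => wball nb x n) n :=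
  fun _ _ w hw v hv =>
    (wball_mem hl).2 ⟨w.takeUntil v hv, (w.length_takeUntil_le_length hv).trans hw⟩

theorem image_wball (hl : Labelling G nb) (φ : G ≃g G) (a : V) (n : ℕ) :
    (wball nb a n).image φ = wball nb (φ a) n := by
  ext y
  simp only [mem_image, wball_mem hl]
  constructor
  · rintro ⟨u, ⟨w, hw⟩, rfl⟩
    exact ⟨w.map φ.toHom, (SimpleGraph.Walk.length_map _ _).trans_le hw⟩
  · rintro ⟨w, hw⟩
    exact ⟨φ.symm y, ⟨(w.map φ.symm.toHom).copy (φ.symm_apply_apply a) rfl,
      ((SimpleGraph.Walk.length_copy _ _ _).trans (SimpleGraph.Walk.length_map _ _)).trans_le hw⟩,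
      φ.apply_symm_apply y⟩

/-! ### Exit certificates -/

theorem phiIn_mono {p p' : ℝ} (h0 : 0 ≤ p) (h : p ≤ p') (h1 : p' ≤ 1) (S : Finset V)
    (x : V) : phiIn nb S p x ≤ phiIn nb S p' x := by
  refine mul_le_mul h (sum_le_sum fun a _ => sum_le_sum fun j _ => ?_) ?_ (h0.trans h)
  · split_ifs
    · exact le_rfl
    · exact tauIn_mono_p S h0 h h1 x a
  · exact sum_nonneg fun a _ => sum_nonneg fun j _ => by
      split_ifs
      · exact le_rfl
      · exact tauIn_nonneg S h0 (h.trans h1) x a

theorem witness_mono {p p' : ℝ} (h0 : 0 ≤ p) (h : p ≤ p') (h1 : p' ≤ 1) (hw : Witness nb p') :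
    Witness nb p := fun v => by
  obtain ⟨Q, hQ, hQ'⟩ := hw v
  exact ⟨Q, hQ, (phiIn_mono h0 h h1 Q _).trans_lt hQ'⟩

theorem witness_small {p : ℝ} (h0 : 0 ≤ p) (h1 : p ≤ 1) (hp : p * (Fintype.card ι : ℝ) < 1) :
    Witness nb p := fun v => by
  refine ⟨{v}, mem_singleton_self _, lt_of_le_of_lt ?_ hp⟩
  rw [phiIn, sum_singleton]
  refine mul_le_mul_of_nonneg_left ?_ h0
  refine (sum_le_sum fun j _ => (?_ : _ ≤ (1 : ℝ))).trans (le_of_eq (by simp))
  split_ifs
  · exact zero_le_one
  · exact tauIn_le_one _ h0 h1 _ _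

/-- Finite susceptibility. -/
theorem susceptibility (hl : Labelling G nb) (Φ : Γ →* (G ≃g G)) (R : Finset V)
    (cover : ∀ v, ∃ g, Φ g v ∈ R) {p : ℝ} (h0 : 0 ≤ p) (h1 : p ≤ 1) (hw : Witness nb p) :
    ∃ X : ℝ, ∀ (S F : Finset V) (x : V), ∑ y ∈ F, tauIn nb S p x y ≤ X := by
  choose Q hQ hphi using hw
  set r := (insert (0 : ℝ) (R.image fun o => phiIn nb (Q o) p o)).max' (insert_nonempty _ _)
  have hr0 : 0 ≤ r := le_max' _ _ (mem_insert_self _ _)
  have hr1 : r < 1 := by
    refine (max'_lt_iff _ _).2 fun a ha => ?_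
    rcases mem_insert.1 ha with rfl | ha
    · exact one_pos
    · obtain ⟨o, -, rfl⟩ := mem_image.1 ha; exact hphi o
  have hr : ∀ o ∈ R, phiIn nb (Q o) p o ≤ r := fun o ho =>
    le_max' (insert (0 : ℝ) (R.image fun o => phiIn nb (Q o) p o)) _
      (mem_insert_of_mem (mem_image.2 ⟨o, ho, rfl⟩))
  set K : ℝ := 1 + ∑ o ∈ R, ((Q o).card : ℝ) with hK
  have hK1 : 1 ≤ K := le_add_of_nonneg_right (sum_nonneg fun _ _ => Nat.cast_nonneg _)
  set X := K / (1 - r)
  have hKX : K ≤ X := by
    rw [le_div_iff₀ (by linarith)]; nlinarith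
  refine ⟨X, fun S => ?_⟩
  suffices h : ∀ n : ℕ, ∀ S : Finset V, S.card ≤ n →
      ∀ (F : Finset V) (x : V), ∑ y ∈ F, tauIn nb S p x y ≤ X from h S.card S le_rfl
  intro n
  induction n using Nat.strong_induction_on with
  | _ n ih =>
    intro S hS F x
    obtain ⟨γ, hγ⟩ := cover x
    set g := Φ γ
    set u := g x with hbase
    set S' := S.image g
    set F' := F.image g
    have hsum : ∑ y ∈ F, tauIn nb S p x y = ∑ y ∈ F', tauIn nb S' p u y := by
      rw [sum_image fun a _ b _ h => g.injective h]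
      refine sum_congr rfl fun y _ => ?_
      rw [hbase, tauIn_map hl g]
    rw [hsum]
    by_cases hx : u ∈ S'
    swap
    · refine le_trans ?_ (hK1.trans hKX)
      calc ∑ y ∈ F', tauIn nb S' p u y
          ≤ ∑ y ∈ F', if u = y then 1 else 0 := by
            refine sum_le_sum fun y _ => ?_
            split_ifs with h
            · exact tauIn_le_one S' h0 h1 _ _
            · exact (tauIn_eq_zero h (Or.inl hx) p).le
        _ ≤ 1 := by rw [sum_ite_eq]; split_ifs <;> norm_num
    set o := u with ho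
    have hlt : (S'.erase o).card < n := by
      have h2 : S'.card ≤ n := card_image_le.trans hS
      have h3 := card_erase_of_mem hx
      have h4 := card_pos.2 ⟨_, hx⟩
      omega
    calc ∑ y ∈ F', tauIn nb S' p o y
        ≤ ∑ y ∈ F', (tauIn nb (Q o) p o y + p * ∑ a ∈ Q o, ∑ j,
          if nb a j ∉ Q o then
            tauIn nb (Q o) p o a * tauIn nb (S'.erase o) p (nb a j) y else 0) :=
          sum_le_sum fun y _ => tauIn_exit hl S' (Q o) (hQ o) y h0 h1
      _ ≤ K + r * X := by
          rw [sum_add_distrib]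
          refine add_le_add ?_ ?_
          · calc ∑ y ∈ F', tauIn nb (Q o) p o y
                ≤ ∑ y ∈ F', if y ∈ Q o then 1 else 0 := by
                  refine sum_le_sum fun y _ => ?_
                  split_ifs with h
                  · exact tauIn_le_one _ h0 h1 _ _
                  · exact (tauIn_eq_zero (fun he : o = y => h (by rw [← he]; exact hQ o))
                      (Or.inr h) p).le
              _ ≤ ((Q o).card : ℝ) := by
                  rw [sum_boole]
                  exact Nat.cast_le.2 (card_le_card fun y hy => (mem_filter.1 hy).2)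
              _ ≤ K := by
                  rw [hK]
                  have := single_le_sum (f := fun o => ((Q o).card : ℝ)) (fun o _ => Nat.cast_nonneg _)
                    hγ
                  linarith
          · calc ∑ y ∈ F', p * ∑ a ∈ Q o, ∑ j, (if nb a j ∉ Q o then
                  tauIn nb (Q o) p o a * tauIn nb (S'.erase o) p (nb a j) y else 0)
                = p * ∑ a ∈ Q o, ∑ j, (if nb a j ∉ Q o then tauIn nb (Q o) p o a *
                    ∑ y ∈ F', tauIn nb (S'.erase o) p (nb a j) y else 0) := by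
                  rw [← mul_sum, sum_comm]
                  refine congrArg _ (sum_congr rfl fun a _ => ?_)
                  rw [sum_comm]
                  refine sum_congr rfl fun j _ => ?_
                  split_ifs
                  · simp
                  · rw [mul_sum]
              _ ≤ p * ∑ a ∈ Q o, ∑ j,
                    (if nb a j ∉ Q o then tauIn nb (Q o) p o a else 0) * X := by
                  refine mul_le_mul_of_nonneg_left
                    (sum_le_sum fun a _ => sum_le_sum fun j _ => ?_) h0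
                  split_ifs
                  · simp
                  · exact mul_le_mul_of_nonneg_left (ih _ hlt _ le_rfl _ _)
                      (tauIn_nonneg _ h0 h1 _ _)
              _ = phiIn nb (Q o) p o * X := by
                  simp only [phiIn, ← sum_mul, mul_assoc]
              _ ≤ r * X := mul_le_mul_of_nonneg_right (hr o hγ) (by linarith)
      _ = X := by
          have hne : (1 : ℝ) - r ≠ 0 := by linarith
          simp only [X]; field_simp; ring

/-- The form bound is stable in the parameter. -/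
theorem formSmall_eventually (hl : Labelling G nb) (Φ : Γ →* (G ≃g G)) (R : Finset V)
    (cover : ∀ v, ∃ g, Φ g v ∈ R)
    {B : V → Finset V} (hBtr : ∀ g x, (B x).image (Φ g) = B (Φ g x)) {n : ℕ}
    (hn : 1 ≤ n) (hB : Covers G B n) {q η η' : ℝ} (h : FormSmall nb B n q η) (hη : η < η') :
    ∀ᶠ p in nhds q, FormSmall nb B n p η' := by
  classical
  set D : ℝ → ℝ := fun p => ∑ o ∈ R, ∑ y ∈ B o,
    |tauW nb (B o) p o y n - tauW nb (B o) q o y n|
    with hD
  set N : ℝ := ∑ o ∈ R, ((B o).card : ℝ) with hN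
  have hn0 : (0 : ℝ) < n := Nat.cast_pos.2 hn
  have hcont : Continuous fun p => D p * N :=
    (continuous_finsetSum _ fun o _ => continuous_finsetSum _ fun y _ =>
      ((tauW_continuous _ _ y n).sub continuous_const).abs).mul continuous_const
  have h0 : D q * N = 0 := by simp [hD]
  filter_upwards [(hcont.tendsto q).eventually_le_const
    (show D q * N < (η' - η) * n by rw [h0]; exact mul_pos (by linarith) hn0)] with p hpD F f hf
  have hD0 : 0 ≤ D p := sum_nonneg fun _ _ => sum_nonneg fun _ _ => abs_nonneg _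
  have hinvW : ∀ g r x y, tauW nb (B (Φ g x)) r (Φ g x) (Φ g y) n = tauW nb (B x) r x y n :=
    fun g r x y => by
      rw [← hBtr g x]
      exact tauW_map hl (Φ g) (B x) r x y n
  have hentry : ∀ x y, tauW nb (B x) p x y n - tauW nb (B x) q x y n ≤
      D p * (if y ∈ B x ∧ x ∈ B y then 1 else 0) := by
    intro x y
    split_ifs with hy
    swap
    · simp [tauW_eq_zero hl hB _ _ hy]
    obtain ⟨γ, hγ⟩ := cover x
    rw [mul_one, ← hinvW γ p x y, ← hinvW γ q x y]
    refine (le_abs_self _).trans (le_trans ?_ (single_le_sum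
      (fun o _ => sum_nonneg fun _ _ => abs_nonneg _) hγ))
    refine single_le_sum (f := fun z => |tauW nb (B (Φ γ x)) p (Φ γ x) z n -
      tauW nb (B (Φ γ x)) q (Φ γ x) z n|) (fun z _ => abs_nonneg _) ?_
    rw [← hBtr γ x]
    exact mem_image_of_mem _ hy.1
  have hrow : ∀ x, ((F.filter fun y => y ∈ B x).card : ℝ) ≤ N := fun x => by
    refine le_trans (Nat.cast_le.2 (card_le_card fun y hy => (mem_filter.1 hy).2)) ?_
    obtain ⟨γ, hγ⟩ := cover x
    rw [← card_image_of_injective (B x) (Φ γ).injective, hBtr, hN]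
    exact single_le_sum (f := fun o => ((B o).card : ℝ))
      (fun _ _ => Nat.cast_nonneg _) hγ
  have hnear : ∑ x ∈ F, ∑ y ∈ F, f x * f y * (if y ∈ B x ∧ x ∈ B y then (1 : ℝ) else 0)
      ≤ N * ∑ x ∈ F, f x ^ 2 := by
    have h1 : ∀ x ∈ F, ∀ y ∈ F, f x * f y * (if y ∈ B x ∧ x ∈ B y then (1 : ℝ) else 0) ≤
        (if y ∈ B x then f x ^ 2 / 2 else 0) + (if x ∈ B y then f y ^ 2 / 2 else 0) := by
      intro x _ y _
      by_cases hy : y ∈ B x ∧ x ∈ B y
      · rw [if_pos hy, if_pos hy.1, if_pos hy.2]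
        linarith [sq_nonneg (f x - f y)]
      · rw [if_neg hy, mul_zero]
        split_ifs <;> positivity
    refine (sum_le_sum fun x hx => sum_le_sum (h1 x hx)).trans ?_
    simp only [sum_add_distrib]
    rw [sum_comm (f := fun x y => if x ∈ B y then f y ^ 2 / 2 else 0)]
    have h2 : ∑ x ∈ F, ∑ y ∈ F, (if y ∈ B x then f x ^ 2 / 2 else 0) ≤
        N * ∑ x ∈ F, f x ^ 2 / 2 := by
      rw [mul_sum]
      refine sum_le_sum fun x _ => ?_
      rw [← sum_filter, sum_const, nsmul_eq_mul]
      exact mul_le_mul_of_nonneg_right (hrow x) (by positivity)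
    rw [← sum_div] at h2
    linarith
  calc ∑ x ∈ F, ∑ y ∈ F, f x * f y * tauW nb (B x) p x y n
      ≤ ∑ x ∈ F, ∑ y ∈ F, (f x * f y * tauW nb (B x) q x y n +
          D p * (f x * f y * (if y ∈ B x ∧ x ∈ B y then 1 else 0))) := by
        refine sum_le_sum fun x _ => sum_le_sum fun y _ => ?_
        nlinarith [mul_le_mul_of_nonneg_left (hentry x y) (mul_nonneg (hf x) (hf y))]
    _ = ∑ x ∈ F, ∑ y ∈ F, f x * f y * tauW nb (B x) q x y n +
          D p * ∑ x ∈ F, ∑ y ∈ F, f x * f y * (if y ∈ B x ∧ x ∈ B y then 1 else 0) := by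
        simp only [sum_add_distrib, mul_sum]
    _ ≤ η * n * ∑ x ∈ F, f x ^ 2 + D p * (N * ∑ x ∈ F, f x ^ 2) :=
        add_le_add (h F f hf) (mul_le_mul_of_nonneg_left hnear hD0)
    _ ≤ η' * n * ∑ x ∈ F, f x ^ 2 := by
        rw [← mul_assoc, ← add_mul]
        exact mul_le_mul_of_nonneg_right (by linarith) (sum_nonneg fun _ _ => sq_nonneg _)

/-- A small form at every parameter below which exit certificates persist gives a nonuniqueness
phase. -/
theorem pc_lt_pu_of_small [Infinite V] (hl : Labelling G nb) (Φ : Γ →* (G ≃g G)) (R : Finset V)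
    (cover : ∀ v, ∃ g, Φ g v ∈ R) (hc : G.Connected)
    (hsmall : ∀ p : ℝ, Sub nb p →
      ∃ n, 1 ≤ n ∧ FormSmall nb (fun x => wball nb x n) n p (1 / 4)) :
    pc G < pu G := by
  classical
  have : Countable V := countable_of_connected hl.listing hc
  set p0 : ℝ := 1 / ((Fintype.card ι : ℝ) + 1) with hp0
  have hp0pos : 0 < p0 := by positivity
  have hp01 : p0 ≤ 1 := by
    rw [hp0, div_le_one (by positivity)]; linarith [Nat.cast_nonneg (α := ℝ) (Fintype.card ι)]
  set W : Set ℝ := {p | 0 ≤ p ∧ p ≤ 1 ∧ Witness nb p}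
  set ps : ℝ := sSup W
  have hbdd : BddAbove W := ⟨1, fun p hp => hp.2.1⟩
  have hmem0 : p0 ∈ W := by
    refine ⟨hp0pos.le, hp01, witness_small hp0pos.le hp01 ?_⟩
    rw [hp0, div_mul_eq_mul_div, one_mul, div_lt_one (by positivity)]
    linarith
  have hp0ps : p0 ≤ ps := le_csSup hbdd hmem0
  have hps1 : ps ≤ 1 := csSup_le ⟨p0, hmem0⟩ fun p hp => hp.2.1
  have hps0 : 0 < ps := hp0pos.trans_le hp0ps
  have hsub : Sub nb ps := by
    refine ⟨hps0, hps1, fun q hq0 hq => ?_⟩
    obtain ⟨r, hr, hqr⟩ := exists_lt_of_lt_csSup ⟨p0, hmem0⟩ hq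
    exact witness_mono hq0 hqr.le hr.2.1 hr.2.2
  obtain ⟨n, hn1, hn⟩ := hsmall ps hsub
  set B : V → Finset V := fun x => wball nb x n
  have hB : Covers G B n := covers_wball hl n
  have hBtr : ∀ g x, (B x).image (Φ g) = B (Φ g x) := fun g x => image_wball hl (Φ g) x n
  set N : ℕ := ∑ o ∈ R, (B o).card with hN
  have hcard : ∀ x, (B x).card ≤ N := fun x => by
    obtain ⟨γ, hγ⟩ := cover x
    rw [← card_image_of_injective (B x) (Φ γ).injective, hBtr, hN]
    exact single_le_sum (f := fun o => (B o).card) (fun _ _ => Nat.zero_le _) hγ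
  have hps_lt : ps < 1 := by
    refine lt_of_le_of_ne hps1 fun h => ?_
    rw [h] at hn
    obtain ⟨K, hK⟩ := square_summable hl hn1 hB hcard (p := 1) zero_le_one le_rfl fun F f hf =>
      (hn F f hf).trans (mul_le_mul_of_nonneg_right
        (mul_le_mul_of_nonneg_right (by norm_num) (Nat.cast_nonneg n))
        (sum_nonneg fun _ _ => sq_nonneg _))
    obtain ⟨M, hM⟩ := exists_nat_gt K
    obtain ⟨F, hF⟩ := Infinite.exists_subset_card_eq V M
    obtain ⟨x⟩ := hc.nonempty
    choose S hS using fun y => T_one hl hc x y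
    have hbig : ∀ y ∈ F, tauIn nb (F.biUnion S) 1 x y = 1 := fun y hy =>
      le_antisymm (tauIn_le_one _ zero_le_one le_rfl x y)
        ((hS y).ge.trans (tauIn_mono hl (subset_biUnion_of_mem S hy) zero_le_one le_rfl x y))
    have h2 := hK x (F.biUnion S) F
    rw [sum_congr rfl fun y hy => by rw [hbig y hy, one_pow], sum_const, hF, nsmul_eq_mul,
      mul_one] at h2
    linarith
  obtain ⟨ε, hε, hεb⟩ := Metric.eventually_nhds_iff.1
    (formSmall_eventually hl Φ R cover hBtr hn1 hB hn (show (1 : ℝ) / 4 < 1 / 2 by norm_num))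
  set p2 : ℝ := ps + min (ε / 2) ((1 - ps) / 2) with hp2
  have hmin : 0 < min (ε / 2) ((1 - ps) / 2) := lt_min (by linarith) (by linarith)
  have hp2ps : ps < p2 := by linarith
  have hp21 : p2 < 1 := by
    have := min_le_right (ε / 2) ((1 - ps) / 2); linarith
  have hn2 : FormSmall nb B n p2 (1 / 2) := by
    refine hεb ?_
    rw [Real.dist_eq, hp2, add_sub_cancel_left, abs_of_pos hmin]
    have := min_le_left (ε / 2) ((1 - ps) / 2); linarith
  obtain ⟨K, hK⟩ := square_summable hl hn1 hB hcard (p := p2) (by linarith) hp21.le hn2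
  set q : unitInterval := ⟨(ps + p2) / 2, by constructor <;> linarith⟩ with hq
  have hqv : (q : ℝ) = (ps + p2) / 2 := rfl
  set p3 : ℝ := (ps + (q : ℝ)) / 2 with hp3
  have hnw : ¬ Witness nb p3 := fun hw => by
    have : p3 ≤ ps := le_csSup hbdd ⟨by linarith, by linarith, hw⟩
    linarith
  simp only [Witness, not_forall, not_exists, not_and, not_lt] at hnw
  obtain ⟨o, ho⟩ := hnw
  have hperc : 0 < perc G q (hasInfinite G) := by
    refine lt_of_lt_of_le (infAt_pos_of_phi hl o q (p₀ := p3) (by linarith)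
      (by linarith) (by linarith) fun p hp T hT =>
        (ho T hT).trans (phiIn_mono (by linarith) hp.1 (hp.2.trans q.2.2) T _)) ?_
    exact measure_mono (by rw [hasInfinite_eq]; exact Set.subset_iUnion (infAt G) _)
  refine pc_lt_pu G q p2 (by linarith) hperc (perc_one_unique hc) fun q' hq' => ?_
  refine not_unique_of_sq hl hc ⟨R, fun v => (cover v).imp' Φ fun _ h => h⟩ q' K fun x S F => ?_
  refine le_trans (sum_le_sum fun y _ => ?_) (hK x S F)
  exact pow_le_pow_left₀ (tauIn_nonneg S q'.2.1 q'.2.2 x y)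
    (tauIn_mono_p S q'.2.1 hq'.le hp21.le x y) 2

end Vale.Agent.P165.QT
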