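import Mathlib

/-!
# Graphs with the bottleneck property: cells

`GP H r p q` is twice the Gromov product of `p` and `q` seen from `r`. `Conn H r n p q` says that some
walk from `p` to `q` stays at distance more than `n` from `r`. A cell of root `r` and level `n` is the
part at distance more than `n + M` of a class of `Conn H r n`. Cells of one root are nested or
disjoint, exactly, and in a graph with the bottleneck property two points of a cell of level `n` have
doubled product at least `2 n` up to a constant.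
-/

namespace Vale.Agent.P165.QT

open SimpleGraph

variable {X : Type} {H : SimpleGraph X}

/-- Twice the Gromov product. -/
noncomputable def GP (H : SimpleGraph X) (r p q : X) : ℕ := H.dist r p + H.dist r q - H.dist p q

/-- Some walk from `p` to `q` stays outside the ball of radius `n` around `r`. -/
def Conn (H : SimpleGraph X) (r : X) (n : ℕ) (p q : X) : Prop :=
  ∃ w : H.Walk p q, ∀ v ∈ w.support, n < H.dist r v

/-- Points joined outside a ball have a large product seen from its centre. -/
def Thin (H : SimpleGraph X) (Δ : ℕ) : Prop :=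
  ∀ r n p q, Conn H r n p q → 2 * n ≤ GP H r p q + Δ

/-- The bottleneck property: every walk from `p` to `q` passes within `Δ` of every vertex between
`p` and `q`. -/
def Bottleneck (H : SimpleGraph X) (Δ : ℕ) : Prop :=
  ∀ (p q : X) (w : H.Walk p q) (m : X), H.dist p m + H.dist m q = H.dist p q →
    ∃ v ∈ w.support, H.dist v m ≤ Δ

/-- The points deeper than `n + M` joined to `q₀` outside the ball of radius `n`. -/
def cellAt (H : SimpleGraph X) (M : ℕ) (r : X) (n : ℕ) (q₀ : X) : Set X :=
  {q | n + M < H.dist r q ∧ Conn H r n q₀ q}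

/-- A cell of root `r` and level `n`. -/
def IsCell (H : SimpleGraph X) (M : ℕ) (r : X) (n : ℕ) (C : Set X) : Prop :=
  ∃ q₀, C = cellAt H M r n q₀

/-! ### Products -/

theorem gp_comm (r p q : X) : GP H r p q = GP H r q p := by
  rw [GP, GP, H.dist_comm (u := p) (v := q), add_comm]

theorem gp_add (hc : H.Connected) (r p q : X) :
    GP H r p q + H.dist p q = H.dist r p + H.dist r q := by
  have h := hc.dist_triangle (u := p) (v := r) (w := q)
  rw [H.dist_comm (u := p) (v := r)] at h
  rw [GP]; omega

theorem gp_self (r p : X) : GP H r r p = 0 := by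
  rw [GP, H.dist_self]; omega

theorem gp_le_left (hc : H.Connected) (r p q : X) : GP H r p q ≤ 2 * H.dist r p := by
  have h := gp_add hc r p q
  have h2 := hc.dist_triangle (u := r) (v := p) (w := q)
  omega

theorem gp_le_right (hc : H.Connected) (r p q : X) : GP H r p q ≤ 2 * H.dist r q :=
  (gp_comm r p q).le.trans (gp_le_left hc r q p)

/-- Moving the base changes the product by at most twice the distance. -/
theorem gp_base (hc : H.Connected) (r r' p q : X) :
    GP H r p q ≤ GP H r' p q + 2 * H.dist r r' := by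
  have h1 := gp_add hc r p q
  have h2 := gp_add hc r' p q
  have h3 := hc.dist_triangle (u := r) (v := r') (w := p)
  have h4 := hc.dist_triangle (u := r) (v := r') (w := q)
  omega

/-- Moving a point changes the product by at most twice the distance. -/
theorem gp_move (hc : H.Connected) (r p q q' : X) :
    GP H r p q ≤ GP H r p q' + 2 * H.dist q q' := by
  have h1 := gp_add hc r p q
  have h2 := gp_add hc r p q'
  have h3 := hc.dist_triangle (u := r) (v := q') (w := q)
  have h4 := hc.dist_triangle (u := p) (v := q) (w := q')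
  rw [H.dist_comm (u := q') (v := q)] at h3
  omega

theorem gp_split (hc : H.Connected) (x y r : X) :
    GP H x y r + GP H y x r = 2 * H.dist x y := by
  have h1 := gp_add hc x y r
  have h2 := gp_add hc y x r
  rw [H.dist_comm (u := y) (v := x)] at h2
  omega

/-! ### Walks outside a ball -/

/-- A vertex of a geodesic is between its ends. -/
theorem dist_support (hc : H.Connected) {p q : X} (w : H.Walk p q) (hw : w.length = H.dist p q)
    {v : X} (hv : v ∈ w.support) : H.dist p v + H.dist v q = H.dist p q := by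
  classical
  have h1 := dist_le (w.takeUntil v hv)
  have h2 := dist_le (w.dropUntil v hv)
  have h3 := congrArg Walk.length (w.take_spec hv)
  rw [Walk.length_append] at h3
  have h4 := hc.dist_triangle (u := p) (v := v) (w := q)
  omega

theorem Conn.symm {r p q : X} {n : ℕ} (h : Conn H r n p q) : Conn H r n q p := by
  obtain ⟨w, hw⟩ := h
  exact ⟨w.reverse, fun v hv => hw v (List.mem_reverse.1 (w.support_reverse ▸ hv))⟩

theorem Conn.trans {r p q s : X} {n : ℕ} (h : Conn H r n p q) (h' : Conn H r n q s) :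
    Conn H r n p s := by
  obtain ⟨w, hw⟩ := h
  obtain ⟨w', hw'⟩ := h'
  exact ⟨w.append w', fun v hv => ((Walk.mem_support_append_iff _ _).1 hv).elim (hw v) (hw' v)⟩

theorem Conn.mono {r p q : X} {n n' : ℕ} (h : Conn H r n' p q) (hn : n ≤ n') : Conn H r n p q := by
  obtain ⟨w, hw⟩ := h
  exact ⟨w, fun v hv => hn.trans_lt (hw v hv)⟩

theorem Conn.lt_left {r p q : X} {n : ℕ} (h : Conn H r n p q) : n < H.dist r p := by
  obtain ⟨w, hw⟩ := h
  exact hw p w.start_mem_support

theorem Conn.lt_right {r p q : X} {n : ℕ} (h : Conn H r n p q) : n < H.dist r q :=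
  h.symm.lt_left

theorem conn_refl {r p : X} {n : ℕ} (h : n < H.dist r p) : Conn H r n p p :=
  ⟨.nil, fun v hv => by rwa [List.mem_singleton.1 hv]⟩

/-- A large product keeps a geodesic out of the ball. -/
theorem conn_of_gp (hc : H.Connected) {r p q : X} {n : ℕ} (h : 2 * n < GP H r p q) :
    Conn H r n p q := by
  obtain ⟨w, hw⟩ := hc.exists_walk_length_eq_dist p q
  refine ⟨w, fun v hv => ?_⟩
  have h1 := dist_support hc w hw hv
  have h2 := gp_add hc r p q
  have h3 := hc.dist_triangle (u := r) (v := v) (w := p)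
  have h4 := hc.dist_triangle (u := r) (v := v) (w := q)
  rw [H.dist_comm (u := v) (v := p)] at h3
  omega

theorem conn_of_near (hc : H.Connected) {r p q : X} {n : ℕ}
    (h : n + H.dist p q < H.dist r p) : Conn H r n p q := by
  obtain ⟨w, hw⟩ := hc.exists_walk_length_eq_dist p q
  refine ⟨w, fun v hv => ?_⟩
  have h1 := dist_support hc w hw hv
  have h3 := hc.dist_triangle (u := r) (v := v) (w := p)
  rw [H.dist_comm (u := v) (v := p)] at h3
  omega

/-- The bottleneck property makes the graph thin. -/
theorem thin_of_bottleneck (hc : H.Connected) {Δ : ℕ} (hB : Bottleneck H Δ) : Thin H (6 * Δ) := by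
  classical
  rintro r n p q ⟨w, hw⟩
  obtain ⟨γ, hγ⟩ := hc.exists_walk_length_eq_dist p q
  obtain ⟨α, hα⟩ := hc.exists_walk_length_eq_dist p r
  obtain ⟨β, hβ⟩ := hc.exists_walk_length_eq_dist r q
  set P : ℕ → Prop := fun i => ∃ a ∈ α.support, H.dist a (γ.getVert i) ≤ Δ
  have hP0 : P 0 := ⟨p, α.start_mem_support, by rw [Walk.getVert_zero, H.dist_self]; omega⟩
  set i := Nat.findGreatest P γ.length
  obtain ⟨a, ha, had⟩ : P i := Nat.findGreatest_spec (Nat.zero_le _) hP0
  obtain ⟨m', b, hb, hbd, hstep⟩ : ∃ m' b, b ∈ β.support ∧ H.dist b m' ≤ Δ ∧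
      H.dist (γ.getVert i) m' ≤ 1 := by
    rcases (Nat.findGreatest_le (P := P) γ.length).eq_or_lt with h | h
    · refine ⟨q, q, β.end_mem_support, by rw [H.dist_self]; omega, ?_⟩
      rw [show γ.getVert i = q by rw [show i = γ.length from h, Walk.getVert_length], H.dist_self]
      omega
    · have hno : ¬ P (i + 1) := fun hP =>
        absurd (Nat.le_findGreatest (P := P) h hP) (by omega)
      obtain ⟨v, hv, hvd⟩ := hB p q (α.append β) (γ.getVert (i + 1))
        (dist_support hc γ hγ (γ.getVert_mem_support _))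
      rcases (Walk.mem_support_append_iff _ _).1 hv with hv | hv
      · exact absurd ⟨v, hv, hvd⟩ hno
      · exact ⟨γ.getVert (i + 1), v, hv, hvd, (dist_eq_one_iff_adj.2 (γ.adj_getVert_succ h)).le⟩
  obtain ⟨c, hc1, hcd⟩ := hB p q w (γ.getVert i) (dist_support hc γ hγ (γ.getVert_mem_support _))
  have hn := hw c hc1
  have h1 := dist_support hc α hα ha
  have h2 := dist_support hc β hβ hb
  set m := γ.getVert i
  have h3 := hc.dist_triangle (u := p) (v := a) (w := m)
  have h4 := hc.dist_triangle (u := p) (v := m) (w := m')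
  have h5 := hc.dist_triangle (u := p) (v := m') (w := b)
  have h6 := hc.dist_triangle (u := p) (v := b) (w := q)
  have h7 := hc.dist_triangle (u := r) (v := a) (w := m)
  have h8 := hc.dist_triangle (u := r) (v := b) (w := m')
  have h9 := hc.dist_triangle (u := r) (v := m') (w := m)
  have h10 := hc.dist_triangle (u := r) (v := m) (w := c)
  have h11 := gp_add hc r p q
  rw [H.dist_comm (u := a) (v := r), H.dist_comm (u := p) (v := r)] at h1
  rw [H.dist_comm (u := m') (v := b)] at h5
  rw [H.dist_comm (u := m') (v := m)] at h9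
  rw [H.dist_comm (u := m) (v := c)] at h10
  omega

/-- The four point condition. -/
theorem four_point (hc : H.Connected) {Δ : ℕ} (hΔ : Thin H Δ) (r p q s : X) :
    min (GP H r p q) (GP H r q s) ≤ GP H r p s + Δ + 2 := by
  by_contra h
  set g := min (GP H r p q) (GP H r q s) with hg
  have h1 : g ≤ GP H r p q := min_le_left _ _
  have h2 : g ≤ GP H r q s := min_le_right _ _
  have h3 := hΔ r ((g - 1) / 2) p s
    ((conn_of_gp (p := p) (q := q) hc (by omega)).trans (conn_of_gp hc (by omega)))
  omega

/-! ### Cells -/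

theorem cellAt_isCell (M : ℕ) (r : X) (n : ℕ) (q : X) : IsCell H M r n (cellAt H M r n q) :=
  ⟨q, rfl⟩

theorem mem_cellAt_self {M : ℕ} {r q : X} {n : ℕ} (h : n + M < H.dist r q) :
    q ∈ cellAt H M r n q :=
  ⟨h, conn_refl (by omega)⟩

namespace IsCell

variable {M : ℕ} {r : X} {n n' : ℕ} {C C' : Set X}

theorem lt (hC : IsCell H M r n C) {q : X} (hq : q ∈ C) : n + M < H.dist r q := by
  obtain ⟨q₀, rfl⟩ := hC
  exact hq.1

theorem notMem_root (hC : IsCell H M r n C) : r ∉ C := fun h => by
  have := hC.lt h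
  rw [H.dist_self] at this
  omega

theorem conn (hC : IsCell H M r n C) {p q : X} (hp : p ∈ C) (hq : q ∈ C) : Conn H r n p q := by
  obtain ⟨q₀, rfl⟩ := hC
  exact hp.2.symm.trans hq.2

theorem mem_of_conn (hC : IsCell H M r n C) {p q : X} (hp : p ∈ C) (hd : n + M < H.dist r q)
    (h : Conn H r n p q) : q ∈ C := by
  obtain ⟨q₀, rfl⟩ := hC
  exact ⟨hd, hp.2.trans h⟩

theorem mem_of_gp (hc : H.Connected) (hC : IsCell H M r n C) {p q : X} (hp : p ∈ C)
    (hd : n + M < H.dist r q) (h : 2 * n < GP H r p q) : q ∈ C :=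
  hC.mem_of_conn hp hd (conn_of_gp hc h)

theorem gp_le {Δ : ℕ} (hΔ : Thin H Δ) (hC : IsCell H M r n C) {p q : X} (hp : p ∈ C)
    (hq : q ∈ C) : 2 * n ≤ GP H r p q + Δ :=
  hΔ r n p q (hC.conn hp hq)

/-- A deeper cell meeting a cell lies inside it. -/
theorem subset_of_mem (hC : IsCell H M r n C) (hC' : IsCell H M r n' C') (hn : n ≤ n') {p : X}
    (hp : p ∈ C) (hp' : p ∈ C') : C' ⊆ C := fun q hq =>
  hC.mem_of_conn hp (by have := hC'.lt hq; omega) ((hC'.conn hp' hq).mono hn)

theorem eq_of_mem (hC : IsCell H M r n C) (hC' : IsCell H M r n C') {p : X} (hp : p ∈ C)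
    (hp' : p ∈ C') : C = C' :=
  (hC'.subset_of_mem hC le_rfl hp' hp).antisymm (hC.subset_of_mem hC' le_rfl hp hp')

/-- A short step out of a cell starts just above its depth. -/
theorem dist_le_of_step (hc : H.Connected) (hC : IsCell H M r n C) {p q : X} (hp : p ∈ C)
    (hq : q ∉ C) (hM : H.dist p q ≤ M) : H.dist r p ≤ n + M + H.dist p q := by
  by_contra h
  have h1 := hc.dist_triangle (u := r) (v := q) (w := p)
  rw [H.dist_comm (u := q) (v := p)] at h1
  have h2 := hC.lt hp
  exact hq (hC.mem_of_conn hp (by omega) (conn_of_near hc (by omega)))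

end IsCell

/-! ### Automorphisms -/

theorem dist_iso (hc : H.Connected) (f : H ≃g H) (p q : X) : H.dist (f p) (f q) = H.dist p q := by
  have key : ∀ (f : H ≃g H) (p q : X), H.dist (f p) (f q) ≤ H.dist p q := fun f p q => by
    obtain ⟨w, hw⟩ := hc.exists_walk_length_eq_dist p q
    exact (dist_le (w.map f.toHom)).trans (by rw [Walk.length_map, hw])
  refine le_antisymm (key f p q) ?_
  simpa using key f.symm (f p) (f q)

theorem gp_iso (hc : H.Connected) (f : H ≃g H) (r p q : X) :
    GP H (f r) (f p) (f q) = GP H r p q := by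
  simp [GP, dist_iso hc f]

theorem conn_iso (hc : H.Connected) (f : H ≃g H) {r p q : X} {n : ℕ} (h : Conn H r n p q) :
    Conn H (f r) n (f p) (f q) := by
  obtain ⟨w, hw⟩ := h
  refine ⟨w.map f.toHom, fun v hv => ?_⟩
  rw [Walk.support_map, List.mem_map] at hv
  obtain ⟨u, hu, rfl⟩ := hv
  show n < H.dist (f r) (f u)
  rw [dist_iso hc]
  exact hw u hu

theorem IsCell.image (hc : H.Connected) (f : H ≃g H) {M : ℕ} {r : X} {n : ℕ} {C : Set X}
    (hC : IsCell H M r n C) : IsCell H M (f r) n (f '' C) := by
  obtain ⟨q₀, rfl⟩ := hC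
  refine ⟨f q₀, Set.ext fun q => ⟨?_, fun ⟨h1, h2⟩ => ⟨f.symm q, ⟨?_, ?_⟩, f.apply_symm_apply q⟩⟩⟩
  · rintro ⟨u, ⟨h1, h2⟩, rfl⟩
    exact ⟨(dist_iso hc f r u).symm ▸ h1, conn_iso hc f h2⟩
  · rw [← dist_iso hc f r, f.apply_symm_apply]
    exact h1
  · simpa using conn_iso hc f.symm h2

end Vale.Agent.P165.QT
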