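import Vale.Agent.P165.QT.Basic
import Vale.Agent.P165.TR.LastExit
import Vale.Agent.P165.TA.CutArith

/-!
# Cuts by cells around the branching point

For `y` far from `x` in the direction of a root, the cells of `x` around a point near the branching
point separate `x` from `y`. A short connection leaves the cell of every level for the last time at a
gate, the gates of all levels have total bounded by the tail, so a fixed number of cuts makes the
mass of `y` any power of the tail over the distance.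
-/

namespace Vale.Agent.P165.QT

open Finset
open Vale.Agent.P165.FQ (tauW tauW_nonneg)

variable {X : Type} {H : SimpleGraph X}

/-- A vertex of a geodesic at a given distance from its start. -/
theorem exists_between (hc : H.Connected) (a b : X) {i : ℕ} (hi : i ≤ H.dist a b) :
    ∃ m, H.dist a m = i ∧ H.dist a m + H.dist m b = H.dist a b := by
  obtain ⟨w, hw⟩ := hc.exists_walk_length_eq_dist a b
  have h1 := (SimpleGraph.dist_le (w.take i)).trans_eq (w.take_length i)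
  have h2 := (SimpleGraph.dist_le (w.drop i)).trans_eq (w.drop_length i)
  have h3 := hc.dist_triangle (u := a) (v := w.getVert i) (w := b)
  exact ⟨w.getVert i, by omega, by omega⟩

/-- Nothing short leaves a start outside the window. -/
theorem tauW_outside {V ι : Type} [DecidableEq V] [Fintype ι] {nb : V → ι → V} (S : Finset V)
    (p : ℝ) {a y : V} (n : ℕ) (hne : a ≠ y) (ha : a ∉ S) : tauW nb S p a y n = 0 := by
  refine (avg_congr _ _ fun η hη => if_neg fun hw => ha ?_).trans (by simp [avg])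
  obtain ⟨w, -⟩ := hw
  cases w with
  | nil => exact absurd rfl hne
  | cons hadj _ =>
    exact inE_mem (hη (mem_coe.1 ((SimpleGraph.fromEdgeSet_adj _).1 hadj).1))
      (Sym2.mem_mk_left _ _)

namespace Env

variable {Γ O ι V : Type} [Group Γ] [Fintype ι] {E : Env Γ O ι V X}

/-- A frame avoiding a root from a point of a cell of that root points into the cell. -/
theorem Uat_subset_root {r : X} {n : ℕ} {C : Set X} (hC : IsCell E.H E.M r n C) {z : V}
    (hz : E.pos z ∈ C) {i : Fin 3}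
    (hi : ∀ q ∈ E.Uat z i, GP E.H (E.base z) q r ≤ E.Kf) {q : X} (hq : q ∈ E.Uat z i) : q ∈ C := by
  have h1 := hi q hq
  have h2 := (E.isCell_Uat z i).lt hq
  have h3 := hC.lt hz
  have h4 := gp_add E.hc (E.base z) q r
  have h5 := E.pos_base_le z
  have h6 := E.hc.dist_triangle (u := r) (v := E.base z) (w := E.pos z)
  rw [E.H.dist_comm (u := q) (v := r), E.H.dist_comm (u := E.base z) (v := r)] at h4
  have hM := E.hM
  refine hC.mem_of_gp E.hc hz (by omega) ?_
  have h7 := gp_add E.hc r (E.pos z) q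
  have h8 := E.hc.dist_triangle (u := E.pos z) (v := E.base z) (w := q)
  rw [E.H.dist_comm (u := E.pos z) (v := E.base z)] at h8
  omega

/-- The anchor at a gate, with its larger shadow inside the cell. -/
theorem exists_anchor {r : X} {n : ℕ} {C : Set X} (hC : IsCell E.H E.M r n C) {z : V}
    (hz : E.pos z ∈ C) :
    ∃ ψ, E.Joined ψ E.blk z ∧ E.pos z ∉ E.B E.k₀ ψ ∧ E.B E.k₁ ψ ⊆ C ∧
      E.H.dist (E.pos z) (E.act ψ E.t₀) ≤ E.D * E.blk := by
  obtain ⟨i, hi⟩ := E.avoid_at z r r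
  refine ⟨E.sec z * E.τ i, E.joined_τ z i, ?_,
    fun q hq => Uat_subset_root hC hz (fun q hq => (hi q hq).1) (E.B₁_frame z i hq),
    E.joined_dist (E.joined_τ z i)⟩
  obtain ⟨w, -, hw⟩ := E.joined_τ z i
  exact hw z w.start_mem_support

variable [DecidableEq V] {p : ℝ} {K : ℕ} {T : ℝ}

open Classical in
/-- The points of a range of products seen from outside a cell, by the tail. -/
theorem gate_tail (h0 : 0 < p) (hT : E.TailLe p K T) {r : X} {n : ℕ} {C : Set X}
    (hC : IsCell E.H E.M r n C) {z : V} (hz : E.pos z ∈ C) (w : X) (lo hi : ℕ) (S Y : Finset V)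
    (hS : ∀ v ∈ S, v = z ∨ E.pos v ∉ C)
    (hY : ∀ y ∈ Y, E.pos y ∉ C ∧ lo ≤ GP E.H (E.pos y) (E.pos z) w + 2 * (E.D * E.blk) ∧
      GP E.H (E.pos y) (E.pos z) w + 2 * (E.D * E.blk) ≤ hi) :
    ∑ y ∈ Y, tauW E.nb S p z y K ≤
      (((hi + 1 - (lo - 4 * (E.D * E.blk))) : ℕ) : ℝ) * (T / p ^ E.blk) := by
  obtain ⟨ψ, hj, hzB, hψ, hd⟩ := exists_anchor hC hz
  set R := E.D * E.blk
  have hmap : ∀ y ∈ Y, GP E.H (E.pos y) (E.act ψ E.t₀) w ∈ Icc (lo - 4 * R) hi := by
    intro y hy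
    obtain ⟨-, h1, h2⟩ := hY y hy
    have h3 := gp_move E.hc (E.pos y) w (E.pos z) (E.act ψ E.t₀)
    have h4 := gp_move E.hc (E.pos y) w (E.act ψ E.t₀) (E.pos z)
    rw [gp_comm (E.pos y) w, gp_comm (E.pos y) w] at h3 h4
    rw [E.H.dist_comm (u := E.act ψ E.t₀)] at h4
    rw [mem_Icc]
    omega
  rw [← sum_fiberwise_of_maps_to hmap]
  refine (sum_le_card_nsmul _ _ (T / p ^ E.blk) fun d _ => ?_).trans (le_of_eq (by
    rw [Nat.card_Icc, nsmul_eq_mul]))
  rw [le_div_iff₀' (pow_pos h0 _)]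
  refine hT ψ E.blk z hj w d S _ (fun v hv hb => ?_) fun y hy => ⟨fun hb => ?_, (mem_filter.1 hy).2⟩
  · rcases hS v hv with rfl | h
    · exact hzB hb
    · exact h (hψ (E.B₀_subset_B₁ ψ hb))
  · exact (hY y (mem_filter.1 hy).1).1 (hψ hb)

open Classical in
/-- The points of one class far from `x` are light. -/
theorem row_far [Fintype O] (h0 : 0 < p) (h1 : p ≤ 1) (hT0 : 0 ≤ T) (hT : E.TailLe p K T) (k : ℕ)
    {x : V} {r : X} {u v : ℕ} (hu : 2 ^ k * (8 * (E.D + E.Δ + 4)) + E.M + 1 ≤ u / 2) (F : Finset V)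
    (hF : ∀ y ∈ F, GP E.H (E.pos x) (E.pos y) r = u ∧ GP E.H (E.pos y) (E.pos x) r = v) :
    ∑ y ∈ F, E.tau p K x y ≤ ((2 * E.M + E.D + E.Δ + 2 : ℕ) : ℝ) * E.own p K *
      ((8 * ((E.D : ℝ) * ((2 * (E.M + E.D) + E.Δ + 6 * (E.D * E.blk) + 1 : ℕ) : ℝ)) * 2 ^ k) ^ k *
        (((4 * E.Δ + 4 * (E.D * E.blk) + 14 : ℕ) : ℝ) * (T / p ^ E.blk) /
          (u / 2 - E.M - 1 : ℕ)) ^ k *
        (((4 * E.Δ + 4 * (E.D * E.blk) + 14 : ℕ) : ℝ) * (T / p ^ E.blk))) := by
  have hown := E.own_nonneg h0.le h1 K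
  have hp := pow_pos h0 E.blk
  rcases F.eq_empty_or_nonempty with rfl | ⟨y₀, hy₀⟩
  · rw [sum_empty]; positivity
  set a := E.pos x
  set R := E.D * E.blk
  set T' := T / p ^ E.blk
  have hT' : 0 ≤ T' := div_nonneg hT0 hp.le
  -- one branching point serves the whole class
  obtain ⟨m, hm, hmr⟩ := exists_between E.hc a r
    (show u / 2 ≤ E.H.dist a r by
      have h := gp_le_right E.hc a (E.pos y₀) r
      rw [(hF y₀ hy₀).1] at h
      omega)
  have hbr : ∀ y ∈ F, GP E.H m a (E.pos y) ≤ E.Δ + 3 ∧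
      2 * E.H.dist (E.pos y) m ≤ v + 2 * E.Δ + 7 ∧ v ≤ 2 * E.H.dist (E.pos y) m := by
    intro y hy
    obtain ⟨hyu, hyv⟩ := hF y hy
    have h1 := four_point E.hc E.thin a (E.pos y) r m
    have h2 := gp_add E.hc a r m
    have h3 := gp_split E.hc a (E.pos y) r
    have h6 := gp_add E.hc a (E.pos y) m
    have h7 := gp_add E.hc m a (E.pos y)
    rw [E.H.dist_comm (u := r) (v := m)] at h2
    rw [E.H.dist_comm (u := m) (v := a), E.H.dist_comm (u := m) (v := E.pos y)] at h7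
    omega
  set nx := E.H.dist a m with hnx
  set C : ℕ → Set X := fun i => cellAt E.H E.M m i a
  have hCc : ∀ i, IsCell E.H E.M m i (C i) := fun i => cellAt_isCell E.M m i a
  have haC : ∀ i, i + E.M < nx → a ∈ C i := fun i hi =>
    mem_cellAt_self (by rw [E.H.dist_comm]; exact hi)
  have hgp : ∀ i, i + E.M < nx → ∀ q ∈ C i, 2 * i ≤ GP E.H m a q + E.Δ := fun i hi q hq =>
    (hCc i).gp_le E.thin (haC i hi) hq
  have hyC : ∀ i, i + E.M < nx → E.Δ + 2 ≤ i → ∀ y ∈ F, E.pos y ∉ C i := fun i hi hi' y hy h => by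
    have := hgp i hi _ h
    have := (hbr y hy).1
    omega
  set Wd := E.ball x K
  set S : ℕ → V → Finset V := fun i z => insert z (Wd.filter fun w => E.pos w ∉ C i)
  set M₀ : V × ℕ → ℝ := fun q => ∑ y ∈ F, tauW E.nb (S q.2 q.1) p q.1 y K
  have hstep : ∀ (j : ℕ) (z : V) (S₁ : Finset V), j + E.M < nx → E.Δ + 2 ≤ j → E.pos z ∈ C j →
      (∀ w ∈ S₁, w = z ∨ w ∈ Wd) →
      ∑ y ∈ F, tauW E.nb S₁ p z y K ≤
        ∑ w ∈ S₁.filter (E.Gate (C j)), tauW E.nb S₁ p z w K * M₀ (w, j) := by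
    intro j z S₁ hj hj' hz hS₁
    simp only [M₀, mul_sum]
    rw [sum_comm]
    refine sum_le_sum fun y hy => ?_
    refine le_trans (TR.tauW_last_exit E.hl S₁ (E.pre (C j)) (S₁.filter (E.Gate (C j)))
      (fun w => S j w) h0.le h1 (hyC j hj hj' y hy)
      (fun x' w hadj hx' hw hwS => mem_filter.2 ⟨hwS, hw, x', hadj, hx'⟩)
      (fun w _ => ⟨mem_insert_self _ _, fun b hb hb' => ?_⟩) K) (le_of_eq ?_)
    · rcases hS₁ b hb with rfl | h
      · exact absurd hz hb'
      · exact mem_insert_of_mem (mem_filter.2 ⟨h, hb'⟩)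
    · rw [tauW_outside (S₁.filter fun b => b ∉ E.pre (C j)) p (a := z) (y := y) K
        (fun e => hyC j hj hj' y hy (e ▸ hz)) (fun h => (mem_filter.1 h).2 hz), zero_add]
  let P : V × ℕ → Prop := fun q => q.2 + E.M < nx ∧ E.Gate (C q.2) q.1
  set c₂ : ℝ := ((4 * E.Δ + 4 * R + 14 : ℕ) : ℝ)
  have hc₂ : 1 ≤ c₂ := Nat.one_le_cast.2 (by omega)
  have hcuts := TA.cuts_decay (S := {q // P q ∧ 2 * E.Δ + 4 ≤ q.2}) (fun s => s.1.2)
    (fun s => M₀ s.1) (T := c₂ * T')
    (CT := 8 * ((E.D : ℝ) * ((2 * (E.M + E.D) + E.Δ + 6 * R + 1 : ℕ) : ℝ)))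
    (N₀ := 8 * (E.D + E.Δ + 4)) (by omega) (by positivity) (by positivity) ?_ ?_ k
  rotate_left
  · rintro ⟨⟨z, i⟩, ⟨hi, hz⟩, hi'⟩
    simp only at hi hz hi' ⊢
    refine (gate_tail h0 hT (hCc i) hz.1 m (v + 2 * R - (2 * E.Δ + 5)) (v + 2 * E.Δ + 7 + 2 * R)
      (S i z) F (fun w hw => ?_) fun y hy => ?_).trans
        (mul_le_mul_of_nonneg_right (Nat.cast_le.2 (by omega)) hT')
    · rcases mem_insert.1 hw with h | h
      exacts [Or.inl h, Or.inr (mem_filter.1 h).2]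
    · refine ⟨hyC i hi (by omega) y hy, ?_⟩
      have h1 := hgp i hi _ hz.1
      have h2 := four_point E.hc E.thin m a (E.pos z) (E.pos y)
      obtain ⟨h3, h4, h5⟩ := hbr y hy
      have h6 := gp_split E.hc (E.pos y) m (E.pos z)
      rw [gp_comm (E.pos y) m (E.pos z), gp_comm m (E.pos y) (E.pos z)] at h6
      omega
  · rintro ⟨⟨z, i⟩, ⟨hi, hz⟩, hi'⟩ hN
    simp only at hi hz hi' hN ⊢
    set I := Ioc (i / 2) (i / 2 + i / 4) with hI
    have hSout : ∀ w ∈ S i z, w = z ∨ E.pos w ∉ C i := fun w hw => by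
      rcases mem_insert.1 hw with h | h
      exacts [Or.inl h, Or.inr (mem_filter.1 h).2]
    set Q := ((S i z) ×ˢ I).filter fun q => E.Gate (C q.2) q.1
    have hIb : ∀ j ∈ I, j + E.D < i ∧ 2 * E.Δ + 4 ≤ j ∧ i ≤ 2 * j ∧ j + E.M < nx := fun j hj => by
      have := mem_Ioc.1 hj
      omega
    have hPQ : ∀ q ∈ Q, P q ∧ 2 * E.Δ + 4 ≤ q.2 := fun q hq => by
      obtain ⟨hq1, hq2⟩ := mem_filter.1 hq
      obtain ⟨-, h2, -, h4⟩ := hIb _ (mem_product.1 hq1).2
      exact ⟨⟨h4, hq2⟩, h2⟩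
    have hzC : ∀ j ∈ I, E.pos z ∈ C j := fun j hj =>
      (hCc j).subset_of_mem (hCc i) (by have := hIb j hj; omega) (haC j (hIb j hj).2.2.2)
        (haC i hi) hz.1
    refine ⟨Q.subtype fun q => P q ∧ 2 * E.Δ + 4 ≤ q.2,
      fun s => 8 * tauW E.nb (S i z) p z s.1.1 K, fun s _ => ?_, ?_, ?_, ?_⟩
    · exact mul_nonneg (by norm_num) (tauW_nonneg _ h0.le h1 _ _ _)
    · rw [sum_subtype_of_mem (fun q => 8 * tauW E.nb (S i z) p z q.1 K) hPQ, ← mul_sum, sum_filter,
        sum_product]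
      set c₁ : ℝ := ((2 * (E.M + E.D) + E.Δ + 6 * R + 1 : ℕ) : ℝ)
      refine le_trans (mul_le_mul_of_nonneg_left ?_ (by norm_num : (0 : ℝ) ≤ 8))
        (show (8 : ℝ) * ((E.D : ℝ) * (c₁ * T')) ≤ 8 * ((E.D : ℝ) * c₁) * (c₂ * T') by
          have h2 : 0 ≤ 8 * ((E.D : ℝ) * c₁) := by positivity
          calc (8 : ℝ) * ((E.D : ℝ) * (c₁ * T')) = 8 * ((E.D : ℝ) * c₁) * T' := by ring
            _ ≤ _ := mul_le_mul_of_nonneg_left (le_mul_of_one_le_left hT' hc₂) h2)
      set Z := (S i z).filter fun w => ∃ j ∈ I, E.Gate (C j) w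
      refine le_trans (b := ∑ w ∈ Z, (E.D : ℝ) * tauW E.nb (S i z) p z w K) ?_ ?_
      · refine le_of_le_of_eq ?_ (sum_filter _ _).symm
        refine sum_le_sum fun w _ => ?_
        dsimp only
        rw [← sum_filter, sum_const, nsmul_eq_mul]
        split_ifs with hw
        · refine mul_le_mul_of_nonneg_right (Nat.cast_le.2 ?_) (tauW_nonneg _ h0.le h1 _ _ _)
          set dw := E.H.dist m (E.pos w)
          refine (card_le_card (t := Ico (dw - E.M - E.D) (dw - E.M)) fun j hj => ?_).trans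
            (by rw [Nat.card_Ico]; omega)
          obtain ⟨h2, h3⟩ := E.gate_dist (hCc j) (mem_filter.1 hj).2
          rw [mem_Ico]
          omega
        · rw [card_eq_zero.2 (filter_eq_empty_iff.2 fun j hj hg => hw ⟨j, hj, hg⟩)]
          simp
      · rw [← mul_sum]
        refine mul_le_mul_of_nonneg_left ((gate_tail h0 hT (hCc i) hz.1 m 0
          (2 * (E.M + E.D) + E.Δ + 6 * R) (S i z) Z
          hSout fun w hw => ?_).trans
            (mul_le_mul_of_nonneg_right (Nat.cast_le.2 (by omega)) hT')) (Nat.cast_nonneg _)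
        obtain ⟨-, j, hj, hg⟩ := mem_filter.1 hw
        obtain ⟨h2, h3⟩ := E.gate_dist (hCc j) hg
        obtain ⟨h4, -, -, h5⟩ := hIb j hj
        refine ⟨fun h => by have := (hCc i).lt h; omega, Nat.zero_le _, ?_⟩
        have h6 := (hCc j).gp_le E.thin hg.1 (hzC j hj)
        have h7 := gp_split E.hc (E.pos w) m (E.pos z)
        rw [gp_comm (E.pos w) m (E.pos z), E.H.dist_comm (u := E.pos w) (v := m)] at h7
        omega
    · intro s hs
      exact (hIb _ (mem_product.1 (mem_filter.1 (mem_subtype.1 hs)).1).2).2.2.1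
    · rw [sum_subtype_of_mem (fun q => 8 * tauW E.nb (S i z) p z q.1 K * M₀ q) hPQ, sum_filter,
        sum_product_right]
      have hone : ∀ j ∈ I, M₀ (z, i) ≤
          ∑ w ∈ S i z, if E.Gate (C j) w then tauW E.nb (S i z) p z w K * M₀ (w, j) else 0 := by
        intro j hj
        rw [← sum_filter]
        exact hstep j z (S i z) (hIb j hj).2.2.2 (by have := hIb j hj; omega) (hzC j hj)
          fun w hw => (mem_insert.1 hw).imp id fun h => (mem_filter.1 h).1
      refine le_trans (b := (8 : ℝ) * ∑ j ∈ I,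
        ∑ w ∈ S i z, if E.Gate (C j) w then tauW E.nb (S i z) p z w K * M₀ (w, j) else 0) ?_ ?_
      · refine le_trans ?_ (mul_le_mul_of_nonneg_left (sum_le_sum hone) (by norm_num))
        rw [sum_const, nsmul_eq_mul, ← mul_assoc, hI, Nat.card_Ioc]
        refine mul_le_mul_of_nonneg_right ?_
          (sum_nonneg fun y _ => tauW_nonneg _ h0.le h1 _ _ _)
        have : i ≤ 8 * (i / 2 + i / 4 - i / 2) := by omega
        exact_mod_cast this
      · simp only [mul_sum, mul_ite, mul_zero, mul_assoc]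
        exact le_rfl
  set i₀ := u / 2 - E.M - 1 with hi₀
  have hi₀' : i₀ + E.M < nx ∧ 2 * E.Δ + 4 ≤ i₀ ∧ 2 ^ k * (8 * (E.D + E.Δ + 4)) ≤ i₀ := by
    have := Nat.le_mul_of_pos_left (8 * (E.D + E.Δ + 4)) (Nat.two_pow_pos k)
    omega
  refine (hstep i₀ x Wd hi₀'.1 (by omega) (haC i₀ hi₀'.1) fun w hw => Or.inr hw).trans ?_
  refine (sum_le_sum (g := fun w => tauW E.nb Wd p x w K *
    ((8 * ((E.D : ℝ) * ((2 * (E.M + E.D) + E.Δ + 6 * R + 1 : ℕ) : ℝ)) * 2 ^ k) ^ k *
      (c₂ * T' / (i₀ : ℕ)) ^ k * (c₂ * T'))) fun w hw => mul_le_mul_of_nonneg_left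
    (hcuts ⟨(w, i₀), ⟨hi₀'.1, (mem_filter.1 hw).2⟩, hi₀'.2.1⟩ hi₀'.2.2)
    (tauW_nonneg _ h0.le h1 _ _ _)).trans ?_
  rw [← sum_mul]
  refine mul_le_mul_of_nonneg_right ((E.sum_near_le h0.le h1 K x _ (2 * E.M + E.D + E.Δ + 1)
    fun w hw => ?_).trans_eq (by push_cast; ring)) (by positivity)
  have hg : E.Gate (C i₀) w := (mem_filter.1 hw).2
  show E.H.dist a (E.pos w) ≤ _
  obtain ⟨h2, h3⟩ := E.gate_dist (hCc i₀) hg
  have h4 := hgp i₀ hi₀'.1 _ hg.1
  have h5 := gp_add E.hc m a (E.pos w)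
  rw [E.H.dist_comm (u := m) (v := a)] at h5
  omega

end Env

end Vale.Agent.P165.QT
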