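import Vale.Agent.P165.QT.Geo
import Vale.Agent.P165.SG.Classes

/-!
# Coarse ping-pong from two elements with four ends

An escaping orbit has a bounded product between its two sides, and powers of the two elements play
ping-pong on shadows of any depth, with one constant of separation.
-/

namespace Vale.Agent.P165.QT

open SimpleGraph

variable {X : Type} {H : SimpleGraph X} {D : ℕ}

/-- A thin graph has the bottleneck property. -/
theorem bottleneck_of_thin (hT : Thin H D) : Bottleneck H (D + 1) := by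
  intro p q w m hm
  by_contra h
  push Not at h
  have := hT m (D + 1) p q ⟨w, fun v hv => by rw [H.dist_comm]; exact h v hv⟩
  rw [GP, H.dist_comm (u := m) (v := p)] at this
  omega

/-- Along a walk from a point with one property to a point with the other, the two meet. -/
theorem exists_switch {P Q : X → Prop} {p q : X} (w : H.Walk p q)
    (hor : ∀ v ∈ w.support, P v ∨ Q v) (hp : P p) (hq : Q q) :
    ∃ a b, a ∈ w.support ∧ b ∈ w.support ∧ H.dist a b ≤ 1 ∧ P a ∧ Q b := by
  induction w with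
  | nil => exact ⟨_, _, Walk.start_mem_support _, Walk.start_mem_support _, by simp, hp, hq⟩
  | @cons u x _ h w ih =>
    rcases hor x (by simp) with hx | hx
    · obtain ⟨a, b, ha, hb, hab⟩ := ih (fun v hv => hor v (by simp [hv])) hx hq
      exact ⟨a, b, by simp [ha], by simp [hb], hab⟩
    · exact ⟨u, x, by simp, by simp, (dist_eq_one_iff_adj.2 h).le, hp, hx⟩

/-- A vertex between two points is at least as far as their common part. -/
theorem gp_le_between (hc : H.Connected) (r : X) {p q v : X}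
    (h : H.dist p v + H.dist v q = H.dist p q) : GP H r p q ≤ 2 * H.dist r v := by
  have h1 := gp_add hc r p q
  have h2 := hc.dist_triangle (u := r) (v := v) (w := p)
  have h3 := hc.dist_triangle (u := r) (v := v) (w := q)
  rw [H.dist_comm (u := v) (v := p)] at h2
  omega

/-! ### Two elements with four ends -/

variable {Γ : Type} [Group Γ] (act : Γ →* (H ≃g H))

theorem smul_comp (a b : Γ) (x : X) : act (a * b) x = act a (act b x) := by rw [map_mul]; rfl

theorem smul_unit (x : X) : act 1 x = x := by rw [map_one]; rfl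

theorem smul_smul_inv (a : Γ) (x : X) : act a (act a⁻¹ x) = x := by
  rw [← smul_comp, mul_inv_cancel, smul_unit]

theorem smul_inv_smul (a : Γ) (x : X) : act a⁻¹ (act a x) = x := by
  rw [← smul_comp, inv_mul_cancel, smul_unit]

theorem dist_smul_inv (hc : H.Connected) (a : Γ) (x : X) :
    H.dist x (act a⁻¹ x) = H.dist x (act a x) := by
  rw [← dist_iso hc (act a) x (act a⁻¹ x), smul_smul_inv, H.dist_comm]

/-- A walk along an orbit. -/
theorem exists_orbit_walk (hc : H.Connected) (o : X) (g : Γ) (n : ℕ) :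
    ∃ w : H.Walk o (act (g ^ n) o), ∀ v ∈ w.support,
      ∃ j : ℕ, H.dist v (act (g ^ j) o) ≤ H.dist o (act g o) := by
  induction n with
  | zero => exact ⟨Walk.nil.copy rfl (by rw [pow_zero, smul_unit]),
      fun v hv => ⟨0, by simp at hv; simp [hv]⟩⟩
  | succ n ih =>
    obtain ⟨w, hw⟩ := ih
    obtain ⟨u, hu⟩ := hc.exists_walk_length_eq_dist (act (g ^ n) o) (act (g ^ (n + 1)) o)
    refine ⟨w.append u, fun v hv => ?_⟩
    rcases (Walk.mem_support_append_iff _ _).1 hv with h | h
    · exact hw v h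
    · refine ⟨n, ?_⟩
      have h1 := dist_support hc u hu h
      rw [pow_succ, smul_comp, dist_iso hc] at h1
      rw [H.dist_comm]
      omega

/-- An escaping orbit goes to two different ends. -/
theorem exists_gp_inv_le (hc : H.Connected) (hT : Thin H D) (o : X) {g : Γ}
    (hg : ∀ n : ℕ, n ≤ H.dist o (act (g ^ n) o)) :
    ∃ C : ℕ, ∀ n k : ℕ, GP H o (act (g ^ n) o) (act (g⁻¹ ^ k) o) ≤ C := by
  set s := H.dist o (act g o) with hs
  set E := D + 1 + s with hE
  have hstep : ∀ j : ℕ, H.dist o (act (g ^ j) o) ≤ j * s := fun j => by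
    induction j with
    | zero => simp
    | succ j ih =>
      refine (hc.dist_triangle (v := act (g ^ j) o)).trans ?_
      rw [pow_succ, smul_comp, dist_iso hc, Nat.add_mul, Nat.one_mul]
      omega
  refine ⟨2 * ((2 * E + 1) * s + E), fun n k => ?_⟩
  obtain ⟨γ, hγ⟩ := hc.exists_walk_length_eq_dist (act (g ^ n) o) (act (g⁻¹ ^ k) o)
  obtain ⟨w₁, hw₁⟩ := exists_orbit_walk act hc o g n
  obtain ⟨w₂, hw₂⟩ := exists_orbit_walk act hc o g⁻¹ k
  rw [dist_smul_inv act hc] at hw₂
  have hor : ∀ v ∈ γ.support, (∃ j : ℕ, H.dist v (act (g ^ j) o) ≤ E) ∨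
      ∃ j : ℕ, H.dist v (act (g⁻¹ ^ j) o) ≤ E := by
    intro v hv
    obtain ⟨u, hu, hd⟩ := bottleneck_of_thin hT _ _ (w₁.reverse.append w₂) v (dist_support hc γ hγ hv)
    rw [H.dist_comm] at hd
    rcases (Walk.mem_support_append_iff _ _).1 hu with h | h
    · rw [Walk.support_reverse, List.mem_reverse] at h
      obtain ⟨j, hj⟩ := hw₁ u h
      exact Or.inl ⟨j, (hc.dist_triangle (v := u)).trans (by omega)⟩
    · obtain ⟨j, hj⟩ := hw₂ u h
      exact Or.inr ⟨j, (hc.dist_triangle (v := u)).trans (by omega)⟩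
  obtain ⟨a, b, ha, -, hab, ⟨i, hi⟩, j, hj⟩ := exists_switch γ hor
    ⟨n, by simp⟩ ⟨k, by simp⟩
  have h1 : H.dist (act (g⁻¹ ^ j) o) (act (g ^ i) o) = H.dist o (act (g ^ (j + i)) o) := by
    rw [← dist_iso hc (act (g ^ j)), ← smul_comp, ← smul_comp, ← pow_add, inv_pow, mul_inv_cancel,
      smul_unit]
  have h2 := hg (j + i)
  have t1 := hc.dist_triangle (u := act (g⁻¹ ^ j) o) (v := b) (w := act (g ^ i) o)
  have t2 := hc.dist_triangle (u := b) (v := a) (w := act (g ^ i) o)
  have t3 := hc.dist_triangle (u := o) (v := act (g ^ i) o) (w := a)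
  rw [H.dist_comm (u := act (g⁻¹ ^ j) o) (v := b)] at t1
  rw [H.dist_comm (u := b) (v := a)] at t2
  rw [H.dist_comm (u := act (g ^ i) o) (v := a)] at t3
  have h3 := gp_le_between hc o (dist_support hc γ hγ ha)
  have h4 := hstep i
  have h5 : i * s ≤ (2 * E + 1) * s := Nat.mul_le_mul_right _ (by omega)
  omega

/-- The two sides of a letter add up. -/
theorem gp_two_sided (hc : H.Connected) (t : X) (a : Γ) (q : X) :
    GP H t (act a t) (act a q) + GP H t (act a⁻¹ t) q = 2 * H.dist t (act a t) := by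
  have h1 := gp_add hc t (act a t) (act a q)
  have h2 := gp_add hc t (act a⁻¹ t) q
  have h3 : H.dist (act a⁻¹ t) q = H.dist t (act a q) := by
    rw [← dist_iso hc (act a), smul_smul_inv]
  rw [dist_iso hc] at h1
  rw [dist_smul_inv act hc] at h2
  omega

/-- Elements playing ping-pong on four coarse shadows of depth `R` at `t`. -/
structure Quad (H : SimpleGraph X) (act : Γ →* (H ≃g H)) (t : X) (C R : ℕ) where
  make ::
  /-- The two elements and their inverses. -/
  c : Fin 4 → Γ
  inv_c : ∀ i, c (![1, 0, 3, 2] i) = (c i)⁻¹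
  long : ∀ i, R < H.dist t (act (c i) t)
  sep : ∀ i j, i ≠ j → GP H t (act (c i) t) (act (c j) t) ≤ C

theorem sym_four {f : Fin 4 → Fin 4 → ℕ} {C : ℕ} (hs : ∀ i j, f i j = f j i) (h01 : f 0 1 ≤ C)
    (h02 : f 0 2 ≤ C) (h03 : f 0 3 ≤ C) (h12 : f 1 2 ≤ C) (h13 : f 1 3 ≤ C) (h23 : f 2 3 ≤ C) :
    ∀ i j, i ≠ j → f i j ≤ C := by
  intro i j hij
  fin_cases i <;> fin_cases j <;>
    first | exact absurd rfl hij | assumption | exact (hs _ _).trans_le (by assumption)

/-- One separation constant serves every depth, at any base. -/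
theorem exists_quad (hc : H.Connected) (hT : Thin H D) (o t : X)
    (h4 : SG.FourEnds H act o) : ∃ C : ℕ, ∀ R : ℕ, Nonempty (Quad H act t C R) := by
  obtain ⟨g, h, K, hsp, hdiv⟩ := h4
  obtain ⟨C₁, hC₁⟩ := exists_gp_inv_le act hc hT o fun n => (hsp n).1
  obtain ⟨C₂, hC₂⟩ := exists_gp_inv_le act hc hT o fun n => (hsp n).2
  set e := H.dist o t with he
  refine ⟨K + C₁ + C₂ + 6 * e, fun R => ?_⟩
  set M := R + 1 + 2 * e
  set c : Fin 4 → Γ := ![g ^ M, g⁻¹ ^ M, h ^ M, h⁻¹ ^ M] with hcdef
  have move : ∀ a b : Γ, GP H t (act a t) (act b t) ≤ GP H o (act a o) (act b o) + 6 * e := by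
    intro a b
    have h1 := gp_base hc t o (act a t) (act b t)
    have h2 := gp_move hc o (act a t) (act b t) (act b o)
    have h3 := gp_move hc o (act b o) (act a t) (act a o)
    rw [gp_comm o (act b o) (act a t), gp_comm o (act b o) (act a o)] at h3
    rw [dist_iso hc, H.dist_comm (u := t) (v := o)] at h2 h3
    rw [H.dist_comm (u := t) (v := o)] at h1
    omega
  have far : ∀ a : Γ, H.dist o (act a o) ≤ H.dist t (act a t) + 2 * e := by
    intro a
    have h1 := hc.dist_triangle (u := o) (v := t) (w := act a t)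
    have h2 := hc.dist_triangle (u := o) (v := act a t) (w := act a o)
    rw [dist_iso hc, H.dist_comm (u := t) (v := o)] at h2
    omega
  have hd : ∀ a b : Γ, (a, b) ∈ [(g, h), (g, h⁻¹), (g⁻¹, h), (g⁻¹, h⁻¹)] →
      GP H t (act (a ^ M) t) (act (b ^ M) t) ≤ K + C₁ + C₂ + 6 * e := by
    intro a b hab
    have h1 := hdiv _ hab M M
    refine (move _ _).trans ?_
    simp only [GP] at h1 ⊢
    omega
  refine ⟨⟨c, fun i => ?_, fun i => ?_, sym_four (fun i j => gp_comm _ _ _)
    ((move _ _).trans ((Nat.add_le_add_right (hC₁ M M) _).trans (by omega)))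
    (hd g h (by simp)) (hd g h⁻¹ (by simp)) (hd g⁻¹ h (by simp)) (hd g⁻¹ h⁻¹ (by simp))
    ((move _ _).trans ((Nat.add_le_add_right (hC₂ M M) _).trans (by omega)))⟩⟩
  · fin_cases i <;> simp [hcdef]
  · have e1 : M ≤ H.dist t (act (g ^ M) t) + 2 * e := (hsp M).1.trans (far _)
    have e2 : M ≤ H.dist t (act (h ^ M) t) + 2 * e := (hsp M).2.trans (far _)
    fin_cases i
    · show R < H.dist t (act (g ^ M) t); omega
    · show R < H.dist t (act (g⁻¹ ^ M) t)
      rw [inv_pow, dist_smul_inv act hc]; omega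
    · show R < H.dist t (act (h ^ M) t); omega
    · show R < H.dist t (act (h⁻¹ ^ M) t)
      rw [inv_pow, dist_smul_inv act hc]; omega

namespace Quad

variable {act} {t : X} {C R : ℕ} (Q : Quad H act t C R)

/-- The shadow of a letter. -/
def In (i : Fin 4) (q : X) : Prop := R ≤ GP H t (act (Q.c i) t) q

/-- A point in a shadow is in another direction than every point away from the letter. -/
theorem gp_le_of_in (hc : H.Connected) (hT : Thin H D) {i : Fin 4} {q u : X} {B : ℕ} (hq : Q.In i q)
    (hB : B + (D + 2) < R) (hu : GP H t (act (Q.c i) t) u ≤ B) : GP H t q u ≤ B + (D + 2) := by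
  have := four_point hc hT t (act (Q.c i) t) q u
  unfold In at hq
  omega

theorem eq_of_in (hc : H.Connected) (hT : Thin H D) (hR : C + (D + 2) < R) {i j : Fin 4} {q : X} (h1 : Q.In i q)
    (h2 : Q.In j q) : i = j := by
  by_contra hne
  have := Q.sep i j hne
  have := four_point hc hT t (act (Q.c i) t) q (act (Q.c j) t)
  unfold In at h1 h2
  rw [gp_comm t q] at this
  omega

/-- One of three letters avoids any two points. -/
theorem avoid (hc : H.Connected) (hT : Thin H D) (u w : X) : ∃ i : Fin 3,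
    GP H t (act (Q.c i.castSucc) t) u ≤ C + (D + 2) ∧
      GP H t (act (Q.c i.castSucc) t) w ≤ C + (D + 2) := by
  have one : ∀ (x : X) (i j : Fin 3), i ≠ j →
      GP H t (act (Q.c i.castSucc) t) x ≤ C + (D + 2) ∨
        GP H t (act (Q.c j.castSucc) t) x ≤ C + (D + 2) := by
    intro x i j hij
    have := Q.sep _ _ fun e => hij (Fin.castSucc_injective _ e)
    have := four_point hc hT t (act (Q.c i.castSucc) t) x (act (Q.c j.castSucc) t)
    rw [gp_comm t x] at this
    omega
  by_contra hno
  push Not at hno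
  have u01 := one u 0 1 (by decide)
  have u02 := one u 0 2 (by decide)
  have u12 := one u 1 2 (by decide)
  have w01 := one w 0 1 (by decide)
  have w02 := one w 0 2 (by decide)
  have w12 := one w 1 2 (by decide)
  have h0 := hno 0
  have h1 := hno 1
  have h2 := hno 2
  omega

/-- A letter moves the complement of the opposite shadow into its own, and away from the base. -/
theorem maps (hc : H.Connected) (i : Fin 4) {q : X} (h : ¬Q.In (![1, 0, 3, 2] i) q) :
    Q.In i (act (Q.c i) q) ∧ H.dist t q < H.dist t (act (Q.c i) q) := by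
  rw [In, Q.inv_c, not_le] at h
  have h1 := gp_two_sided act hc t (Q.c i) q
  have h2 := gp_add hc t (act (Q.c i) t) (act (Q.c i) q)
  rw [dist_iso hc] at h2
  have := Q.long i
  exact ⟨show R ≤ _ by omega, by omega⟩

theorem mapsInto (hc : H.Connected) (hT : Thin H D) (hR : C + (D + 2) < R) {i j : Fin 4}
    (hj : j ≠ ![1, 0, 3, 2] i) {q : X} (h : Q.In j q) :
    Q.In i (act (Q.c i) q) ∧ H.dist t q < H.dist t (act (Q.c i) q) :=
  Q.maps hc i fun h' => hj (Q.eq_of_in hc hT hR h h')

theorem notIn_base (hR : 1 ≤ R) (i : Fin 4) : ¬Q.In i t := by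
  rw [In, gp_comm, gp_self]
  omega

/-- Powers of a letter stay in its shadow and escape. -/
theorem pow_in (hc : H.Connected) (hT : Thin H D) (hR : C + (D + 2) < R) {i : Fin 4} (hi : i ≠ ![1, 0, 3, 2] i) :
    ∀ n : ℕ, (Q.In i (act (Q.c i ^ (n + 1)) t) ∧ n + 1 ≤ H.dist t (act (Q.c i ^ (n + 1)) t)) ∧
      ∀ q, Q.In i q → Q.In i (act (Q.c i ^ n) q) ∧
        H.dist t q + n ≤ H.dist t (act (Q.c i ^ n) q) := by
  intro n
  induction n with
  | zero =>
    refine ⟨?_, fun q hq => ?_⟩
    · obtain ⟨h1, h2⟩ := Q.maps hc i (Q.notIn_base (by omega) _)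
      rw [zero_add, pow_one]
      rw [H.dist_self] at h2
      exact ⟨h1, h2⟩
    · rw [pow_zero, smul_unit]
      exact ⟨hq, le_rfl⟩
  | succ n ih =>
    refine ⟨?_, fun q hq => ?_⟩
    · obtain ⟨h1, h2⟩ := Q.mapsInto hc hT hR hi ih.1.1
      rw [pow_succ' _ (n + 1), smul_comp]
      exact ⟨h1, by have := ih.1.2; omega⟩
    · obtain ⟨h1, h2⟩ := ih.2 q hq
      obtain ⟨h3, h4⟩ := Q.mapsInto hc hT hR hi h1
      rw [pow_succ', smul_comp]
      exact ⟨h3, by omega⟩

end Quad

end Vale.Agent.P165.QT
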