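import Vale.Agent.P165.QT.Basic
import Vale.Agent.P165.QT.Quad

/-!
# Frames from two elements with four ends of a thin graph

The target cells at the anchor contain deep shadows of three of the four letters. The forward
frames push with a high power of the third letter, so that they send the complement of the deepest
excluded shadow exactly into a target cell, and the deep cells belong to words in two letters.
-/

namespace Vale.Agent.P165.QT

open Finset FF

variable {Γ X : Type} [Group Γ] {H : SimpleGraph X} {Δ : ℕ}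

namespace Quad

variable {act : Γ →* (H ≃g H)} {t : X} {C R : ℕ} (Q : Quad H act t C R)

/-- Two shadows have a bounded common part. -/
theorem gp_in_in (hc : H.Connected) (hT : Thin H Δ) (hR : C + 2 * (Δ + 2) < R) {i j : Fin 4}
    (hij : i ≠ j) {x y : X} (hx : Q.In i x) (hy : Q.In j y) :
    GP H t x y ≤ C + 2 * (Δ + 2) := by
  have := Q.sep i j hij
  have h1 := four_point hc hT t (act (Q.c i) t) y (act (Q.c j) t)
  have h2 := four_point hc hT t (act (Q.c i) t) x y
  unfold In at hx hy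
  rw [gp_comm t y] at h1
  omega

theorem le_dist_of_in (hc : H.Connected) {i : Fin 4} {q : X} (h : Q.In i q) :
    R ≤ 2 * H.dist t q :=
  le_trans h (gp_le_right hc _ _ _)

end Quad

variable {V ι : Type} {G : SimpleGraph V}

theorem exists_walk_translate (Φ : Γ →* (G ≃g G)) (γ : Γ) {a c : V} (w : G.Walk a c) :
    ∃ w' : G.Walk (Φ γ a) (Φ γ c), w'.length = w.length ∧
      ∀ v ∈ w'.support, ∃ u ∈ w.support, Φ γ u = v := by
  refine ⟨w.map (Φ γ).toHom, SimpleGraph.Walk.length_map _ _, fun v hv => ?_⟩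
  exact List.mem_map.1 ((congrArg (v ∈ ·) (SimpleGraph.Walk.support_map _ w)).mp hv)

/-- Positions along a walk stay near its start. -/
theorem pos_near_start (hc : H.Connected) {pos : V → X} {D : ℕ}
    (hD : ∀ x y, G.Adj x y → H.dist (pos x) (pos y) ≤ D) {a b : V} (w : G.Walk a b) :
    ∀ v ∈ w.support, H.dist (pos a) (pos v) ≤ D * w.length := by
  induction w with
  | nil =>
    intro v hv
    rw [SimpleGraph.Walk.support_nil, List.mem_singleton] at hv
    simp [hv]
  | @cons u x _ hux w ih =>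
    intro v hv
    rw [SimpleGraph.Walk.support_cons, List.mem_cons] at hv
    rcases hv with rfl | hv
    · simp
    · refine (hc.dist_triangle (v := pos x)).trans ?_
      rw [SimpleGraph.Walk.length_cons, mul_add, mul_one, add_comm]
      exact add_le_add (ih v hv) (hD _ _ hux)

/-- Edges have bounded displacement. -/
theorem exists_pos_lip [Fintype ι] {nb : V → ι → V} (hl : Labelling G nb) (Φ : Γ →* (G ≃g G))
    (R : Finset V) (cover : ∀ v, ∃ g, Φ g v ∈ R) (hc : H.Connected) (act : Γ →* (H ≃g H))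
    (pos : V → X) (hpos : ∀ γ v, pos (Φ γ v) = act γ (pos v)) :
    ∃ D : ℕ, ∀ x y, G.Adj x y → H.dist (pos x) (pos y) ≤ D := by
  refine ⟨∑ r ∈ R, ∑ j : ι, H.dist (pos r) (pos (nb r j)), fun x y h => ?_⟩
  obtain ⟨g, hg⟩ := cover x
  obtain ⟨j, hj⟩ := (hl.adj _ _).1 ((Φ g).map_rel_iff'.2 h)
  change nb (Φ g x) j = Φ g y at hj
  have e : H.dist (pos x) (pos y) = H.dist (pos (Φ g x)) (pos (nb (Φ g x) j)) := by
    rw [hj]
    show _ = H.dist (pos (Φ g x)) (pos (Φ g y))
    rw [hpos, hpos, dist_iso hc]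
  rw [e]
  exact (single_le_sum (f := fun j => H.dist (pos (Φ g x)) (pos (nb (Φ g x) j)))
    (fun _ _ => Nat.zero_le _) (mem_univ j)).trans (single_le_sum
      (f := fun r => ∑ j : ι, H.dist (pos r) (pos (nb r j))) (fun _ _ => Nat.zero_le _) hg)

variable {O : Type}

/-- Short walks with bounded excursion from the representatives to finitely many anchors. -/
theorem exists_rep_hop [Fintype O] (hconn : G.Connected) (Φ : Γ →* (G ≃g G)) (rep : O → V)
    (o₁ : O) (hc : H.Connected) {pos : V → X} {D Dr : ℕ}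
    (hD : ∀ x y, G.Adj x y → H.dist (pos x) (pos y) ≤ D)
    (hr : ∀ o, H.dist (pos (rep o₁)) (pos (rep o)) ≤ Dr) (S : List Γ) :
    ∃ L : ℕ, 1 ≤ L ∧ ∀ e ∈ S, ∀ o : O, ∃ w : G.Walk (rep o) (Φ e (rep o₁)), w.length ≤ L ∧
      ∀ v ∈ w.support, H.dist (pos (rep o₁)) (pos v) ≤ Dr + D * L := by
  refine ⟨1 + (S.map fun e => ∑ o : O, G.dist (rep o) (Φ e (rep o₁))).sum, by omega,
    fun e he o => ?_⟩
  obtain ⟨w, hw⟩ := hconn.exists_walk_length_eq_dist (rep o) (Φ e (rep o₁))
  have h1 := single_le_sum (f := fun o => G.dist (rep o) (Φ e (rep o₁)))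
    (fun _ _ => Nat.zero_le _) (mem_univ o)
  have h2 := List.le_sum_of_mem
    (List.mem_map.2 ⟨e, he, rfl⟩ : (∑ o : O, G.dist (rep o) (Φ e (rep o₁))) ∈
      S.map fun e => ∑ o : O, G.dist (rep o) (Φ e (rep o₁)))
  have hlen : w.length ≤ 1 + (S.map fun e => ∑ o : O, G.dist (rep o) (Φ e (rep o₁))).sum := by
    omega
  exact ⟨w, hlen, fun v hv => (hc.dist_triangle (v := pos (rep o))).trans
    (Nat.add_le_add (hr o) ((pos_near_start hc hD w v hv).trans (Nat.mul_le_mul_left _ hlen)))⟩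

/-- Two elements with four ends give frames for every graph with a cofinite action and an
equivariant map. -/
theorem exists_env [Fintype ι] {nb : V → ι → V} (hl : Labelling G nb) (hconn : G.Connected)
    (Φ : Γ →* (G ≃g G)) (Rr : Finset V) (cover : ∀ v, ∃ g, Φ g v ∈ Rr) (hc : H.Connected)
    (hT : Thin H Δ) (act : Γ →* (H ≃g H)) (pos : V → X)
    (hpos : ∀ γ v, pos (Φ γ v) = act γ (pos v)) (o : X) (h4 : SG.FourEnds H act o) :
    ∃ (O : Type) (_ : Fintype O) (E : Env Γ O ι V X), E.G = G ∧ E.nb = nb := by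
  classical
  have hmul : ∀ (a b : Γ) (v : V), Φ (a * b) v = Φ a (Φ b v) := fun a b v => by rw [map_mul]; rfl
  have hone : ∀ v : V, Φ 1 v = v := fun v => by rw [map_one]; rfl
  obtain ⟨v₀⟩ := hconn.nonempty
  obtain ⟨g₀, hg₀⟩ := cover v₀
  choose g hg using cover
  set rep : {v // v ∈ Rr} → V := Subtype.val with hrep
  set o₁ : {v // v ∈ Rr} := ⟨Φ g₀ v₀, hg₀⟩ with ho₁
  set t := pos (rep o₁) with ht
  obtain ⟨C, hquad⟩ := exists_quad act hc hT o t h4
  obtain ⟨D, hD⟩ := exists_pos_lip hl Φ Rr (fun v => ⟨g v, hg v⟩) hc act pos hpos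
  set Dr := ∑ o : {v // v ∈ Rr}, H.dist t (pos (rep o))
  have hDr : ∀ o, H.dist t (pos (rep o)) ≤ Dr := fun o =>
    single_le_sum (f := fun o => H.dist t (pos (rep o))) (fun _ _ => Nat.zero_le _) (mem_univ o)
  set θ := Δ + 2 with hθ
  set Kf := max (C + 2 * θ) (4 * Dr) with hKf
  set k₁ := C + 2 * θ with hk₁
  set k₂ := k₁ + 6 * Kf + 3 * Δ + 8 with hk₂
  set M := 8 * (k₂ + Kf + Δ + D + 2) with hM
  set n := C + 3 * θ + Δ + 1 with hn
  set c := C + 3 * θ + 1 with hcd
  set R := 4 * (n + M + c) + 4 * θ + Δ + 2 * C + 10 with hR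
  obtain ⟨Q⟩ := hquad R
  have hR1 : C + 2 * (Δ + 2) < R := by omega
  have hR2 : C + (Δ + 2) < R := by omega
  obtain ⟨L, hL1, hop⟩ := exists_rep_hop hconn Φ rep o₁ hc hD hDr [Q.c 0, Q.c 1, Q.c 2]
  set R₀ := Dr + D * L with hR₀
  set k₀ := k₂ + 2 * (R₀ + D + Kf) + Δ + 3 with hk₀
  set N := k₀ + R + θ + 1 with hN
  set b := act (Q.c 3 ^ N) t with hb
  set blk := (N + 3) * ((L + 1) * (D + 1)) with hblk
  have hblk1 : ∀ j, j ≤ N + 3 → L * j ≤ blk := fun j hj =>
    calc L * j ≤ (L + 1) * (D + 1) * (N + 3) := Nat.mul_le_mul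
          ((Nat.le_succ L).trans (Nat.le_mul_of_pos_right _ (Nat.succ_pos D))) hj
      _ = blk := by rw [hblk, mul_comm]
  have hblk2 : D * L ≤ blk :=
    calc D * L ≤ (L + 1) * (D + 1) * 1 := by
          rw [mul_one, mul_comm D L]
          exact Nat.mul_le_mul (Nat.le_succ L) (Nat.le_succ D)
      _ ≤ (L + 1) * (D + 1) * (N + 3) := Nat.mul_le_mul_left _ (by omega)
      _ = blk := by rw [hblk, mul_comm]
  have op3 : (3 : Fin 4) ≠ ![1, 0, 3, 2] (3 : Fin 4) := by decide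
  have op2 : (2 : Fin 4) ≠ ![1, 0, 3, 2] (2 : Fin 4) := by decide
  have castNe : ∀ i : Fin 3, (2 : Fin 4) ≠ ![1, 0, 3, 2] i.castSucc := by decide
  have cast3 : ∀ i : Fin 3, i.castSucc ≠ (3 : Fin 4) := by decide
  have hnot : ∀ j, ¬Q.In j t := Q.notIn_base (by omega)
  have hb3 : Q.In 3 b := by
    rw [hb, hN]
    exact (Q.pow_in hc hT hR2 op3 (k₀ + R + θ)).1.1
  -- the target cells
  set U : Fin 3 → Set X := fun i => cellAt H M t n (act (Q.c i.castSucc) t) with hU
  have hinU : ∀ (i : Fin 3) q, Q.In i.castSucc q → q ∈ U i := fun i q hq => by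
    have h1 := Q.le_dist_of_in hc hq
    exact ⟨by omega, conn_of_gp hc (lt_of_lt_of_le (by omega) hq)⟩
  have hUin : ∀ (i : Fin 3) q, q ∈ U i → 2 * n ≤ GP H t (act (Q.c i.castSucc) t) q + Δ :=
    fun i q hq => hT _ _ _ _ hq.2
  -- the side condition of the shadows
  have hback : ∀ (ψ : Γ) (j : Fin 4) (x : X), j ≠ 3 → Q.In j (act ψ⁻¹ x) →
      GP H (act ψ t) x (act ψ b) ≤ k₁ := fun ψ j x hj hin => by
    conv_lhs => rw [← smul_smul_inv act ψ x]
    rw [gp_iso hc]
    exact Q.gp_in_in hc hT hR1 hj hin hb3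
  have hsafe : ∀ (ψ : Γ) (x p : X), GP H (act ψ t) p (act ψ b) ≤ k₂ → H.dist p x ≤ R₀ →
      x ∉ Shadow H act t b k₀ ψ := by
    intro ψ x p hp hpx hx
    have h1 := gp_move hc (act ψ t) (act ψ b) x p
    rw [gp_comm _ (act ψ b) x, gp_comm _ (act ψ b) p, H.dist_comm (u := x) (v := p)] at h1
    change k₀ < GP H (act ψ t) x (act ψ b) at hx
    omega
  have hopen : ∀ (q : X) (j : Fin 4), j ≠ 3 → k₁ < GP H t q b → ¬Q.In j q := fun q j hj hq h => by
    have := Q.gp_in_in hc hT hR1 hj h hb3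
    omega
  have hshadow1 : ∀ q, q ∈ Shadow H act t b k₁ 1 → k₁ < GP H t q b := fun q hq => by
    change k₁ < GP H (act 1 t) q (act 1 b) at hq
    rwa [smul_unit, smul_unit] at hq
  have hshift : ∀ γ : Γ, ∀ e ∈ [Q.c 0, Q.c 1, Q.c 2], ∃ w : G.Walk (Φ γ (rep o₁))
      (Φ (γ * e) (rep o₁)), w.length ≤ L ∧
        ∀ v ∈ w.support, H.dist (act γ t) (pos v) ≤ R₀ := by
    intro γ e he
    obtain ⟨w, hw, hv⟩ := hop e he o₁
    obtain ⟨w', hw', hv'⟩ := exists_walk_translate Φ γ w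
    refine ⟨w'.copy rfl (hmul γ e _).symm, by rw [SimpleGraph.Walk.length_copy]; omega,
      fun v h => ?_⟩
    rw [SimpleGraph.Walk.support_copy] at h
    obtain ⟨u, hu, rfl⟩ := hv' v h
    rw [hpos, dist_iso hc]
    exact hv u hu
  set τ : Fin 3 → Γ := ![Q.c 0, Q.c 1, Q.c 2 * Q.c 0] with hτ
  set σ : Fin 3 → Γ := fun i => Q.c i.castSucc * Q.c 2 ^ N with hσ
  have hσmaps : ∀ i q, q ∉ Shadow H act t b k₀ 1 → act (σ i) q ∈ U i := by
    intro i q hq
    change ¬k₀ < GP H (act 1 t) q (act 1 b) at hq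
    rw [smul_unit, smul_unit, not_lt] at hq
    set a := Q.c 2 ^ N with ha
    have e : a⁻¹ = Q.c 3 ^ N := by
      rw [ha, show Q.c 3 = (Q.c 2)⁻¹ from Q.inv_c 2, inv_pow]
    have h1 := gp_two_sided act hc t a q
    rw [e, ← hb, gp_comm t b q] at h1
    obtain ⟨h2, h3⟩ := (Q.pow_in hc hT hR2 op2 (k₀ + R + θ)).1
    rw [← hN, ← ha] at h2 h3
    have h4 := four_point hc hT t (act (Q.c 2) t) (act a t) (act a q)
    unfold Quad.In at h2
    rw [hσ, smul_comp]
    refine hinU i _ (Q.maps hc _ fun h5 => ?_).1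
    have h6 := Q.sep _ _ (castNe i)
    have h7 := four_point hc hT t (act (Q.c 2) t) (act a q)
      (act (Q.c (![1, 0, 3, 2] i.castSucc)) t)
    unfold Quad.In at h5
    rw [gp_comm t (act a q)] at h7
    omega
  have hτmaps : ∀ i q, q ∈ Shadow H act t b k₁ 1 → act (τ i) q ∈ U i := by
    intro i q hq
    have h := hshadow1 q hq
    fin_cases i
    · exact hinU 0 _ (Q.maps hc 0 (hopen q _ (by decide) h)).1
    · exact hinU 1 _ (Q.maps hc 1 (hopen q _ (by decide) h)).1
    · show act (Q.c 2 * Q.c 0) q ∈ U 2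
      rw [smul_comp]
      exact hinU 2 _ (Q.mapsInto hc hT hR2 (j := 0) (by decide)
        (Q.maps hc 0 (hopen q _ (by decide) h)).1).1
  have hline : ∀ (γ : Γ) (j : ℕ), ∃ w : G.Walk (Φ γ (rep o₁)) (Φ (γ * Q.c 2 ^ j) (rep o₁)),
      w.length ≤ L * j ∧
        ∀ v ∈ w.support, ∃ i, H.dist (act (γ * Q.c 2 ^ i) t) (pos v) ≤ R₀ := by
    intro γ j
    induction j with
    | zero =>
      refine ⟨SimpleGraph.Walk.nil.copy rfl (by rw [pow_zero, mul_one]), by simp, fun v hv => ?_⟩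
      rw [SimpleGraph.Walk.support_copy, SimpleGraph.Walk.support_nil, List.mem_singleton] at hv
      subst hv
      exact ⟨0, by rw [pow_zero, mul_one, show pos (Φ γ (rep o₁)) = act γ t from hpos _ _, H.dist_self]; exact Nat.zero_le _⟩
    | succ j ih =>
      obtain ⟨w, hw, hv⟩ := ih
      obtain ⟨w', hw', hv'⟩ := hshift (γ * Q.c 2 ^ j) (Q.c 2) (by simp)
      refine ⟨(w.append w').copy rfl (by rw [pow_succ, mul_assoc]), ?_, fun v hv'' => ?_⟩
      · rw [SimpleGraph.Walk.length_copy, SimpleGraph.Walk.length_append, mul_add L j 1]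
        omega
      · rw [SimpleGraph.Walk.support_copy, SimpleGraph.Walk.mem_support_append_iff] at hv''
        rcases hv'' with h | h
        exacts [hv v h, ⟨j, hv' v h⟩]
  have hσpath : ∀ i o, ∃ w : G.Walk (rep o) (Φ (σ i) (rep o₁)), w.length ≤ blk ∧
      ∀ v ∈ w.support, ∃ q, (q = t ∨ q ∈ U i) ∧ H.dist q (pos v) ≤ R₀ := by
    intro i o
    have hmem : Q.c i.castSucc ∈ [Q.c 0, Q.c 1, Q.c 2] := by fin_cases i <;> simp
    obtain ⟨w, hw, hv⟩ := hop (Q.c i.castSucc) hmem o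
    obtain ⟨w', hw', hv'⟩ := hline (Q.c i.castSucc) N
    refine ⟨w.append w', ?_, fun v h => ?_⟩
    · rw [SimpleGraph.Walk.length_append]
      have := hblk1 (N + 1) (by omega)
      rw [mul_add, mul_one] at this
      omega
    · rcases (SimpleGraph.Walk.mem_support_append_iff _ _).1 h with h | h
      · exact ⟨t, Or.inl rfl, hv v h⟩
      · obtain ⟨j, hj⟩ := hv' v h
        refine ⟨_, Or.inr (hinU i _ ?_), hj⟩
        rw [smul_comp]
        rcases j with - | j
        · rw [pow_zero, smul_unit]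
          exact (Q.maps hc _ (hnot _)).1
        · exact (Q.mapsInto hc hT hR2 (castNe i) (Q.pow_in hc hT hR2 op2 j).1.1).1
  have inv0 : Q.In 1 (act (Q.c 0)⁻¹ t) := by
    rw [← show Q.c 1 = (Q.c 0)⁻¹ from Q.inv_c 0]
    exact (Q.maps hc 1 (hnot _)).1
  have inv1 : Q.In 0 (act (Q.c 1)⁻¹ t) := by
    rw [← show Q.c 0 = (Q.c 1)⁻¹ from Q.inv_c 1]
    exact (Q.maps hc 0 (hnot _)).1
  have inv20 : Q.In 1 (act (Q.c 2 * Q.c 0)⁻¹ t) := by
    rw [mul_inv_rev, ← show Q.c 1 = (Q.c 0)⁻¹ from Q.inv_c 0,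
      ← show Q.c 3 = (Q.c 2)⁻¹ from Q.inv_c 2, smul_comp]
    exact (Q.mapsInto hc hT hR2 (j := 3) (by decide) (Q.maps hc 3 (hnot _)).1).1
  have hk12 : k₁ ≤ k₂ := by omega
  have hτpath : ∀ i o, Joined₀ G H Φ act pos (rep o₁) b k₀ (τ i) blk (rep o) := by
    intro i o
    have hL := hblk1 2 (by omega)
    fin_cases i
    · obtain ⟨w, hw, hv⟩ := hop (Q.c 0) (by simp) o
      exact ⟨w, by show w.length ≤ blk; omega, fun v h => hsafe _ _ t
        ((hback _ 1 t (by decide) inv0).trans hk12) (hv v h)⟩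
    · obtain ⟨w, hw, hv⟩ := hop (Q.c 1) (by simp) o
      exact ⟨w, by show w.length ≤ blk; omega, fun v h => hsafe _ _ t
        ((hback _ 0 t (by decide) inv1).trans hk12) (hv v h)⟩
    · show Joined₀ G H Φ act pos (rep o₁) b k₀ (Q.c 2 * Q.c 0) blk (rep o)
      obtain ⟨w, hw, hv⟩ := hop (Q.c 2) (by simp) o
      obtain ⟨w', hw', hv'⟩ := hshift (Q.c 2) (Q.c 0) (by simp)
      refine ⟨w.append w', by rw [SimpleGraph.Walk.length_append]; omega, fun v h => ?_⟩
      rcases (SimpleGraph.Walk.mem_support_append_iff _ _).1 h with h | h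
      · exact hsafe _ _ t ((hback _ 1 t (by decide) inv20).trans hk12) (hv v h)
      · refine hsafe _ _ (act (Q.c 2) t) ((hback _ 1 _ (by decide) ?_).trans hk12) (hv' v h)
        rw [mul_inv_rev, smul_comp, smul_inv_smul]
        exact inv0
  -- the deep cells
  have inv1a : ∀ a : Fin 4, (a = 0 ∨ a = 2) → ∀ x, (x = t ∨ Q.In 1 x ∨ Q.In 3 x) →
      Q.In 1 (act (Q.c a)⁻¹ x) ∨ Q.In 3 (act (Q.c a)⁻¹ x) := by
    intro a ha x hx
    have hna : ¬Q.In a x := fun h => by
      rcases hx with rfl | hx | hx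
      · exact hnot a h
      all_goals rcases ha with rfl | rfl <;>
        exact absurd (Q.eq_of_in hc hT hR2 hx h) (by decide)
    rcases ha with rfl | rfl
    · rw [← show Q.c 1 = (Q.c 0)⁻¹ from Q.inv_c 0]
      exact Or.inl (Q.maps hc 1 hna).1
    · rw [← show Q.c 3 = (Q.c 2)⁻¹ from Q.inv_c 2]
      exact Or.inr (Q.maps hc 3 hna).1
  have hwords : ∀ m : ℕ, ∃ P : Finset Γ, P.card = 2 ^ m ∧
      (∀ ψ ∈ P, (Q.In 0 (act ψ t) ∨ Q.In 2 (act ψ t)) ∧
        (∀ x, (x = t ∨ Q.In 1 x ∨ Q.In 3 x) → Q.In 1 (act ψ⁻¹ x)) ∧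
        ∀ o, ∃ w : G.Walk (rep o) (Φ ψ (rep o₁)), w.length ≤ L * (m + 1) ∧ ∀ v ∈ w.support,
          ∃ p, GP H (act ψ t) p (act ψ b) ≤ k₁ ∧ H.dist p (pos v) ≤ R₀) ∧
      (P : Set Γ).Pairwise fun ψ ψ' => Q.In 1 (act ψ⁻¹ (act ψ' t)) := by
    intro m
    induction m with
    | zero =>
      refine ⟨{Q.c 0}, by simp, fun ψ hψ => ?_, by simp⟩
      rw [mem_singleton] at hψ
      subst hψ
      refine ⟨Or.inl (Q.maps hc 0 (hnot _)).1, fun x hx => ?_, fun o => ?_⟩
      · rcases inv1a 0 (Or.inl rfl) x hx with h | h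
        · exact h
        · rw [← show Q.c 1 = (Q.c 0)⁻¹ from Q.inv_c 0] at h ⊢
          refine (Q.maps hc 1 fun h' => ?_).1
          rcases hx with rfl | hx | hx
          · exact hnot _ h'
          all_goals exact absurd (Q.eq_of_in hc hT hR2 hx h') (by decide)
      · obtain ⟨w, hw, hv⟩ := hop (Q.c 0) (by simp) o
        exact ⟨w, by omega, fun v h => ⟨t, hback _ 1 t (by decide) inv0, hv v h⟩⟩
    | succ m ih =>
      obtain ⟨P, hcard, hP, hdis⟩ := ih
      have hstep : ∀ a : Fin 4, (a = 0 ∨ a = 2) → ∀ ψ ∈ P, Q.In a (act (Q.c a * ψ) t) ∧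
          (∀ x, (x = t ∨ Q.In 1 x ∨ Q.In 3 x) → Q.In 1 (act (Q.c a * ψ)⁻¹ x)) ∧
          ∀ o, ∃ w : G.Walk (rep o) (Φ (Q.c a * ψ) (rep o₁)), w.length ≤ L * (m + 1 + 1) ∧
            ∀ v ∈ w.support, ∃ p, GP H (act (Q.c a * ψ) t) p (act (Q.c a * ψ) b) ≤ k₁ ∧
              H.dist p (pos v) ≤ R₀ := by
        intro a ha ψ hψ
        obtain ⟨hA, hI, hW⟩ := hP ψ hψ
        have hI' : ∀ x, (x = t ∨ Q.In 1 x ∨ Q.In 3 x) → Q.In 1 (act (Q.c a * ψ)⁻¹ x) := by
          intro x hx
          rw [mul_inv_rev, smul_comp]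
          exact hI _ (Or.inr (inv1a a ha x hx))
        refine ⟨?_, hI', fun o => ?_⟩
        · rw [smul_comp]
          rcases hA with h | h <;> rcases ha with rfl | rfl <;>
            exact (Q.mapsInto hc hT hR2 (by decide) h).1
        have hmem : Q.c a ∈ [Q.c 0, Q.c 1, Q.c 2] := by rcases ha with rfl | rfl <;> simp
        obtain ⟨w, hw, hv⟩ := hop (Q.c a) hmem o
        obtain ⟨w', hw', hv'⟩ := hW o₁
        obtain ⟨w'', hw'', hv''⟩ := exists_walk_translate Φ (Q.c a) w'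
        refine ⟨(w.append w'').copy rfl (hmul _ _ _).symm, ?_, fun v h => ?_⟩
        · rw [SimpleGraph.Walk.length_copy, SimpleGraph.Walk.length_append,
            mul_add L (m + 1) 1]
          omega
        rw [SimpleGraph.Walk.support_copy, SimpleGraph.Walk.mem_support_append_iff] at h
        rcases h with h | h
        · exact ⟨t, hback _ 1 t (by decide) (hI' t (Or.inl rfl)), hv v h⟩
        · obtain ⟨u, hu, rfl⟩ := hv'' v h
          obtain ⟨p, hp, hd⟩ := hv' u hu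
          refine ⟨act (Q.c a) p, ?_, ?_⟩
          · rwa [smul_comp, smul_comp, gp_iso hc]
          · rwa [hpos, dist_iso hc]
      have hcross : ∀ a a' : Fin 4, (a = 0 ∧ a' = 2 ∨ a = 2 ∧ a' = 0) → ∀ ψ ∈ P, ∀ ψ' ∈ P,
          Q.In 1 (act (Q.c a * ψ)⁻¹ (act (Q.c a' * ψ') t)) := by
        intro a a' haa ψ hψ ψ' hψ'
        rw [mul_inv_rev, smul_comp act ψ⁻¹]
        refine (hP ψ hψ).2.1 _ (Or.inr ?_)
        rcases haa with ⟨rfl, rfl⟩ | ⟨rfl, rfl⟩
        · rw [← show Q.c 1 = (Q.c 0)⁻¹ from Q.inv_c 0]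
          exact Or.inl (Q.mapsInto hc hT hR2 (by decide)
            (hstep 2 (Or.inr rfl) ψ' hψ').1).1
        · rw [← show Q.c 3 = (Q.c 2)⁻¹ from Q.inv_c 2]
          exact Or.inr (Q.mapsInto hc hT hR2 (by decide)
            (hstep 0 (Or.inl rfl) ψ' hψ').1).1
      refine ⟨P.image (Q.c 0 * ·) ∪ P.image (Q.c 2 * ·), ?_, fun ψ hψ => ?_, ?_⟩
      · rw [card_union_of_disjoint, card_image_of_injective _ (mul_right_injective _),
          card_image_of_injective _ (mul_right_injective _), hcard, pow_succ]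
        · omega
        · rw [disjoint_left]
          intro x h1 h2
          obtain ⟨φ, hφ, rfl⟩ := mem_image.1 h1
          obtain ⟨φ', hφ', e⟩ := mem_image.1 h2
          have h3 := (hstep 0 (Or.inl rfl) φ hφ).1
          have h4 := (hstep 2 (Or.inr rfl) φ' hφ').1
          rw [e] at h4
          exact absurd (Q.eq_of_in hc hT hR2 h3 h4) (by decide)
      · rcases mem_union.1 hψ with h | h <;> obtain ⟨φ, hφ, rfl⟩ := mem_image.1 h
        · obtain ⟨h1, h2⟩ := hstep 0 (Or.inl rfl) φ hφ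
          exact ⟨Or.inl h1, h2⟩
        · obtain ⟨h1, h2⟩ := hstep 2 (Or.inr rfl) φ hφ
          exact ⟨Or.inr h1, h2⟩
      · intro x hx y hy hxy
        have same : ∀ (γ φ φ' : Γ), φ ∈ P → φ' ∈ P → γ * φ ≠ γ * φ' →
            Q.In 1 (act (γ * φ)⁻¹ (act (γ * φ') t)) := by
          intro γ φ φ' hφ hφ' hne
          rw [mul_inv_rev, smul_comp act φ⁻¹, smul_comp act γ φ', smul_inv_smul]
          exact hdis hφ hφ' fun e => hne (by rw [e])
        rcases mem_union.1 (mem_coe.1 hx) with h | h <;>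
          rcases mem_union.1 (mem_coe.1 hy) with h' | h' <;>
          obtain ⟨φ, hφ, rfl⟩ := mem_image.1 h <;> obtain ⟨φ', hφ', rfl⟩ := mem_image.1 h'
        · exact same _ _ _ hφ hφ' hxy
        · exact hcross 0 2 (Or.inl ⟨rfl, rfl⟩) φ hφ φ' hφ'
        · exact hcross 2 0 (Or.inr ⟨rfl, rfl⟩) φ hφ φ' hφ'
        · exact same _ _ _ hφ hφ' hxy
  refine ⟨{v // v ∈ Rr}, inferInstance, Env.make G nb hl hconn Φ rep (fun v => (g v)⁻¹)
    (fun v => ⟨Φ (g v) v, hg v⟩) ?_ o₁ H hc Δ hT act pos hpos D hD b k₁ k₂ k₀ Kf M blk R₀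
    ?_ ?_ hk₂.ge hk₀.ge hM.ge (fun _ => n) U σ τ ?_ ?_ ?_ ?_ hσmaps hτmaps hσpath hτpath ?_,
    rfl, rfl⟩
  · intro v
    show Φ (g v)⁻¹ (Φ (g v) v) = v
    rw [← hmul, inv_mul_cancel, hone]
  · rw [hblk]
    exact Nat.mul_pos (by omega) (Nat.mul_pos (Nat.succ_pos _) (Nat.succ_pos _))
  · intro o
    have := hDr o
    show 4 * H.dist t (pos (rep o)) ≤ Kf
    omega
  · intro i
    exact cellAt_isCell M t n _
  · intro i
    refine Set.disjoint_left.2 fun q h1 h2 => ?_
    change k₂ < GP H (act 1 t) q (act 1 b) at h2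
    rw [smul_unit, smul_unit] at h2
    have h3 := hUin i q h1
    have h5 := four_point hc hT t (act (Q.c 3) t) b q
    have h6 := four_point hc hT t (act (Q.c i.castSucc) t) q (act (Q.c 3) t)
    have h7 := Q.sep _ _ (cast3 i)
    unfold Quad.In at hb3
    rw [gp_comm t b q] at h5
    rw [gp_comm t q (act (Q.c 3) t)] at h6
    omega
  · intro i j hij
    refine Set.disjoint_left.2 fun q h1 h2 => ?_
    have h3 := hUin i q h1
    have h4 := hUin j q h2
    have h5 := four_point hc hT t (act (Q.c i.castSucc) t) q (act (Q.c j.castSucc) t)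
    have h7 := Q.sep _ _ fun e => hij (Fin.castSucc_injective _ e)
    rw [gp_comm t q] at h5
    omega
  · intro u w
    obtain ⟨i, hu, hw⟩ := Q.avoid hc hT u w
    refine ⟨i, fun q hq => ?_⟩
    have h3 := hUin i q hq
    have h4 := four_point hc hT t (act (Q.c i.castSucc) t) q u
    have h5 := four_point hc hT t (act (Q.c i.castSucc) t) q w
    show GP H t q u ≤ Kf ∧ GP H t q w ≤ Kf
    omega
  · intro m o
    obtain ⟨P, hcard, hP, hdis⟩ := hwords m
    refine ⟨P, fun ψ => H.dist t (act ψ t) - M - c,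
      fun ψ => cellAt H M t (H.dist t (act ψ t) - M - c) (act ψ t), hcard,
      fun ψ hψ => ?_, ?_⟩
    · obtain ⟨hA, hI, hW⟩ := hP ψ hψ
      have hfar : R ≤ 2 * H.dist t (act ψ t) := by
        rcases hA with h | h <;> exact Q.le_dist_of_in hc h
      refine ⟨cellAt_isCell M t _ _, ?_, ?_, ?_⟩
      · show H.dist t (act ψ t) - M - c ≤ blk * (m + 1)
        obtain ⟨w, hw, -⟩ := hW o₁
        have h1 := (pos_near_start hc hD w _ w.end_mem_support).trans (Nat.mul_le_mul_left D hw)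
        rw [show pos (Φ ψ (rep o₁)) = act ψ t from hpos _ _, ← ht, ← mul_assoc] at h1
        have h2 := Nat.mul_le_mul_right (m + 1) hblk2
        omega
      · obtain ⟨w, hw, hv⟩ := hW o
        refine ⟨w, hw.trans (Nat.mul_le_mul_right _ ?_), fun v h => ?_⟩
        · have := hblk1 1 (by omega)
          omega
        · obtain ⟨p, hp, hd⟩ := hv v h
          exact hsafe ψ _ p (hp.trans hk12) hd
      · intro q hq
        change k₁ < GP H (act ψ t) q (act ψ b) at hq
        have hx := hI t (Or.inl rfl)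
        have hq' : k₁ < GP H t (act ψ⁻¹ q) b := by
          rwa [← smul_smul_inv act ψ q, gp_iso hc] at hq
        have h1 := Q.sep 1 3 (by decide)
        have h2 := four_point hc hT t (act (Q.c 1) t) (act ψ⁻¹ q) b
        have h2' := four_point hc hT t (act (Q.c 1) t) b (act (Q.c 3) t)
        have h3 := four_point hc hT t (act (Q.c 1) t) (act ψ⁻¹ t) (act ψ⁻¹ q)
        have h4 : GP H t (act ψ⁻¹ t) (act ψ⁻¹ q) = GP H (act ψ t) t q := by
          rw [← gp_iso hc (act ψ) t, smul_smul_inv, smul_smul_inv]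
        unfold Quad.In at hx hb3
        rw [gp_comm t b (act (Q.c 3) t)] at h2'
        have h5 := gp_split hc t (act ψ t) q
        have h6 := gp_add hc (act ψ t) t q
        rw [H.dist_comm (u := act ψ t) (v := t)] at h6
        show H.dist t (act ψ t) - M - c + M < H.dist t q ∧ Conn H t _ (act ψ t) q
        exact ⟨by omega, conn_of_gp hc (by omega)⟩
    · intro ψ hψ ψ' hψ' hne
      refine Set.disjoint_left.2 fun p h1 h2 => ?_
      have g1 := hT _ _ _ _ h1.2
      have g2 := hT _ _ _ _ h2.2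
      have key : ∀ x ∈ P, ∀ x' ∈ P, x ≠ x' →
          GP H t (act x t) (act x' t) + R ≤ 2 * H.dist t (act x t) + θ := by
        intro x hx x' hx' hxx
        have e1 : Q.In 1 (act x⁻¹ t) := (hP x hx).2.1 t (Or.inl rfl)
        have e2 := hdis hx hx' hxx
        have e3 := four_point hc hT t (act x⁻¹ t) (act (Q.c 1) t) (act x⁻¹ (act x' t))
        have e4 : GP H t (act x⁻¹ t) (act x⁻¹ (act x' t)) = GP H (act x t) t (act x' t) := by
          rw [← gp_iso hc (act x) t, smul_smul_inv, smul_smul_inv]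
        have e5 := gp_split hc t (act x t) (act x' t)
        unfold Quad.In at e1 e2
        rw [gp_comm t (act x⁻¹ t) (act (Q.c 1) t)] at e3
        omega
      have k1 := key ψ hψ ψ' hψ' hne
      have k2 := key ψ' hψ' ψ hψ fun e => hne e.symm
      rw [gp_comm t (act ψ' t) (act ψ t)] at k2
      have h3 := four_point hc hT t (act ψ t) p (act ψ' t)
      rw [gp_comm t p (act ψ' t)] at h3
      have f1 : R ≤ 2 * H.dist t (act ψ t) := by
        rcases (hP ψ hψ).1 with h | h <;> exact Q.le_dist_of_in hc h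
      have f2 : R ≤ 2 * H.dist t (act ψ' t) := by
        rcases (hP ψ' hψ').1 with h | h <;> exact Q.le_dist_of_in hc h
      omega

end Vale.Agent.P165.QT
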