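import Vale.Agent.P165.QT.Basic
import Vale.Agent.P165.TR.Tail

/-!
# The tail for actions on quasi-trees

The points of a class have their bases at one distance from the root `r` of the excluded shadow, and
each of them opens a frame avoiding `r` and the far end of the segment. The deep parts of its chain
targets split into cells of root `r` of one level. The classes fall into boundedly many groups, in
each of which these cells are pairwise disjoint. Insertion turns a large count in a class into many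
such targets.
-/

namespace Vale.Agent.P165.QT

open Finset FF
open Vale.Agent.P165.FP (hit hit_nonneg hit_le_one hit_mono hit_move hit_map sum_le_rpow)
open Vale.Agent.P165.FQ (hitN HitN Within tauW inc_within within_mono hitN_le_hit hitN_mono hitN_map
  count_le_levels sum_rpow_add_le log_steps_le)
open Vale.Agent.P165.TR (rpow_weights insertion_union_weight)

open Classical in
theorem min_sum_le {β : Type} (s : Finset β) (g : β → ℝ) (hg : ∀ i ∈ s, 0 ≤ g i) :
    min (∑ i ∈ s, g i) 1 ≤ ∑ i ∈ s, min (g i) 1 := by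
  by_cases h : ∃ i ∈ s, 1 ≤ g i
  · obtain ⟨i, hi, h1⟩ := h
    refine (min_le_right _ _).trans (le_trans (le_of_eq (min_eq_right h1).symm)
      (single_le_sum (f := fun i => min (g i) 1) (fun j hj => le_min (hg j hj) zero_le_one) hi))
  · push Not at h
    exact (min_le_left _ _).trans (sum_le_sum fun i hi => (min_eq_left (h i hi).le).ge)

namespace Env

variable {Γ O ι V X : Type} [Group Γ] [Fintype ι] (E : Env Γ O ι V X)

theorem pre_act (γ : Γ) (A : Set X) : (E.Φ γ) ⁻¹' E.pre (E.act γ '' A) = E.pre A := by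
  ext v
  show E.pos (E.Φ γ v) ∈ E.act γ '' A ↔ E.pos v ∈ A
  rw [E.pos_eq, E.mem_act_image, E.act_inv_act]

theorem gp_base_root (y : V) (r u : X) :
    GP E.H r (E.base y) u ≤ GP E.H r (E.pos y) u + E.Kf := by
  have h := gp_move E.hc r u (E.base y) (E.pos y)
  have h2 := E.pos_base_le y
  rw [gp_comm r u, gp_comm r u] at h
  omega

/-- A frame that avoids the root and, near the root, also the centre of the shadow points away from
the shadow. -/
theorem gp_frame_le {r t q u : X} (hq : GP E.H t q r ≤ E.Kf)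
    (ht : GP E.H r t u ≤ E.k₁ + E.Kf)
    (hsmall : 2 * E.H.dist r t ≤ E.k₁ + 2 * E.Kf + E.Δ + 2 → GP E.H t q u ≤ E.Kf) :
    GP E.H r q u ≤ E.k₁ + 3 * E.Kf + E.Δ + 2 := by
  by_cases hn : 2 * E.H.dist r t ≤ E.k₁ + 2 * E.Kf + E.Δ + 2
  · have h1 := gp_base E.hc r t q u
    have := hsmall hn
    omega
  · have h2 := gp_split E.hc t r q
    rw [gp_comm t r q, E.H.dist_comm (u := t) (v := r)] at h2
    have h3 := four_point E.hc E.thin r t q u
    omega

/-- Outside the middle shadow by a margin, a whole cell is outside it. -/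
theorem cell_off {r q p u : X} {N : ℕ} {C : Set X} (hC : IsCell E.H E.M r N C) (hq : q ∈ C)
    (hp : p ∈ C) (hN : E.shift ≤ N) (h : GP E.H r q u ≤ E.k₁ + 3 * E.Kf + E.Δ + 2) :
    GP E.H r p u ≤ E.k₂ := by
  have h1 := hC.gp_le E.thin hq hp
  have h2 := four_point E.hc E.thin r q p u
  have h3 := E.hk₁
  rw [shift] at hN
  omega

/-- Seen from the root, cells from frames avoiding the root and `w` are nested only for close
levels. -/
theorem level_close {r w t t' q q' : X} {d lv : ℕ} {C : Set X} {N : ℕ}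
    (hN : E.H.dist r t + lv + E.shift ≤ N)
    (hC : IsCell E.H E.M r N C) (hq : q ∈ C) (hq' : q' ∈ C)
    (h1 : GP E.H t q r ≤ E.Kf) (h2 : GP E.H t q w ≤ E.Kf)
    (h1' : GP E.H t' q' r ≤ E.Kf) (h2' : GP E.H t' q' w ≤ E.Kf)
    (hd : GP E.H t r w ≤ d + E.Kf ∧ d ≤ GP E.H t r w + E.Kf)
    (hd' : GP E.H t' r w ≤ d + E.Kf ∧ d ≤ GP E.H t' r w + E.Kf) :
    2 * E.H.dist r t ≤ 2 * E.H.dist r t' + 4 * E.Kf + E.Δ + 2 ∧
      2 * E.H.dist r t' ≤ 2 * E.H.dist r t + 4 * E.Kf + E.Δ + 2 := by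
  have key : ∀ t q, GP E.H t q r ≤ E.Kf → GP E.H t q w ≤ E.Kf →
      GP E.H r q w + GP E.H t r w + GP E.H t q r = 2 * E.H.dist r t + GP E.H t q w := by
    intro t q _ _
    have a1 := gp_add E.hc r q w
    have a2 := gp_add E.hc t r w
    have a3 := gp_add E.hc t q r
    have a4 := gp_add E.hc t q w
    have c1 : E.H.dist q r = E.H.dist r q := SimpleGraph.dist_comm ..
    have c2 : E.H.dist t r = E.H.dist r t := SimpleGraph.dist_comm ..
    omega
  have e := key t q h1 h2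
  have e' := key t' q' h1' h2'
  have g := hC.gp_le E.thin hq hq'
  have f1 := four_point E.hc E.thin r q q' w
  have f2 := four_point E.hc E.thin r q' q w
  have c := gp_comm (H := E.H) r q' q
  rw [shift] at hN
  omega

variable [DecidableEq V]

open Classical in
/-- The bound on disjoint targets seen from a point joined to a translate of the anchor. -/
theorem bound_at {p θ : ℝ} (h0 : 0 ≤ p) (h1 : p ≤ 1) (hθ : 0 < θ) (hc : 0 < E.c₁ p)
    (hB : E.Bound p θ) {ψ : Γ} {ℓ : ℕ} {z : V} (hj : E.Joined ψ ℓ z) (R : Finset V)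
    (hR : ∀ v ∈ R, E.pos v ∉ E.B E.k₀ ψ) (F : Finset (Tgt X)) (hF : Apart F)
    (hF' : ∀ f ∈ F, IsCell E.H E.M (E.act ψ E.t₀) f.1 f.2 ∧ Disjoint f.2 (E.B E.k₂ ψ)) :
    ∑ f ∈ F, (p ^ ℓ * hit E.nb R p z (E.pre f.2)) ^ θ ≤ (E.c₁ p ^ θ)⁻¹ := by
  obtain ⟨w, hw, hsupp⟩ := hj
  set U := R ∪ w.support.toFinset with hUdef
  set ρ := U.sup fun v => (E.conn.preconnected E.a₁ (E.Φ ψ⁻¹ v)).some.length
  have hU : U ⊆ (E.om ρ).image (E.Φ ψ) := by
    intro v hv
    refine mem_image.2 ⟨E.Φ ψ⁻¹ v, E.mem_om.2 ⟨E.mem_ball.2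
      ⟨(E.conn.preconnected E.a₁ (E.Φ ψ⁻¹ v)).some,
        le_sup (f := fun v => (E.conn.preconnected E.a₁ (E.Φ ψ⁻¹ v)).some.length) hv⟩, ?_⟩, ?_⟩
    · rw [E.pos_eq, ← E.mem_B_iff]
      rcases mem_union.1 hv with h | h
      · exact hR v h
      · exact hsupp v (List.mem_toFinset.1 h)
    · rw [← E.Φ_mul, mul_inv_cancel, map_one]; rfl
  let mv : Tgt X → Tgt X := fun f => (f.1, E.act ψ⁻¹ '' f.2)
  have hinj : Function.Injective mv := fun e e' h => Prod.ext (congrArg Prod.fst h :)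
    (Set.image_injective.2 (E.act ψ⁻¹).injective (congrArg Prod.snd h :))
  set W := F.image mv with hW
  have hap : Apart W := by
    intro e he e' he' hne
    obtain ⟨f, hf, rfl⟩ := mem_image.1 (mem_coe.1 he)
    obtain ⟨g, hg, rfl⟩ := mem_image.1 (mem_coe.1 he')
    exact (Set.disjoint_image_iff (E.act ψ⁻¹).injective).2 (hF hf hg fun h => hne (h ▸ rfl))
  have hst : ∀ e ∈ W, E.Strict e := by
    intro e he
    obtain ⟨f, hf, rfl⟩ := mem_image.1 he
    refine ⟨?_, Set.disjoint_left.2 ?_⟩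
    · have h := (hF' f hf).1.image E.hc (E.act ψ⁻¹)
      rwa [E.act_inv_act] at h
    · rintro _ ⟨q, hq, rfl⟩ hqB
      exact Set.disjoint_left.1 (hF' f hf).2 hq ((E.mem_B_iff ψ E.k₂ q).2 hqB)
  have h := hB ρ W hap hst
  rw [mul_comm, ← le_div_iff₀ (Real.rpow_pos_of_pos hc θ), one_div, hW,
    sum_image fun a _ b _ e => hinj e] at h
  refine (sum_le_sum fun f _ => Real.rpow_le_rpow
    (mul_nonneg (pow_nonneg h0 _) (hit_nonneg _ h0 h1 _ _)) ?_ hθ.le).trans h
  have e1 : E.pre (E.act ψ⁻¹ '' f.2) = E.Φ ψ ⁻¹' E.pre f.2 := by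
    ext v
    show E.pos v ∈ E.act ψ⁻¹ '' f.2 ↔ E.pos (E.Φ ψ v) ∈ f.2
    rw [E.mem_act_image, inv_inv, E.pos_eq]
  have h3 : hit E.nb ((E.om ρ).image (E.Φ ψ)) p (E.Φ ψ E.a₁) (E.pre f.2) =
      E.Psi ρ p (mv f) := by
    rw [Psi, e1]
    exact hit_map E.hl (E.Φ ψ) (E.om ρ) p E.a₁ (E.pre f.2)
  rw [← h3]
  refine le_trans ?_ (hit_mono E.hl hU Set.Subset.rfl h0 h1 _)
  refine le_trans ?_ (hit_move E.hl h0 h1 w.reverse (fun v hv => mem_union_right _ ?_) _)
  · rw [SimpleGraph.Walk.length_reverse]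
    exact mul_le_mul (pow_le_pow_of_le_one h0 h1 hw)
      (hit_mono E.hl subset_union_left Set.Subset.rfl h0 h1 _) (hit_nonneg _ h0 h1 _ _)
      (pow_nonneg h0 _)
  · rw [SimpleGraph.Walk.support_reverse, List.mem_reverse] at hv
    exact List.mem_toFinset.2 hv

variable [Fintype O]

open Classical in
/-- Few classes carry many points of the ball. -/
theorem exists_level {ps δ : ℝ} (h0 : 0 < ps) (h1 : ps ≤ 1) (hδ : 0 < δ) (D : E.Data ps δ) :
    ∃ A : ℝ, 0 ≤ A ∧ ∀ (ψ : Γ) (ℓ : ℕ) (z : V), E.Joined ψ ℓ z →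
      ∀ (w : X) (d : ℕ) (S Y : Finset V), (∀ v ∈ S, E.pos v ∉ E.B E.k₀ ψ) →
      (∀ y ∈ Y, E.pos y ∉ E.B E.k₁ ψ ∧ GP E.H (E.pos y) (E.act ψ E.t₀) w = d) →
      ∀ K L : ℕ, 1 ≤ L → ∑ x ∈ Y.image (fun y => E.H.dist (E.act ψ E.t₀) (E.base y)),
        (ps ^ ℓ * avg (inE E.nb S) ps fun η => ind (L ≤ ((Y.filter fun y =>
          E.H.dist (E.act ψ E.t₀) (E.base y) = x).filter (Within z K η)).card)) ^ D.θ'
        ≤ A * (L : ℝ) ^ (3 * δ - D.θ) := by
  have hθ' : 0 < D.θ' := D.θ_pos.trans_le D.θ_le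
  set cl : ℝ := 1 + (1 - ps) / ps * (D.C * (1 / (δ * Real.log 2) + 1))
  have hps' : 0 ≤ (1 - ps) / ps := div_nonneg (by linarith) h0.le
  have hl2 : (0 : ℝ) < Real.log 2 := Real.log_pos one_lt_two
  have hcl : 1 ≤ cl := le_add_of_nonneg_right (by positivity)
  set H : ℝ := (E.c₁ ps ^ D.θ')⁻¹
  set P := 4 * E.Kf + E.Δ + 3 with hPdef
  set G : ℕ := P + (E.k₁ + 2 * E.Kf + E.Δ + 3) with hG
  have hc₁ : 0 < E.c₁ ps := div_pos (pow_pos h0 _) two_pos
  have hH : 0 ≤ H := inv_nonneg.2 (Real.rpow_nonneg hc₁.le _)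
  refine ⟨(1 + D.S) * cl * (G * (3 * H)) / D.κ, by have := D.S_nonneg; have := D.κ_pos; positivity,
    fun ψ ℓ z hj w d S Y hS hY K L hL => ?_⟩
  set n := D.C * (Nat.log 2 L + 1) with hn
  have hLr : (1 : ℝ) ≤ L := by exact_mod_cast hL
  have hLδ : 1 ≤ (L : ℝ) ^ δ := Real.one_le_rpow hLr hδ.le
  set r := E.act ψ E.t₀
  set u := E.act ψ E.b
  let nn : V → ℕ := fun y => E.H.dist r (E.base y)
  let sm : ℕ → Prop := fun x => 2 * x ≤ E.k₁ + 2 * E.Kf + E.Δ + 2
  let key : ℕ → ℕ := fun x => if sm x then P + x else x % P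
  have hkey : ∀ x, key x < G := fun x => by
    have h2 := Nat.mod_lt x (show 0 < P by omega)
    simp only [key]
    split_ifs with h
    · simp only [sm] at h; omega
    · omega
  choose fr hfr using fun y : V => E.avoid_at y r (if sm (nn y) then u else w)
  have hbase : ∀ y ∈ Y, GP E.H r (E.base y) u ≤ E.k₁ + E.Kf := fun y hy => by
    have h := E.gp_base_root y r u
    have h2 : GP E.H r (E.pos y) u ≤ E.k₁ := not_lt.1 (hY y hy).1
    omega
  have hfar : ∀ y ∈ Y, ∀ q ∈ E.Uat y (fr y),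
      GP E.H r q u ≤ E.k₁ + 3 * E.Kf + E.Δ + 2 := fun y hy q hq =>
    E.gp_frame_le (hfr y q hq).1 (hbase y hy) fun h => by
      have h2 := (hfr y q hq).2
      rwa [if_pos h] at h2
  set R := S ∪ (Y ∪ Y.biUnion fun y => (E.chain0 (E.typ y) (fr y) n).image (E.Φ (E.sec y)))
    with hRdef
  have hR : ∀ v ∈ R, E.pos v ∉ E.B E.k₀ ψ := by
    intro v hv
    rcases mem_union.1 hv with hv | hv
    · exact hS v hv
    rcases mem_union.1 hv with hv | hv
    · exact fun h => (hY v hv).1 (E.B₀_subset_B₁ ψ h)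
    · obtain ⟨y, hy, hv⟩ := mem_biUnion.1 hv
      obtain ⟨v₀, hv₀, rfl⟩ := mem_image.1 hv
      obtain ⟨-, q, hq, hd⟩ := E.mem_chain0.1 hv₀
      rw [E.pos_eq]
      refine E.margin_at (q := E.act (E.sec y) q) (fun h => absurd (E.mem_B.1 h) (not_lt.2 ?_))
        (by rw [E.dist_act]; omega)
      have := E.hk₁
      rcases hq with rfl | hq
      · exact (hbase y hy).trans (by omega)
      · exact (hfar y hy _ ⟨q, hq, rfl⟩).trans (by omega)
  set DS := inE E.nb S
  set ES := inE E.nb R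
  have hD : DS ⊆ ES := inE_mono E.hl subset_union_left
  let fib : ℕ → Finset V := fun x => Y.filter fun y => nn y = x
  let img : V → Tgt X → Set X := fun y e => E.act (E.sec y) '' E.core e
  let N : V → ℕ := fun y => nn y + D.lev L (fr y) + E.shift
  let cls : V → Tgt X → Finset (Tgt X) := fun y e => (R.filter fun v => E.pos v ∈ img y e).image
    fun v => (N y, cellAt E.H E.M r (N y) (E.pos v))
  let tgt : V → Finset (Tgt X) := fun y => (D.W L (fr y)).biUnion (cls y)
  let T : ℕ → Fin 3 → Finset (Tgt X) := fun x i =>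
    ((fib x).filter fun y => fr y = i).biUnion tgt
  have hdeep : ∀ y, ∀ e ∈ D.W L (fr y), ∀ q ∈ img y e,
      q ∈ E.Uat y (fr y) ∧ N y + E.M < E.H.dist r q := by
    rintro y e he _ ⟨q, ⟨hq, hq2⟩, rfl⟩
    obtain ⟨hcell, hlev, hsub⟩ := D.mem L (fr y) e he
    have hmem : E.act (E.sec y) q ∈ E.Uat y (fr y) := ⟨q, hsub hq, rfl⟩
    refine ⟨hmem, ?_⟩
    have h1 := gp_add E.hc (E.base y) (E.act (E.sec y) q) r
    have h2 := (hfr y _ hmem).1
    have h3 : E.H.dist (E.base y) (E.act (E.sec y) q) = E.H.dist E.t₀ q := E.dist_act _ _ _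
    rw [E.H.dist_comm (u := E.base y) (v := r),
      E.H.dist_comm (u := E.act (E.sec y) q) (v := r)] at h1
    simp only [N, nn]
    omega
  have haim : ∀ x i, ∀ f ∈ T x i, IsCell E.H E.M r f.1 f.2 ∧
      f.1 = x + D.lev L i + E.shift ∧ Disjoint f.2 (E.B E.k₂ ψ) ∧
      ∃ y ∈ Y, ∃ q ∈ f.2, nn y = x ∧ fr y = i ∧ q ∈ E.Uat y (fr y) := by
    intro x i f hf
    obtain ⟨y, hy₁, hfy⟩ := mem_biUnion.1 hf
    obtain ⟨hy₂, hi⟩ := mem_filter.1 hy₁
    obtain ⟨hyY, hx⟩ := mem_filter.1 hy₂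
    obtain ⟨e, he, hfe⟩ := mem_biUnion.1 hfy
    obtain ⟨v, hv, rfl⟩ := mem_image.1 hfe
    obtain ⟨hU, hdp⟩ := hdeep y e he _ (mem_filter.1 hv).2
    refine ⟨cellAt_isCell _ _ _ _, ?_, Set.disjoint_left.2 fun p hp h => absurd (E.mem_B.1 h) (not_lt.2 ?_),
      y, hyY, E.pos v, mem_cellAt_self hdp, hx, hi, hU⟩
    · rw [← hx, ← hi]
    · exact E.cell_off (cellAt_isCell _ _ _ _) (mem_cellAt_self hdp) hp
        (Nat.le_add_left _ _) (hfar y hyY _ hU)
  let β : Tgt X → V → ℝ := fun f y =>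
    if f ∈ tgt y then min ((L : ℝ) * hitN E.nb R ps y (E.pre f.2) n) 1 / L else 0
  have hβ0 : ∀ f y, 0 ≤ β f y := by
    intro f y
    simp only [β]
    split_ifs
    · exact div_nonneg (le_min (mul_nonneg (Nat.cast_nonneg _)
        (avg_nonneg _ h0.le h1 fun _ _ => ind_nonneg _)) zero_le_one) (Nat.cast_nonneg _)
    · exact le_rfl
  have hβhit : ∀ f y, β f y ≤ hitN E.nb R ps y (E.pre f.2) n := by
    intro f y
    simp only [β]
    split_ifs
    · rw [div_le_iff₀' (by linarith)]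
      exact min_le_left _ _
    · exact avg_nonneg _ h0.le h1 fun _ _ => ind_nonneg _
  have hβL : ∀ f y, β f y ≤ 1 / L := by
    intro f y
    simp only [β]
    split_ifs
    · exact div_le_div_of_nonneg_right (min_le_right _ _) (Nat.cast_nonneg _)
    · positivity
  have hchain : ∀ x, ∀ y ∈ fib x,
      D.κ * (L : ℝ) ^ (D.θ - δ) / L ≤ ∑ i, ∑ f ∈ T x i, β f y := by
    intro x y hy
    have hyY := (mem_filter.1 hy).1
    refine le_trans ?_ (single_le_sum (f := fun i => ∑ f ∈ T x i, β f y)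
      (fun i _ => sum_nonneg fun f _ => hβ0 f y) (mem_univ (fr y)))
    refine le_trans ?_ (sum_le_sum_of_subset_of_nonneg (s := tgt y)
      (fun f hf => mem_biUnion.2 ⟨y, mem_filter.2 ⟨hy, rfl⟩, hf⟩) fun f _ _ => hβ0 f y)
    rw [sum_congr rfl (g := fun f : Tgt X => min ((L : ℝ) * hitN E.nb R ps y (E.pre f.2) n) 1 / L)
      fun f hf => if_pos hf, ← sum_div]
    refine div_le_div_of_nonneg_right ((D.chain L hL (fr y) (E.typ y)).trans ?_) (Nat.cast_nonneg _)
    -- the cells of different targets are different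
    have hdis : ∀ e ∈ D.W L (fr y), ∀ e' ∈ D.W L (fr y), e ≠ e' →
        Disjoint (cls y e) (cls y e') := by
      intro e he e' he' hne
      refine disjoint_left.2 fun f hf hf' => hne ?_
      obtain ⟨v, hv, rfl⟩ := mem_image.1 hf
      obtain ⟨v', hv', heq⟩ := mem_image.1 hf'
      obtain ⟨q, ⟨hq, -⟩, hqv⟩ := (mem_filter.1 hv).2
      obtain ⟨q', ⟨hq', -⟩, hqv'⟩ := (mem_filter.1 hv').2
      have hd1 := (hdeep y e he _ (mem_filter.1 hv).2).2
      have hd2 := (hdeep y e' he' _ (mem_filter.1 hv').2).2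
      have hg := (cellAt_isCell (H := E.H) E.M r (N y) (E.pos v)).gp_le E.thin
        (mem_cellAt_self hd1) (show E.pos v' ∈ cellAt E.H E.M r (N y) (E.pos v) from
          (Set.ext_iff.1 (congrArg Prod.snd heq) (E.pos v')).1 (mem_cellAt_self hd2))
      have hb := gp_base E.hc r (E.base y) (E.pos v) (E.pos v')
      rw [← hqv, ← hqv'] at hb hg
      rw [show GP E.H (E.base y) (E.act (E.sec y) q) (E.act (E.sec y) q') = GP E.H E.t₀ q q' from
        E.gp_act _ _ _ _] at hb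
      obtain ⟨hc1, hl1, -⟩ := D.mem L (fr y) e he
      obtain ⟨hc2, hl2, -⟩ := D.mem L (fr y) e' he'
      have hl : e.1 = e'.1 := hl1.trans hl2.symm
      have hq2 : q' ∈ e.2 := hc1.mem_of_gp E.hc hq (hl ▸ hc2.lt hq') (by
        simp only [N, nn, shift] at hg
        omega)
      rw [← hl] at hc2
      exact Prod.ext hl (hc1.eq_of_mem hc2 hq2 hq')
    rw [sum_biUnion hdis]
    refine sum_le_sum fun e he => ?_
    have e2 : E.Φ (E.sec y) (E.rep (E.typ y)) = y := E.sec_spec y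
    have hle : hitN E.nb (E.chain0 (E.typ y) (fr y) n) ps (E.rep (E.typ y)) (E.pre (E.core e)) n
        ≤ ∑ f ∈ cls y e, hitN E.nb R ps y (E.pre f.2) n := by
      rw [← E.pre_act (E.sec y) (E.core e)]
      refine le_trans (le_of_eq (hitN_map E.hl (E.Φ (E.sec y)) _ ps _ _ _).symm) ?_
      rw [e2]
      refine le_trans (hitN_mono E.hl (S' := R) (fun v hv => mem_union_right _ (mem_union_right _
        (mem_biUnion.2 ⟨y, hyY, hv⟩))) Set.Subset.rfl le_rfl h0.le h1 y) ?_
      simp only [hitN, ← avg_sum]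
      refine avg_mono _ h0.le h1 fun η hη => ?_
      by_cases hh : HitN (E.pre (E.act (E.sec y) '' E.core e)) n y η
      swap
      · rw [show ind (HitN (E.pre (E.act (E.sec y) '' E.core e)) n y η) = 0 from if_neg hh]
        exact sum_nonneg fun _ _ => ind_nonneg _
      rw [show ind (HitN (E.pre (E.act (E.sec y) '' E.core e)) n y η) = 1 from if_pos hh]
      obtain ⟨v, hv, wk, hwk⟩ := hh
      have hvR : v ∈ R := FP.support_in (P := fun v => v ∈ R) (fun c c' hcd => inE_mem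
        (hη (mem_coe.1 ((SimpleGraph.fromEdgeSet_adj _).1 hcd).1)) (Sym2.mem_mk_right c c'))
        wk (mem_union_right _ (mem_union_left _ hyY)) v wk.end_mem_support
      have hvf : (N y, cellAt E.H E.M r (N y) (E.pos v)) ∈ cls y e :=
        mem_image.2 ⟨v, mem_filter.2 ⟨hvR, hv⟩, rfl⟩
      refine le_trans (le_of_eq ?_) (single_le_sum
        (f := fun f : Tgt X => ind (HitN (E.pre f.2) n y η)) (fun _ _ => ind_nonneg _) hvf)
      exact (if_pos ⟨v, mem_cellAt_self (hdeep y e he _ hv).2, wk, hwk⟩).symm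
    refine (min_le_min (mul_le_mul_of_nonneg_left hle (Nat.cast_nonneg _)) le_rfl).trans ?_
    rw [mul_sum]
    exact min_sum_le _ _ fun f _ => mul_nonneg (Nat.cast_nonneg _)
      (avg_nonneg _ h0.le h1 fun _ _ => ind_nonneg _)
  -- the cost of the insertion
  set Λ : ℝ := (1 + ((n : ℝ) + 1) * E.vol ps n) * (1 + (1 - ps) / ps * n)
  have hM : 0 ≤ ((n : ℝ) + 1) * E.vol ps n := mul_nonneg (by positivity) (E.vol_nonneg h0.le h1 n)
  have hn' : 0 ≤ (1 - ps) / ps * (n : ℝ) := by positivity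
  have hΛ1 : 1 ≤ Λ := by nlinarith
  have hΛle : Λ ≤ (1 + D.S) * cl * ((L : ℝ) ^ δ * (L : ℝ) ^ δ) := by
    have hs := D.short L hL
    have hlog := mul_le_mul_of_nonneg_left (log_steps_le D.C hL hδ) hps'
    calc Λ ≤ ((1 + D.S) * (L : ℝ) ^ δ) * (cl * (L : ℝ) ^ δ) := by
          refine mul_le_mul ?_ ?_ (by positivity) (mul_nonneg (by linarith [D.S_nonneg])
            (by linarith))
          · nlinarith
          · simp only [cl, ← hn] at hlog ⊢
            nlinarith
      _ = _ := by ring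
  have hlev : ∀ x ∈ Y.image nn, D.κ * (L : ℝ) ^ (D.θ - δ) *
      (ps ^ ℓ * avg DS ps fun η => ind (L ≤ ((fib x).filter (Within z K η)).card)) ^ D.θ'
      ≤ Λ * ∑ i, ∑ f ∈ T x i, (ps ^ ℓ * hit E.nb R ps z (E.pre f.2)) ^ D.θ' := by
    intro x _
    let A : Finset (Sym2 V) → Prop := fun η =>
      L ≤ ((fib x).filter (Within z K (η ∩ DS))).card
    let seeds : Finset (Sym2 V) → Finset V := fun η =>
      if h : A η then (exists_subset_card_eq h).choose else ∅
    have hseeds : ∀ η, A η → seeds η ⊆ (fib x).filter (Within z K (η ∩ DS)) ∧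
        (seeds η).card = L := fun η h => by
      simp only [seeds, dif_pos h]
      exact (exists_subset_card_eq h).choose_spec
    have hsum1 : ∀ f η, A η → ∑ y ∈ seeds η, β f y ≤ 1 := fun f η h => by
      refine (sum_le_sum fun y _ => hβL f y).trans ?_
      rw [sum_const, (hseeds η h).2, nsmul_eq_mul, mul_one_div,
        div_self (show (L : ℝ) ≠ 0 by linarith)]
    set P := avg ES ps fun η => ind (A η) with hPdef
    set Q : Fin 3 × Tgt X → ℝ := fun a =>
      avg ES ps fun η => ind (A η) * ∑ y ∈ seeds η, β a.2 y with hQdef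
    have hP : avg DS ps (fun η => ind (L ≤ ((fib x).filter (Within z K η)).card)) = P := by
      have h := avg_split hD ps (fun η => ind (L ≤ ((fib x).filter (Within z K η)).card))
        fun _ => (1 : ℝ)
      simp only [mul_one, avg_one] at h
      exact h.symm
    have hQ0 : ∀ a, 0 ≤ Q a := fun a => avg_nonneg _ h0.le h1 fun η _ =>
      mul_nonneg (ind_nonneg _) (sum_nonneg fun y _ => hβ0 _ y)
    have hQP : ∀ a, Q a ≤ P := fun a => avg_mono _ h0.le h1 fun η _ => by
      by_cases h : A η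
      · exact mul_le_of_le_one_right (ind_nonneg _) (hsum1 _ η h)
      · rw [show ind (A η) = 0 from if_neg h, zero_mul]
    have hQH : ∀ a, Q a ≤ Λ * hit E.nb R ps z (E.pre a.2.2) := fun a => by
      have hins := insertion_union_weight hD h0 h1 z (E.pre a.2.2) K n (fib x) (β := β a.2)
        (B := E.vol ps n) (fun y _ => hβ0 _ y) (E.vol_nonneg h0.le h1 n)
        (fun y _ => hβhit a.2 y)
        (fun u => (sum_le_sum fun y _ => E.tauW_le_tau h0.le h1 R n u y).trans
          (E.sum_tau_le_vol h0.le h1 _ n u))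
        A
        (fun η η' h hA => hA.trans (card_le_card fun y hy => mem_filter.2 ⟨(mem_filter.1 hy).1,
          within_mono le_rfl (inter_subset_inter h le_rfl) (mem_filter.1 hy).2⟩))
        (fun η η' _ _ hag hA => hA.trans (card_le_card fun y hy => mem_filter.2
          ⟨(mem_filter.1 hy).1, (hag K le_rfl y).2 (mem_filter.1 hy).2⟩))
        seeds (fun η _ h y hy => mem_filter.1 ((hseeds η h).1 hy)) fun η _ h => hsum1 _ η h
      refine hins.trans (mul_le_mul_of_nonneg_left ?_ (by linarith))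
      exact (avg_mono _ h0.le h1 fun η _ => ind_mono fun h => h.2).trans
        (hitN_le_hit E.nb R h0.le h1 z _ _)
    have hPQ : D.κ * (L : ℝ) ^ (D.θ - δ) * P
        ≤ ∑ a ∈ (univ : Finset (Fin 3)).biUnion (fun i => (T x i).image fun f => (i, f)), Q a := by
      rw [sum_biUnion (fun i _ j _ hij => disjoint_left.2 fun a ha hb => hij (by
        obtain ⟨f, -, rfl⟩ := mem_image.1 ha
        obtain ⟨g, -, he⟩ := mem_image.1 hb
        exact (congrArg Prod.fst he).symm))]
      simp only [sum_image fun f _ g _ (h : ((_ : Fin 3), f) = (_, g)) => (Prod.ext_iff.1 h).2]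
      simp only [hQdef, ← avg_sum]
      rw [← avg_mul]
      refine avg_mono _ h0.le h1 fun η _ => ?_
      simp only [← mul_sum]
      by_cases h : A η
      swap
      · simp [ind, h]
      rw [show ind (A η) = 1 from if_pos h, mul_one, one_mul]
      have e : ∀ i, ∑ f ∈ T x i, ∑ y ∈ seeds η, β f y = ∑ y ∈ seeds η, ∑ f ∈ T x i, β f y :=
        fun i => sum_comm
      simp only [e]
      rw [sum_comm]
      refine le_trans ?_ (sum_le_sum fun y hy =>
        hchain x y (mem_filter.1 ((hseeds η h).1 hy)).1)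
      rw [sum_const, (hseeds η h).2, nsmul_eq_mul,
        mul_div_cancel₀ _ (show (L : ℝ) ≠ 0 by linarith)]
    have hpℓ : 0 ≤ ps ^ ℓ := pow_nonneg h0.le _
    have key := rpow_weights
      ((univ : Finset (Fin 3)).biUnion fun i => (T x i).image fun f => (i, f))
      (fun a => ps ^ ℓ * Q a) (fun a => ps ^ ℓ * hit E.nb R ps z (E.pre a.2.2)) (Λ := Λ)
      (c := D.κ * (L : ℝ) ^ (D.θ - δ)) (P := ps ^ ℓ * P) hθ' D.θ'_le_one hΛ1
      (mul_nonneg hpℓ (avg_nonneg _ h0.le h1 fun _ _ => ind_nonneg _))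
      (fun a _ => mul_nonneg hpℓ (hQ0 a)) (fun a _ => mul_le_mul_of_nonneg_left (hQP a) hpℓ)
      (fun a _ => mul_nonneg hpℓ (hit_nonneg _ h0.le h1 _ _))
      (fun a _ => (mul_le_mul_of_nonneg_left (hQH a) hpℓ).trans_eq (mul_left_comm _ _ _))
      (by rw [← mul_sum, mul_left_comm]; exact mul_le_mul_of_nonneg_left hPQ hpℓ)
    rw [hP]
    refine key.trans (le_of_eq ?_)
    rw [sum_biUnion (fun i _ j _ hij => disjoint_left.2 fun a ha hb => hij (by
      obtain ⟨f, -, rfl⟩ := mem_image.1 ha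
      obtain ⟨g, -, he⟩ := mem_image.1 hb
      exact (congrArg Prod.fst he).symm))]
    simp only [sum_image fun f _ g _ (h : ((_ : Fin 3), f) = (_, g)) => (Prod.ext_iff.1 h).2]
  have hfam : ∑ x ∈ Y.image nn, ∑ i, ∑ f ∈ T x i,
      (ps ^ ℓ * hit E.nb R ps z (E.pre f.2)) ^ D.θ' ≤ G * (3 * H) := by
    rw [← sum_fiberwise_of_maps_to (g := key) (t := range G) fun x _ => mem_range.2 (hkey x)]
    refine (sum_le_card_nsmul _ _ (3 * H) fun g _ => ?_).trans_eq
      (by rw [card_range, nsmul_eq_mul])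
    rw [sum_comm]
    refine (sum_le_sum (g := fun _ => H) fun i _ => ?_).trans (le_of_eq (by simp))
    have hdd : ∀ y ∈ Y, GP E.H (E.base y) r w ≤ d + E.Kf ∧
        d ≤ GP E.H (E.base y) r w + E.Kf := fun y hy => by
      have e1 : GP E.H (E.pos y) r w = d := (hY y hy).2
      have a := E.gp_pos_le y r w
      have b := gp_base E.hc (E.base y) (E.pos y) r w
      have c := E.pos_base_le y
      omega
    have huniq : ∀ x x' f f', key x = g → key x' = g → f ∈ T x i → f' ∈ T x' i →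
        ∀ p, p ∈ f.2 → p ∈ f'.2 → f = f' ∧ x = x' := by
      intro x x' f f' hk hk' hf hf' p hp hp'
      obtain ⟨hc, hN, -, y, hy, q, hq, hx, hi, hqU⟩ := haim x i f hf
      obtain ⟨hc', hN', -, y', hy', q', hq', hx', hi', hqU'⟩ := haim x' i f' hf'
      suffices hxx : x = x' by
        have hn : f.1 = f'.1 := by rw [hN, hN', hxx]
        rw [← hn] at hc'
        exact ⟨Prod.ext hn (hc.eq_of_mem hc' hp hp'), hxx⟩
      simp only [key] at hk hk'
      have hmod := Nat.mod_lt x (show 0 < P by omega)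
      have hmod' := Nat.mod_lt x' (show 0 < P by omega)
      by_cases hs : sm x
      · by_cases hs' : sm x'
        · rw [if_pos hs] at hk; rw [if_pos hs'] at hk'; omega
        · rw [if_pos hs] at hk; rw [if_neg hs'] at hk'; omega
      · by_cases hs' : sm x'
        · rw [if_neg hs] at hk; rw [if_pos hs'] at hk'; omega
        rw [if_neg hs] at hk; rw [if_neg hs'] at hk'
        subst hx hx'
        obtain ⟨g1, g2⟩ := hfr y q hqU
        obtain ⟨g1', g2'⟩ := hfr y' q' hqU'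
        rw [if_neg hs] at g2; rw [if_neg hs'] at g2'
        have hclose : 2 * nn y ≤ 2 * nn y' + 4 * E.Kf + E.Δ + 2 ∧
            2 * nn y' ≤ 2 * nn y + 4 * E.Kf + E.Δ + 2 := by
          rcases le_total f.1 f'.1 with hle | hle
          · exact E.level_close (d := d) (lv := D.lev L i) hN.ge hc hq
              (hc.subset_of_mem hc' hle hp hp' hq') g1 g2 g1' g2' (hdd y hy) (hdd y' hy')
          · exact (E.level_close (d := d) (lv := D.lev L i) hN'.ge hc' hq'
              (hc'.subset_of_mem hc hle hp' hp hq) g1' g2' g1 g2 (hdd y' hy') (hdd y hy)).symm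
        rcases le_total (nn y) (nn y') with h | h
        · have h2 := (Nat.modEq_iff_dvd' h).1 (hk.trans hk'.symm)
          have h3 := Nat.eq_zero_of_dvd_of_lt h2 (by omega)
          omega
        · have h2 := (Nat.modEq_iff_dvd' h).1 (hk'.trans hk.symm)
          have h3 := Nat.eq_zero_of_dvd_of_lt h2 (by omega)
          omega
    have hne : ∀ x, ∀ f ∈ T x i, ∃ q, q ∈ f.2 := fun x f hf => by
      obtain ⟨-, -, -, _, -, q, hq, -⟩ := haim x i f hf
      exact ⟨q, hq⟩
    rw [← sum_biUnion fun x hx x' hx' hne' => disjoint_left.2 fun f hf hf' => by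
      obtain ⟨q, hq⟩ := hne x f hf
      exact hne' (huniq x x' f f (mem_filter.1 hx).2 (mem_filter.1 hx').2 hf hf' q hq hq).2]
    refine E.bound_at h0.le h1 hθ' hc₁ D.bound hj R hR _ ?_ ?_
    · intro f hf f' hf' hne'
      obtain ⟨x, hx, hf⟩ := mem_biUnion.1 (mem_coe.1 hf)
      obtain ⟨x', hx', hf'⟩ := mem_biUnion.1 (mem_coe.1 hf')
      exact Set.disjoint_left.2 fun q hq hq' => hne'
        (huniq x x' f f' (mem_filter.1 hx).2 (mem_filter.1 hx').2 hf hf' q hq hq').1
    · intro f hf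
      obtain ⟨x, -, hf⟩ := mem_biUnion.1 hf
      exact ⟨(haim x i f hf).1, (haim x i f hf).2.2.1⟩
  have hall := (sum_le_sum hlev)
  rw [← mul_sum, ← mul_sum] at hall
  have h2 := hall.trans (mul_le_mul hΛle hfam (sum_nonneg fun x _ => sum_nonneg fun i _ =>
    sum_nonneg fun f _ => Real.rpow_nonneg (mul_nonneg (pow_nonneg h0.le _)
      (hit_nonneg _ h0.le h1 _ _)) _) (mul_nonneg (mul_nonneg (by linarith [D.S_nonneg]) (by linarith))
      (by positivity)))
  have hκ := D.κ_pos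
  rw [← le_div_iff₀' (mul_pos hκ (Real.rpow_pos_of_pos (by linarith) _))] at h2
  refine h2.trans (le_of_eq ?_)
  rw [show 3 * δ - D.θ = δ + δ - (D.θ - δ) by ring, Real.rpow_sub (by linarith) (δ + δ),
    Real.rpow_add (by linarith) δ]
  field_simp

open Classical in
/-- Step 3: the tail. -/
theorem tails {ps : ℝ} (h0 : 0 < ps) (h1 : ps ≤ 1) (hD : E.DataExists ps) : E.Tails ps := by
  intro ε hε
  obtain ⟨θ₀', hθ₀', hD⟩ := hD
  set θ₀ := min θ₀' 1
  have hθ₀ : 0 < θ₀ := lt_min hθ₀' one_pos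
  have hθ₁ : θ₀ ≤ 1 := min_le_right _ _
  set δ := min ε 1 * θ₀ / 40
  have hδ : 0 < δ := by have := lt_min hε one_pos; positivity
  have hδ1 : δ < 1 / 2 := by
    have : min ε 1 * θ₀ ≤ 1 * 1 := mul_le_mul (min_le_right _ _) hθ₁ hθ₀.le zero_le_one
    simp only [δ]; linarith
  obtain ⟨D, hDθ⟩ := hD δ hδ hδ1
  have hθ' : 0 < D.θ' := D.θ_pos.trans_le D.θ_le
  have hθθ' : θ₀ ≤ D.θ' := ((min_le_left _ _).trans hDθ).trans D.θ_le
  obtain ⟨A, hA0, hA⟩ := E.exists_level h0 h1 hδ D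
  set η := 4 * δ / θ₀ with hη
  have hη0 : 0 ≤ η := by positivity
  set A' := A ^ (1 / D.θ') * (1 + 1 / δ)
  have hA' : 0 ≤ A' := mul_nonneg (Real.rpow_nonneg hA0 _) (by positivity)
  refine ⟨A' * (2 : ℝ) ^ (η + δ) + 1, by positivity, fun K ψ ℓ z hj w d S Y hS hY => ?_⟩
  set Vv := E.vol ps K + 1
  have hV : 1 ≤ Vv := le_add_of_nonneg_left (E.vol_nonneg h0.le h1 K)
  set N := ⌈Vv ^ 3⌉₊
  have hV3 : (1 : ℝ) ≤ Vv ^ 3 := one_le_pow₀ hV
  have hN : 1 ≤ N := Nat.one_le_ceil_iff.2 (by linarith)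
  have hup : (N : ℝ) ≤ 2 * Vv ^ 3 := by
    have := Nat.ceil_lt_add_one (show 0 ≤ Vv ^ 3 by linarith)
    linarith
  have hpl : 0 ≤ ps ^ ℓ := pow_nonneg h0.le _
  set DS := inE E.nb S
  let nn : V → ℕ := fun y => E.H.dist (E.act ψ E.t₀) (E.base y)
  let cnt : ℕ → Finset (Sym2 V) → ℕ := fun x ξ =>
    ((Y.filter fun y => nn y = x).filter (Within z K ξ)).card
  -- one level
  have hlev : ∀ j : ℕ, ∑ x ∈ Y.image nn, ps ^ ℓ * avg DS ps (fun ξ => ind (j + 1 ≤ cnt x ξ))
      ≤ A ^ (1 / D.θ') * ((j : ℝ) + 1) ^ (η - 1) := by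
    intro j
    have h := sum_le_rpow _ hθ' D.θ'_le_one
      (fun x _ => mul_nonneg hpl (avg_nonneg _ h0.le h1 fun _ _ => ind_nonneg _))
      (hA ψ ℓ z hj w d S Y hS hY K (j + 1) (Nat.succ_pos j))
    refine h.trans ?_
    rw [Real.mul_rpow hA0 (Real.rpow_nonneg (Nat.cast_nonneg _) _),
      ← Real.rpow_mul (Nat.cast_nonneg _)]
    refine mul_le_mul_of_nonneg_left ?_ (Real.rpow_nonneg hA0 _)
    push_cast
    refine Real.rpow_le_rpow_of_exponent_le (by linarith [(Nat.cast_nonneg j : (0 : ℝ) ≤ j)]) ?_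
    rw [mul_one_div, div_le_iff₀ hθ', hη, sub_mul, div_mul_eq_mul_div, one_mul]
    have h4 : 4 * δ ≤ 4 * δ * D.θ' / θ₀ := by
      rw [le_div_iff₀ hθ₀]
      exact mul_le_mul_of_nonneg_left hθθ' (by positivity)
    have h5 := D.ratio
    nlinarith [D.θ'_le_one]
  have hpt : ∀ ξ, ∑ y ∈ Y, ind (Within z K ξ y) ≤
      (∑ x ∈ Y.image nn, ∑ j ∈ range N, ind (j + 1 ≤ cnt x ξ))
        + ((Y.filter (Within z K ξ)).card : ℝ) ^ 2 / N := by
    intro ξ
    have hsum : ∑ x ∈ Y.image nn, cnt x ξ = (Y.filter (Within z K ξ)).card := by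
      rw [card_eq_sum_card_fiberwise (t := Y.image nn) (f := nn)
        fun y hy => mem_image_of_mem _ (mem_filter.1 hy).1]
      exact sum_congr rfl fun x _ => congrArg card (filter_comm _ _ _)
    have e : ∑ y ∈ Y, ind (Within z K ξ y) = ((Y.filter (Within z K ξ)).card : ℝ) := by
      simp only [ind, sum_boole]
    rw [e, ← hsum, Nat.cast_sum]
    refine (sum_le_sum fun x _ => count_le_levels (cnt x ξ) N hN).trans ?_
    rw [sum_add_distrib, ← sum_div]
    exact add_le_add le_rfl (div_le_div_of_nonneg_right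
      (sum_sq_le_sq_sum_of_nonneg fun x _ => Nat.cast_nonneg _) (Nat.cast_nonneg N))
  have hmom : avg DS ps (fun ξ => ((Y.filter (Within z K ξ)).card : ℝ) ^ 2) ≤ Vv ^ 3 :=
    (FQ.second_moment S Y h0.le h1 z K fun u F =>
      (sum_le_sum fun y _ => E.tauW_le_tau h0.le h1 S K u y).trans
        (E.sum_tau_le_vol h0.le h1 F K u)).trans
      (pow_le_pow_left₀ (E.vol_nonneg h0.le h1 K) (le_add_of_nonneg_right zero_le_one) 3)
  have hVe : (N : ℝ) ^ (η + δ) ≤ (2 : ℝ) ^ (η + δ) * Vv ^ ε := by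
    refine (Real.rpow_le_rpow (Nat.cast_nonneg N) hup (by linarith)).trans ?_
    rw [Real.mul_rpow (by norm_num) (by linarith), ← Real.rpow_natCast Vv 3,
      ← Real.rpow_mul (by linarith)]
    refine mul_le_mul_of_nonneg_left (Real.rpow_le_rpow_of_exponent_le hV ?_) (by positivity)
    have h6 : δ / θ₀ = min ε 1 / 40 := by simp only [δ]; field_simp
    have h7 : δ ≤ δ / θ₀ := le_div_self hδ.le hθ₀ hθ₁
    have h8 : η = 4 * (δ / θ₀) := by rw [hη]; ring
    push_cast
    linarith [min_le_left ε 1]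
  calc ps ^ ℓ * ∑ y ∈ Y, tauW E.nb S ps z y K
      = ps ^ ℓ * avg DS ps (fun ξ => ∑ y ∈ Y, ind (Within z K ξ y)) := by
        rw [avg_sum]; rfl
    _ ≤ ps ^ ℓ * avg DS ps (fun ξ => (∑ x ∈ Y.image nn, ∑ j ∈ range N, ind (j + 1 ≤ cnt x ξ))
          + ((Y.filter (Within z K ξ)).card : ℝ) ^ 2 / N) :=
        mul_le_mul_of_nonneg_left (avg_mono _ h0.le h1 fun ξ _ => hpt ξ) hpl
    _ = (∑ j ∈ range N, ∑ x ∈ Y.image nn, ps ^ ℓ * avg DS ps fun ξ => ind (j + 1 ≤ cnt x ξ))
          + ps ^ ℓ * (avg DS ps (fun ξ => ((Y.filter (Within z K ξ)).card : ℝ) ^ 2) / N) := by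
        rw [avg_add, mul_add]
        congr 1
        · rw [avg_sum, mul_sum, sum_comm]
          simp only [avg_sum, mul_sum]
        · simp only [avg, sum_div, mul_div_assoc]
    _ ≤ A' * ((2 : ℝ) ^ (η + δ) * Vv ^ ε) + 1 := by
        refine add_le_add ((sum_le_sum fun j _ => hlev j).trans ?_) ?_
        · rw [← mul_sum]
          refine le_trans (mul_le_mul_of_nonneg_left (sum_rpow_add_le N hN hη0 hδ)
            (Real.rpow_nonneg hA0 _)) ?_
          rw [← mul_assoc]
          exact mul_le_mul_of_nonneg_left hVe hA'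
        · refine mul_le_one₀ (pow_le_one₀ h0.le h1)
            (div_nonneg (avg_nonneg _ h0.le h1 fun _ _ => by positivity) (Nat.cast_nonneg _)) ?_
          rw [div_le_one (by exact_mod_cast hN)]
          exact hmom.trans (Nat.le_ceil _)
    _ ≤ (A' * (2 : ℝ) ^ (η + δ) + 1) * Vv ^ ε := by
        have : (1 : ℝ) ≤ Vv ^ ε := Real.one_le_rpow hV hε.le
        nlinarith

end Env

end Vale.Agent.P165.QT
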