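import Vale.Agent.P165.QT.Own
import Vale.Agent.P165.QT.Form
import Vale.Agent.P165.QT.Tail
import Vale.Agent.P165.QT.Chains
import Vale.Agent.P165.QT.Frames
import Vale.Agent.P165.QT.Threshold
import Vale.Agent.P165.TL.Main

/-!
# Nonuniqueness for four-ended actions on graphs with the bottleneck property
-/

namespace Vale.Agent.P165.QT

open Finset FF

section Env

variable {Γ O ι V X : Type} [Group Γ] [Fintype ι] [DecidableEq V] [Fintype O]
  (E : Env Γ O ι V X)

/-- The small form at the last subcritical parameter. -/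
theorem Env.small {p : ℝ} (hs : Sub E.nb p) : E.Small p :=
  E.small_of_closed hs.1 hs.2.1
    (E.closed_of_tails hs.1 hs.2.1 (E.tails hs.1 hs.2.1 (E.dataExists hs)))

/-- A setting with frames has a nonuniqueness phase. -/
theorem Env.pc_lt_pu [Infinite V] : pc E.G < pu E.G :=
  pc_lt_pu_of_small E.hl E.Φ (univ.image E.rep)
    (fun v => ⟨(E.sec v)⁻¹, mem_image.2 ⟨E.typ v, mem_univ _,
      ((congrArg (E.Φ (E.sec v)⁻¹) (E.sec_spec v).symm).trans (E.Φ_inv _ _)).symm⟩⟩)
    E.conn fun _ hs => E.small hs

end Env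

/-- In a tree every walk passes through every vertex between its ends. -/
theorem bottleneck_of_isTree {X : Type} {T : SimpleGraph X} (hT : T.IsTree) : Bottleneck T 0 := by
  classical
  intro p q w m hm
  obtain ⟨w₁, hw₁⟩ := hT.connected.exists_walk_length_eq_dist p m
  obtain ⟨w₂, hw₂⟩ := hT.connected.exists_walk_length_eq_dist m q
  have hlen : (w₁.append w₂).length = T.dist p q := by
    rw [SimpleGraph.Walk.length_append, hw₁, hw₂, hm]
  have hp := (w₁.append w₂).isPath_of_length_eq_dist hlen
  obtain ⟨γ, -, huniq⟩ := hT.existsUnique_path p q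
  have e : w.bypass = w₁.append w₂ :=
    (huniq _ w.bypass_isPath).trans (huniq _ hp).symm
  refine ⟨m, w.support_bypass_subset_support ?_, by simp⟩
  rw [e]
  exact (SimpleGraph.Walk.mem_support_append_iff _ _).2 (Or.inl w₁.end_mem_support)

/-- A connected regular graph with an action with finitely many orbits and an equivariant map to a
graph with the bottleneck property on which two elements have four ends has a nonuniqueness phase. -/
theorem pc_lt_pu_of_fourEnds {Γ V X : Type} [Group Γ] {G : SimpleGraph V} {d : ℕ}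
    (hconn : G.Connected) (hreg : ∀ v, (G.neighborSet v).encard = d) (Φ : Γ →* (G ≃g G))
    (R : Finset V) (cover : ∀ v, ∃ g, Φ g v ∈ R) {H : SimpleGraph X} (hH : H.Connected) {Δ : ℕ}
    (hB : Bottleneck H Δ) (act : Γ →* (H ≃g H)) (pos : V → X)
    (hpos : ∀ γ v, pos (Φ γ v) = act γ (pos v)) (o : X) (h4 : SG.FourEnds H act o) :
    pc G < pu G := by
  classical
  obtain ⟨v₀⟩ := hconn.nonempty
  have : Infinite V := by
    by_contra hfin
    rw [not_infinite_iff_finite] at hfin
    have := Fintype.ofFinite V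
    obtain ⟨g, h', K', hg, hdiv⟩ := h4
    set N := ∑ v : V, H.dist (pos v₀) (pos v)
    set n := 2 * H.dist o (pos v₀) + N + 1
    have h1 : H.dist (pos v₀) (pos (Φ (g ^ n) v₀)) ≤ N :=
      single_le_sum (f := fun v => H.dist (pos v₀) (pos v)) (fun _ _ => Nat.zero_le _) (mem_univ _)
    rw [hpos] at h1
    have h2 := (hg n).1
    have h3 := hH.dist_triangle (u := o) (v := pos v₀) (w := act (g ^ n) o)
    have h4 := hH.dist_triangle (u := pos v₀) (v := act (g ^ n) (pos v₀)) (w := act (g ^ n) o)
    rw [dist_iso hH (act (g ^ n)), H.dist_comm (u := pos v₀) (v := o)] at h4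
    omega
  obtain ⟨nb, hl⟩ := exists_labelling G d hreg
  obtain ⟨O, hO, E, rfl, -⟩ :=
    exists_env hl hconn Φ R cover hH (thin_of_bottleneck hH hB) act pos hpos o h4
  exact E.pc_lt_pu

/-- Every group with a four-ended action on a graph with the bottleneck property has a nonuniqueness
phase. -/
theorem nonuniquePhase_of_fourEnds {Γ X : Type} [Group Γ] {H : SimpleGraph X} (hH : H.Connected)
    {Δ : ℕ} (hB : Bottleneck H Δ) (act : Γ →* (H ≃g H)) (o : X) (h : SG.FourEnds H act o) :
    SG.NonuniquePhase Γ := by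
  classical
  have key : ∀ (V : Type) (G : SimpleGraph V) (d : ℕ), G.Connected →
      (∀ v, (G.neighborSet v).encard = d) → ∀ (Φ : Γ →* (G ≃g G)),
      (∀ g v, Φ g v = v → g = 1) → ∀ R : Finset V, (∀ v, ∃ g, Φ g v ∈ R) → pc G < pu G := by
    intro V G d hc hd Φ free R cover
    obtain ⟨O, hO, hO', G', hinv, ⟨φ⟩⟩ := exists_chart G Φ free R cover
    have hc' : G'.Connected := φ.connected_iff.1 hc
    have hd' : ∀ x, (G'.neighborSet x).encard = d := fun x => by
      obtain ⟨v, rfl⟩ := φ.surjective x
      rw [← hd v]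
      exact (ENat.card_congr (φ.mapNeighborSet v)).symm
    rw [pc_congr φ, pu_congr φ]
    refine pc_lt_pu_of_fourEnds hc' hd'
      { toFun := trIso hinv
        map_one' := by ext x <;> simp [trIso, tr]
        map_mul' := fun a b => by ext x <;> simp [trIso, tr, mul_assoc] }
      (univ.image fun o : O => ((1 : Γ), o))
      (fun v => ⟨v.1⁻¹, mem_image.2 ⟨v.2, mem_univ _, by simp [trIso, tr]⟩⟩)
      hH hB act (fun v => act v.1 o) (fun γ v => ?_) o h
    show act (γ * v.1) o = act γ (act v.1 o)
    rw [map_mul]; rfl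
  refine ⟨key, fun Δ' _ s hfin hgen ψ hψ hidx => ?_⟩
  obtain ⟨hconn, d, hd⟩ := TL.connected_regular_mulCayley s hfin hgen
  obtain ⟨Φ, R, free, cover⟩ := exists_leftAction (SimpleGraph.mulCayley s)
    (fun _ _ _ => SimpleGraph.mulCayley_adj_mul_iff_right) ψ hψ hidx
  exact key _ _ d hconn hd Φ free R cover

end Vale.Agent.P165.QT
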