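import Vale.Agent.P165.QT.Base

/-!
# Translations, shadows, gates, balls and connection probabilities
-/

namespace Vale.Agent.P165.QT.Env

open Finset FF
open Vale.Agent.P165.FP (hit)
open Vale.Agent.P165.FQ

variable {Γ O ι V X : Type} [Group Γ] [Fintype ι] (E : Env Γ O ι V X)

theorem Φ_mul (γ δ : Γ) (v : V) : E.Φ (γ * δ) v = E.Φ γ (E.Φ δ v) := by rw [map_mul]; rfl

theorem Φ_inv (γ : Γ) (v : V) : E.Φ γ⁻¹ (E.Φ γ v) = v := by
  rw [← E.Φ_mul, inv_mul_cancel, map_one]; rfl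

theorem act_mul (γ δ : Γ) (q : X) : E.act (γ * δ) q = E.act γ (E.act δ q) := by rw [map_mul]; rfl

theorem act_one (q : X) : E.act 1 q = q := by rw [map_one]; rfl

theorem act_inv_act (γ : Γ) (q : X) : E.act γ⁻¹ (E.act γ q) = q := by
  rw [← E.act_mul, inv_mul_cancel, E.act_one]

theorem act_act_inv (γ : Γ) (q : X) : E.act γ (E.act γ⁻¹ q) = q := by
  rw [← E.act_mul, mul_inv_cancel, E.act_one]

theorem dist_act (γ : Γ) (q r : X) : E.H.dist (E.act γ q) (E.act γ r) = E.H.dist q r :=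
  dist_iso E.hc (E.act γ) q r

theorem gp_act (γ : Γ) (r p q : X) :
    GP E.H (E.act γ r) (E.act γ p) (E.act γ q) = GP E.H r p q :=
  gp_iso E.hc (E.act γ) r p q

theorem mem_act_image (γ : Γ) (A : Set X) (q : X) : q ∈ E.act γ '' A ↔ E.act γ⁻¹ q ∈ A :=
  ⟨fun ⟨u, hu, e⟩ => by rw [← e, E.act_inv_act]; exact hu,
    fun h => ⟨_, h, E.act_act_inv γ q⟩⟩

theorem a₁_eq : E.a₁ = E.rep E.o₁ := rfl

theorem t₀_eq : E.t₀ = E.pos E.a₁ := rfl

theorem pos_anchor (ψ : Γ) : E.pos (E.Φ ψ E.a₁) = E.act ψ E.t₀ := E.pos_eq ψ _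

/-! ### Shadows -/

theorem mem_B {k : ℕ} {ψ : Γ} {q : X} :
    q ∈ E.B k ψ ↔ k < GP E.H (E.act ψ E.t₀) q (E.act ψ E.b) := Iff.rfl

theorem B_anti {k k' : ℕ} (h : k ≤ k') (ψ : Γ) : E.B k' ψ ⊆ E.B k ψ := fun _ hq => h.trans_lt hq

theorem B₂_subset_B₁ (ψ : Γ) : E.B E.k₂ ψ ⊆ E.B E.k₁ ψ :=
  E.B_anti (by have := E.hk₁; omega) ψ

theorem B₀_subset_B₂ (ψ : Γ) : E.B E.k₀ ψ ⊆ E.B E.k₂ ψ :=
  E.B_anti (by have := E.hk₀; omega) ψ

theorem B₀_subset_B₁ (ψ : Γ) : E.B E.k₀ ψ ⊆ E.B E.k₁ ψ :=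
  (E.B₀_subset_B₂ ψ).trans (E.B₂_subset_B₁ ψ)

theorem mem_B_act (γ ψ : Γ) (k : ℕ) (q : X) :
    E.act γ q ∈ E.B k (γ * ψ) ↔ q ∈ E.B k ψ := by
  rw [mem_B, mem_B, E.act_mul, E.act_mul, E.gp_act]

theorem mem_B_iff (ψ : Γ) (k : ℕ) (q : X) : q ∈ E.B k ψ ↔ E.act ψ⁻¹ q ∈ E.B k 1 := by
  rw [← E.mem_B_act ψ 1 k, E.act_act_inv, mul_one]

theorem anchor_notMem (k : ℕ) (ψ : Γ) : E.act ψ E.t₀ ∉ E.B k ψ := by
  rw [mem_B, gp_self]
  omega

theorem t₀_notMem (k : ℕ) : E.t₀ ∉ E.B k 1 := by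
  simpa [E.act_one] using E.anchor_notMem k 1

/-- The margin around the excluded shadows. -/
theorem margin_at {ψ : Γ} {q r : X} (hq : q ∉ E.B E.k₂ ψ)
    (h : E.H.dist q r ≤ E.R₀ + E.D + E.Kf) : r ∉ E.B E.k₀ ψ := by
  rw [mem_B, not_lt] at hq ⊢
  have h1 := gp_move E.hc (E.act ψ E.t₀) (E.act ψ E.b) r q
  rw [gp_comm _ (E.act ψ E.b) r, gp_comm _ (E.act ψ E.b) q,
    E.H.dist_comm (u := r) (v := q)] at h1
  have := E.hk₀
  omega

/-- A point of the deepest shadow and one outside the middle shadow have a bounded product. -/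
theorem gp_sep {ψ : Γ} {q r : X} (hq : q ∉ E.B E.k₂ ψ) (hr : r ∈ E.B E.k₀ ψ) :
    GP E.H (E.act ψ E.t₀) q r ≤ E.k₂ + E.Δ + 2 := by
  rw [mem_B, not_lt] at hq
  rw [mem_B] at hr
  have h1 := four_point E.hc E.thin (E.act ψ E.t₀) q r (E.act ψ E.b)
  have := E.hk₀
  omega

/-! ### The base of a vertex -/

theorem pos_base_le (v : V) : 4 * E.H.dist (E.base v) (E.pos v) ≤ E.Kf := by
  conv_lhs => rw [← E.sec_spec v]
  rw [E.pos_eq, base, E.sec_spec, E.dist_act]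
  exact E.hrep _

theorem gp_pos_le (v : V) (q u : X) :
    GP E.H (E.pos v) q u ≤ GP E.H (E.base v) q u + E.Kf := by
  have h1 := gp_base E.hc (E.pos v) (E.base v) q u
  have h2 := E.pos_base_le v
  rw [E.H.dist_comm (u := E.pos v) (v := E.base v)] at h1
  omega

/-- A frame at `v` avoiding the directions of two points, seen from its base. -/
theorem avoid_at (v : V) (u w : X) : ∃ i, ∀ q ∈ E.Uat v i,
    GP E.H (E.base v) q u ≤ E.Kf ∧ GP E.H (E.base v) q w ≤ E.Kf := by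
  obtain ⟨i, hi⟩ := E.avoid (E.act (E.sec v)⁻¹ u) (E.act (E.sec v)⁻¹ w)
  refine ⟨i, fun q hq => ?_⟩
  obtain ⟨h1, h2⟩ := hi _ ((E.mem_act_image _ _ _).1 hq)
  rw [← E.gp_act (E.sec v), E.act_act_inv, E.act_act_inv] at h1 h2
  exact ⟨h1, h2⟩

theorem isCell_Uat (v : V) (i : Fin 3) : IsCell E.H E.M (E.base v) (E.nU i) (E.Uat v i) :=
  (E.isCell_U i).image E.hc (E.act (E.sec v))

/-- A frame avoiding the root from a point of a cell points into it. -/
theorem Uat_subset {n : ℕ} {C : Set X} (hC : IsCell E.H E.M E.t₀ n C) {z : V} (hz : E.pos z ∈ C)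
    {i : Fin 3} (hi : ∀ q ∈ E.Uat z i, GP E.H (E.base z) q E.t₀ ≤ E.Kf) {q : X}
    (hq : q ∈ E.Uat z i) :
    q ∈ C ∧ E.H.dist E.t₀ (E.pos z) + E.nU i + E.M < E.H.dist E.t₀ q + 2 * E.Kf := by
  have h1 := hi q hq
  have h2 := (E.isCell_Uat z i).lt hq
  have h3 := hC.lt hz
  have h4 := gp_add E.hc (E.base z) q E.t₀
  have h5 := E.pos_base_le z
  have h6 := E.hc.dist_triangle (u := E.t₀) (v := E.base z) (w := E.pos z)
  rw [E.H.dist_comm (u := q) (v := E.t₀), E.H.dist_comm (u := E.base z) (v := E.t₀)] at h4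
  have hM := E.hM
  refine ⟨hC.mem_of_gp E.hc hz (by omega) ?_, by omega⟩
  have h7 := gp_add E.hc E.t₀ (E.pos z) q
  have h8 := E.hc.dist_triangle (u := E.pos z) (v := E.base z) (w := q)
  rw [E.H.dist_comm (u := E.pos z) (v := E.base z)] at h8
  omega

/-! ### Gates -/

theorem gate_dist {r : X} {n : ℕ} {C : Set X} (hC : IsCell E.H E.M r n C) {z : V}
    (h : E.Gate C z) : n + E.M < E.H.dist r (E.pos z) ∧
      E.H.dist r (E.pos z) ≤ n + E.M + E.D := by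
  obtain ⟨hz, x, hadj, hx⟩ := h
  have hd : E.H.dist (E.pos z) (E.pos x) ≤ E.D := by
    rw [SimpleGraph.dist_comm]; exact E.lip x z hadj
  have := hC.dist_le_of_step E.hc hz hx (hd.trans (by have := E.hM; omega))
  exact ⟨hC.lt hz, by omega⟩

open Classical in
/-- A point is the gate of at most `D` targets of one root. -/
theorem gate_count (r : X) (z : V) (W : Finset (Tgt X))
    (hW : ∀ e ∈ W, IsCell E.H E.M r e.1 e.2) :
    (W.filter fun e => E.Gate e.2 z).card ≤ E.D := by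
  set d := E.H.dist r (E.pos z)
  calc (W.filter fun e => E.Gate e.2 z).card ≤ (Ico (d - E.M - E.D) (d - E.M)).card := by
        refine card_le_card_of_injOn Prod.fst (fun e he => ?_) fun e he e' he' heq => ?_
        · obtain ⟨heW, hg⟩ := mem_filter.1 he
          obtain ⟨h1, h2⟩ := E.gate_dist (hW e heW) hg
          exact mem_Ico.2 ⟨by omega, by omega⟩
        · obtain ⟨heW, hg⟩ := mem_filter.1 he
          obtain ⟨heW', hg'⟩ := mem_filter.1 he'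
          refine Prod.ext heq ?_
          have h := hW e' heW'
          rw [← heq] at h
          exact (hW e heW).eq_of_mem h hg.1 hg'.1
    _ ≤ E.D := by rw [Nat.card_Ico]; omega

/-! ### Walks -/

theorem exists_map_walk (γ : Γ) {a c : V} (w : E.G.Walk a c) :
    ∃ w' : E.G.Walk (E.Φ γ a) (E.Φ γ c), w'.length = w.length ∧
      ∀ v ∈ w'.support, ∃ u ∈ w.support, E.Φ γ u = v := by
  refine ⟨w.map (E.Φ γ).toHom, SimpleGraph.Walk.length_map _ _, fun v hv => ?_⟩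
  have hv2 := (congrArg (v ∈ ·) (SimpleGraph.Walk.support_map _ w)).mp hv
  exact List.mem_map.1 hv2

theorem joined_tr (γ : Γ) {ψ : Γ} {ℓ : ℕ} {z : V} (h : E.Joined ψ ℓ z) :
    E.Joined (γ * ψ) ℓ (E.Φ γ z) := by
  obtain ⟨w, hw, hs⟩ := h
  obtain ⟨w', hw', hs'⟩ := E.exists_map_walk γ w
  refine ⟨w'.copy rfl (E.Φ_mul γ ψ E.a₁).symm,
    (SimpleGraph.Walk.length_copy _ _ _).trans_le (hw'.trans_le hw), fun v hv => ?_⟩
  rw [SimpleGraph.Walk.support_copy] at hv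
  obtain ⟨u, hu, rfl⟩ := hs' v hv
  intro hmem
  rw [E.pos_eq] at hmem
  exact hs u hu ((E.mem_B_act γ ψ E.k₀ _).1 hmem)

/-- The backward frame of a vertex. -/
theorem joined_τ (v : V) (i : Fin 3) : E.Joined (E.sec v * E.τ i) E.blk v := by
  have h := E.joined_tr (E.sec v) (z := E.rep (E.typ v)) (E.τ_path i (E.typ v))
  rwa [E.sec_spec] at h

/-- The larger shadow of a backward frame lies in its direction. -/
theorem B₁_frame (v : V) (i : Fin 3) : E.B E.k₁ (E.sec v * E.τ i) ⊆ E.Uat v i := by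
  intro q hq
  rw [E.mem_B_iff, mul_inv_rev, E.act_mul] at hq
  rw [Uat, E.mem_act_image]
  have h := E.τ_maps i _ hq
  rwa [E.act_act_inv] at h

theorem dist_walk {x y : V} (w : E.G.Walk x y) :
    E.H.dist (E.pos x) (E.pos y) ≤ E.D * w.length := by
  induction w with
  | nil => simp
  | @cons u v _ h w ih =>
    refine (E.hc.dist_triangle (v := E.pos v)).trans ?_
    rw [SimpleGraph.Walk.length_cons, mul_add, mul_one, add_comm]
    exact add_le_add ih (E.lip _ _ h)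

theorem joined_dist {ψ : Γ} {ℓ : ℕ} {z : V} (h : E.Joined ψ ℓ z) :
    E.H.dist (E.pos z) (E.act ψ E.t₀) ≤ E.D * ℓ := by
  obtain ⟨w, hw, -⟩ := h
  rw [← E.pos_anchor]
  exact (E.dist_walk w).trans (Nat.mul_le_mul_left _ hw)

variable [DecidableEq V]

/-! ### Balls -/

theorem mem_walkBall {n : ℕ} {a y : V} :
    y ∈ walkBall E.nb n a ↔ ∃ w : E.G.Walk a y, w.length = n := by
  induction n generalizing y with
  | zero =>
    simp only [walkBall, mem_singleton]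
    exact ⟨fun h => h ▸ ⟨.nil, rfl⟩,
      fun ⟨w, hw⟩ => (SimpleGraph.Walk.eq_of_length_eq_zero hw).symm⟩
  | succ n ih =>
    simp only [walkBall, mem_image, mem_product, mem_univ, and_true]
    constructor
    · rintro ⟨⟨u, j⟩, hu, rfl⟩
      obtain ⟨w, hw⟩ := ih.1 hu
      exact ⟨w.concat (E.hl.adj_nb u j), by rw [SimpleGraph.Walk.length_concat, hw]⟩
    · rintro ⟨w, hw⟩
      cases h : w.reverse with
      | nil =>
        have h2 := congrArg SimpleGraph.Walk.length h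
        rw [SimpleGraph.Walk.length_reverse, SimpleGraph.Walk.length_nil] at h2
        omega
      | @cons _ u _ hadj w' =>
        obtain ⟨j, hj⟩ := (E.hl.adj u y).1 hadj.symm
        have h2 := congrArg SimpleGraph.Walk.length h
        rw [SimpleGraph.Walk.length_reverse, SimpleGraph.Walk.length_cons] at h2
        exact ⟨(u, j), ih.2 ⟨w'.reverse, by rw [SimpleGraph.Walk.length_reverse]; omega⟩, hj⟩

theorem mem_ball {n : ℕ} {a y : V} :
    y ∈ E.ball a n ↔ ∃ w : E.G.Walk a y, w.length ≤ n := by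
  simp only [ball, wball, mem_biUnion, mem_range, E.mem_walkBall]
  exact ⟨fun ⟨r, hr, w, hw⟩ => ⟨w, by omega⟩, fun ⟨w, hw⟩ => ⟨w.length, by omega, w, rfl⟩⟩

theorem self_mem_ball (a : V) (n : ℕ) : a ∈ E.ball a n :=
  E.mem_ball.2 ⟨.nil, Nat.zero_le n⟩

theorem covers_ball (n : ℕ) : Covers E.G (fun x => E.ball x n) n := fun _ _ w hw v hv =>
  E.mem_ball.2 ⟨w.takeUntil v hv, (w.length_takeUntil_le_length hv).trans hw⟩

theorem ball_subset {a z : V} {K K' n : ℕ} (hz : z ∈ E.ball a K) (hn : K + K' ≤ n) :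
    E.ball z K' ⊆ E.ball a n := fun y hy => by
  obtain ⟨w, hw⟩ := E.mem_ball.1 hz
  obtain ⟨w', hw'⟩ := E.mem_ball.1 hy
  exact E.mem_ball.2 ⟨w.append w', by rw [SimpleGraph.Walk.length_append]; omega⟩

theorem ball_mono (a : V) {n n' : ℕ} (h : n ≤ n') : E.ball a n ⊆ E.ball a n' :=
  E.ball_subset (E.self_mem_ball a 0) (by omega)

theorem dist_ball {a y : V} {n : ℕ} (h : y ∈ E.ball a n) :
    E.H.dist (E.pos a) (E.pos y) ≤ E.D * n := by
  obtain ⟨w, hw⟩ := E.mem_ball.1 h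
  exact (E.dist_walk w).trans (Nat.mul_le_mul_left _ hw)

theorem image_ball (γ : Γ) (a : V) (n : ℕ) :
    (E.ball a n).image (E.Φ γ) = E.ball (E.Φ γ a) n := by
  have key : ∀ γ a y, y ∈ E.ball a n → E.Φ γ y ∈ E.ball (E.Φ γ a) n := fun γ a y hy => by
    obtain ⟨w, hw⟩ := E.mem_ball.1 hy
    obtain ⟨w', hw', -⟩ := E.exists_map_walk γ w
    exact E.mem_ball.2 ⟨w', hw'.trans_le hw⟩
  ext y
  rw [mem_image]
  refine ⟨fun ⟨z, hz, e⟩ => e ▸ key γ a z hz, fun h => ⟨E.Φ γ⁻¹ y, ?_, ?_⟩⟩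
  · have h2 := key γ⁻¹ _ _ h
    rwa [E.Φ_inv] at h2
  · rw [← E.Φ_mul, mul_inv_cancel, map_one]; rfl

theorem mem_om {ρ : ℕ} {v : V} :
    v ∈ E.om ρ ↔ v ∈ E.ball E.a₁ ρ ∧ E.pos v ∉ E.B E.k₀ 1 := by
  simp only [om, mem_filter]

theorem mem_chain0 {o : O} {i : Fin 3} {n : ℕ} {v : V} :
    v ∈ E.chain0 o i n ↔ v ∈ E.ball (E.rep o) n ∧
      ∃ q, (q = E.t₀ ∨ q ∈ E.U i) ∧ E.H.dist q (E.pos v) ≤ E.R₀ := by
  simp only [chain0, mem_filter]

theorem a₁_mem_om (ρ : ℕ) : E.a₁ ∈ E.om ρ :=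
  E.mem_om.2 ⟨E.self_mem_ball _ ρ, E.t₀_notMem E.k₀⟩

theorem om_mono {ρ ρ' : ℕ} (h : ρ ≤ ρ') : E.om ρ ⊆ E.om ρ' := by
  classical
  exact filter_subset_filter _ (E.ball_mono _ h)

/-! ### Short connections -/

variable {p : ℝ}

theorem tau_nonneg (h0 : 0 ≤ p) (h1 : p ≤ 1) (K : ℕ) (a y : V) : 0 ≤ E.tau p K a y :=
  tauW_nonneg _ h0 h1 _ _ _

theorem tau_le_one (h0 : 0 ≤ p) (h1 : p ≤ 1) (K : ℕ) (a y : V) : E.tau p K a y ≤ 1 :=
  tauW_le_one _ h0 h1 _ _ _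

theorem tau_self (p : ℝ) (K : ℕ) (a : V) : E.tau p K a a = 1 := tauW_self _ p a K

theorem tauW_le_tau (h0 : 0 ≤ p) (h1 : p ≤ 1) (S : Finset V) (K : ℕ) (a y : V) :
    tauW E.nb S p a y K ≤ E.tau p K a y :=
  tauW_le_window E.hl (E.covers_ball K) S h0 h1 a y

theorem tau_eq_zero {K : ℕ} {a y : V} (h : y ∉ E.ball a K) : E.tau p K a y = 0 :=
  tauW_eq_zero E.hl (E.covers_ball K) _ p fun hc => h hc.1

theorem tau_comm (h0 : 0 ≤ p) (h1 : p ≤ 1) (K : ℕ) (a y : V) :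
    E.tau p K a y = E.tau p K y a := by
  refine le_antisymm ?_ ?_
  · rw [tau, tauW_comm]
    exact E.tauW_le_tau h0 h1 _ K y a
  · rw [tau, tauW_comm]
    exact E.tauW_le_tau h0 h1 _ K a y

theorem tau_tr (p : ℝ) (K : ℕ) (γ : Γ) (a y : V) :
    E.tau p K (E.Φ γ a) (E.Φ γ y) = E.tau p K a y := by
  rw [tau, tau, ← E.image_ball]
  exact tauW_map E.hl (E.Φ γ) _ p a y K

theorem tau_mono (h0 : 0 ≤ p) (h1 : p ≤ 1) {K K' : ℕ} (h : K ≤ K') (a y : V) :
    E.tau p K a y ≤ E.tau p K' a y :=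
  tauW_mono E.hl (E.ball_mono a h) h h0 h1 a y

open Classical in
/-- A sum of short connections from `a` is a sum from the representative of its orbit. -/
theorem sum_tau_rep (h0 : 0 ≤ p) (h1 : p ≤ 1) (K : ℕ) (a : V) (F : Finset V) (P : X → Prop)
    (hP : ∀ y ∈ F, P (E.pos y)) :
    ∑ y ∈ F, E.tau p K a y ≤
      ∑ y ∈ (E.ball (E.rep (E.typ a)) K).filter (fun y => P (E.act (E.sec a) (E.pos y))),
        E.tau p K (E.rep (E.typ a)) y := by
  set γ := E.sec a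
  have e : E.Φ γ (E.rep (E.typ a)) = a := E.sec_spec a
  calc ∑ y ∈ F, E.tau p K a y
      = ∑ y ∈ F.filter (fun y => y ∈ E.ball a K), E.tau p K a y :=
        (sum_filter_of_ne fun y _ hne => by_contra fun h => hne (E.tau_eq_zero h)).symm
    _ ≤ ∑ y ∈ ((E.ball (E.rep (E.typ a)) K).filter
          fun y => P (E.act γ (E.pos y))).image (E.Φ γ), E.tau p K a y := by
        refine sum_le_sum_of_subset_of_nonneg (fun y hy => ?_)
          fun y _ _ => E.tau_nonneg h0 h1 K a y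
        obtain ⟨hy1, hy2⟩ := mem_filter.1 hy
        rw [← e, ← E.image_ball] at hy2
        obtain ⟨u, hu, rfl⟩ := mem_image.1 hy2
        refine mem_image.2 ⟨u, mem_filter.2 ⟨hu, ?_⟩, rfl⟩
        have h3 := hP _ hy1
        rwa [E.pos_eq] at h3
    _ = _ := by
        rw [sum_image fun x _ y _ h => (E.Φ γ).injective h]
        refine sum_congr rfl fun y _ => ?_
        conv_lhs => rw [← e]
        exact E.tau_tr p K γ _ _

theorem shell_nonneg (h0 : 0 ≤ p) (h1 : p ≤ 1) (K : ℕ) (o : O) (j : ℕ) : 0 ≤ E.shell p K o j :=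
  sum_nonneg fun _ _ => E.tau_nonneg h0 h1 _ _ _

variable [Fintype O]

theorem shell_le_own (h0 : 0 ≤ p) (h1 : p ≤ 1) (K : ℕ) (o : O) (j : ℕ) :
    E.shell p K o j ≤ E.own p K := by
  classical
  have key : ∀ q ∈ (univ : Finset O) ×ˢ range (E.D * K + 1), E.shell p K q.1 q.2 ≤ E.own p K := by
    intro q hq
    unfold own
    exact Finset.le_sup' (f := fun q : O × ℕ => E.shell p K q.1 q.2) hq
  by_cases hj : j ≤ E.D * K
  · exact key (o, j) (mem_product.2 ⟨mem_univ o, mem_range.2 (Nat.lt_succ_of_le hj)⟩)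
  · refine le_trans (le_of_eq ?_) ((E.shell_nonneg h0 h1 K E.o₁ 0).trans
      (key (E.o₁, 0) (mem_product.2 ⟨mem_univ E.o₁, mem_range.2 (Nat.succ_pos _)⟩)))
    unfold shell
    refine sum_eq_zero fun y hy => absurd ?_ hj
    obtain ⟨h2, h3⟩ := mem_filter.1 hy
    exact h3 ▸ E.dist_ball h2

theorem own_nonneg (h0 : 0 ≤ p) (h1 : p ≤ 1) (K : ℕ) : 0 ≤ E.own p K :=
  (E.shell_nonneg h0 h1 K E.o₁ 0).trans (E.shell_le_own h0 h1 K E.o₁ 0)

/-- The points at one distance from any start are bounded by `own`. -/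
theorem sum_shell_le (h0 : 0 ≤ p) (h1 : p ≤ 1) (K : ℕ) (a : V) (F : Finset V) (j : ℕ)
    (hF : ∀ y ∈ F, E.H.dist (E.pos a) (E.pos y) = j) : ∑ y ∈ F, E.tau p K a y ≤ E.own p K := by
  classical
  have h := E.sum_tau_rep h0 h1 K a F (fun q => E.H.dist (E.pos a) q = j) hF
  refine h.trans ((le_of_eq ?_).trans (E.shell_le_own h0 h1 K (E.typ a) j))
  refine sum_congr (Finset.ext fun y => ?_) fun _ _ => rfl
  have e : E.pos a = E.act (E.sec a) (E.pos (E.rep (E.typ a))) := by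
    rw [← E.pos_eq, E.sec_spec]
  simp only [mem_filter]
  rw [e, E.dist_act]

/-- The points within distance `J` of any start. -/
theorem sum_near_le (h0 : 0 ≤ p) (h1 : p ≤ 1) (K : ℕ) (a : V) (F : Finset V) (J : ℕ)
    (hF : ∀ y ∈ F, E.H.dist (E.pos a) (E.pos y) ≤ J) :
    ∑ y ∈ F, E.tau p K a y ≤ ((J : ℝ) + 1) * E.own p K := by
  classical
  rw [← sum_fiberwise_of_maps_to (g := fun y => E.H.dist (E.pos a) (E.pos y))
    (t := range (J + 1)) fun y hy => mem_range.2 (Nat.lt_succ_of_le (hF y hy))]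
  refine (sum_le_card_nsmul _ _ _ fun j _ => E.sum_shell_le h0 h1 K a _ j fun y hy =>
    (mem_filter.1 hy).2).trans (le_of_eq ?_)
  rw [card_range, nsmul_eq_mul, Nat.cast_succ]

theorem sum_tau_le_vol (h0 : 0 ≤ p) (h1 : p ≤ 1) (F : Finset V) (K : ℕ) (a : V) :
    ∑ y ∈ F, E.tau p K a y ≤ E.vol p K := by
  classical
  have h := E.sum_tau_rep h0 h1 K a F (fun _ => True) fun _ _ => trivial
  simp only [filter_true] at h
  exact h.trans (single_le_sum (f := fun o => ∑ y ∈ E.ball (E.rep o) K, E.tau p K (E.rep o) y)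
    (fun o _ => sum_nonneg fun y _ => E.tau_nonneg h0 h1 K _ y) (mem_univ _))

theorem one_le_vol (h0 : 0 ≤ p) (h1 : p ≤ 1) (K : ℕ) : 1 ≤ E.vol p K := by
  refine le_trans ?_ (E.sum_tau_le_vol h0 h1 {E.a₁} K E.a₁)
  rw [sum_singleton, E.tau_self]

theorem vol_nonneg (h0 : 0 ≤ p) (h1 : p ≤ 1) (K : ℕ) : 0 ≤ E.vol p K :=
  zero_le_one.trans (E.one_le_vol h0 h1 K)

theorem one_le_own (h0 : 0 ≤ p) (h1 : p ≤ 1) (K : ℕ) : 1 ≤ E.own p K := by
  refine le_trans ?_ (E.sum_shell_le h0 h1 K E.a₁ {E.a₁} 0 fun y hy => ?_)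
  · rw [sum_singleton, E.tau_self]
  · rw [mem_singleton.1 hy, SimpleGraph.dist_self]

/-- The volume through the shells. -/
theorem vol_le_own (h0 : 0 ≤ p) (h1 : p ≤ 1) (K : ℕ) :
    E.vol p K ≤ (Fintype.card O : ℝ) * (((E.D * K : ℕ) : ℝ) + 1) * E.own p K := by
  refine (sum_le_card_nsmul _ _ ((((E.D * K : ℕ) : ℝ) + 1) * E.own p K) fun o _ =>
    E.sum_near_le h0 h1 K _ _ _ fun y hy => E.dist_ball hy).trans (le_of_eq ?_)
  rw [nsmul_eq_mul, card_univ, mul_assoc]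

end Vale.Agent.P165.QT.Env
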