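import Vale.Agent.P165.QT.Join
import Vale.Agent.P165.QT.Threshold
import Vale.Agent.P165.FQ.Data

/-!
# The bound on disjoint cells, its exponent, and the short volume

Below the last subcritical parameter the sums of `Psi` are bounded, so joining makes the bound hold
there and, by continuity, at that parameter. It fails for small exponents.
-/

namespace Vale.Agent.P165.QT.Env

open Finset FF Filter Topology
open Vale.Agent.P165.FP (hit hit_nonneg hit_le_one hit_mono hit_continuous hit_self hit_move)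

variable {Γ O ι V X : Type} [Group Γ] [Fintype ι] (E : Env Γ O ι V X) {p : ℝ}

theorem c₁_pos (hp : 0 < p) : 0 < E.c₁ p := div_pos (pow_pos hp _) two_pos

theorem c₁_nonneg (hp : 0 ≤ p) : 0 ≤ E.c₁ p := div_nonneg (pow_nonneg hp _) two_pos.le

theorem c₁_le_half (h0 : 0 ≤ p) (h1 : p ≤ 1) : E.c₁ p ≤ 1 / 2 :=
  div_le_div_of_nonneg_right (pow_le_one₀ h0 h1) two_pos.le

theorem c₁_le_one (h0 : 0 ≤ p) (h1 : p ≤ 1) : E.c₁ p ≤ 1 :=
  (E.c₁_le_half h0 h1).trans (by norm_num)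

theorem c₁_le_pow (h0 : 0 ≤ p) : E.c₁ p ≤ p ^ (2 * E.blk) :=
  div_le_self (pow_nonneg h0 _) one_le_two

theorem continuous_c₁ : Continuous fun p : ℝ => E.c₁ p := (continuous_pow _).div_const _

/-- The three target cells. -/
def tgtU (i : Fin 3) : Tgt X := (E.nU i, E.U i)

theorem strict_tgtU (i : Fin 3) : E.Strict (E.tgtU i) := ⟨E.isCell_U i, E.U_b₂ i⟩

theorem σ_mem_U (i : Fin 3) : E.act (E.σ i) E.t₀ ∈ E.U i := E.σ_maps i _ (E.t₀_notMem _)

theorem tgtU_injective : Function.Injective E.tgtU := by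
  intro i j h
  by_contra hne
  have h2 : E.U i = E.U j := congrArg Prod.snd h
  exact Set.disjoint_left.1 (E.U_apart i j hne) (E.σ_mem_U i) (h2 ▸ E.σ_mem_U i)

variable [DecidableEq V]

theorem psi_nonneg (ρ : ℕ) (h0 : 0 ≤ p) (h1 : p ≤ 1) (e : Tgt X) : 0 ≤ E.Psi ρ p e :=
  hit_nonneg _ h0 h1 _ _

theorem psi_le_one (ρ : ℕ) (h0 : 0 ≤ p) (h1 : p ≤ 1) (e : Tgt X) : E.Psi ρ p e ≤ 1 :=
  hit_le_one _ h0 h1 _ _

theorem psi_mono {ρ ρ' : ℕ} (h : ρ ≤ ρ') (h0 : 0 ≤ p) (h1 : p ≤ 1) (e : Tgt X) :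
    E.Psi ρ p e ≤ E.Psi ρ' p e :=
  hit_mono E.hl (E.om_mono h) Set.Subset.rfl h0 h1 _

theorem psiN_mono {ρ ρ' n n' : ℕ} (h : ρ ≤ ρ') (hn : n ≤ n') (h0 : 0 ≤ p) (h1 : p ≤ 1)
    (e : Tgt X) : E.PsiN ρ n p e ≤ E.PsiN ρ' n' p e :=
  FQ.hitN_mono E.hl (E.om_mono h) Set.Subset.rfl hn h0 h1 _

theorem psiN_le_psi (ρ n : ℕ) (h0 : 0 ≤ p) (h1 : p ≤ 1) (e : Tgt X) :
    E.PsiN ρ n p e ≤ E.Psi ρ p e :=
  FQ.hitN_le_hit _ _ h0 h1 _ _ _

theorem psi_le_psiN (ρ : ℕ) (h0 : 0 ≤ p) (h1 : p ≤ 1) (e : Tgt X) :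
    E.Psi ρ p e ≤ E.PsiN ρ (inE E.nb (E.om ρ)).card p e :=
  avg_mono _ h0 h1 fun η hη => ind_mono fun ⟨t, ht, hc⟩ => by
    obtain ⟨w, hw⟩ := FQ.exists_walk_le hc
    exact ⟨t, ht, w, hw.trans (card_le_card hη)⟩

theorem continuous_psi (ρ : ℕ) (e : Tgt X) : Continuous fun p : ℝ => E.Psi ρ p e :=
  hit_continuous _ _ _

/-- A target with a positive chance is not empty. -/
theorem nonempty_of_psi_pos {ρ : ℕ} (h0 : 0 ≤ p) (h1 : p ≤ 1) {e : Tgt X} (h : 0 < E.Psi ρ p e) :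
    e.2.Nonempty := by
  by_contra hne
  refine absurd h (not_lt.2 ((avg_mono (g := fun _ => (0 : ℝ)) _ h0 h1 fun η _ => ?_).trans
    (le_of_eq (by simp [avg]))))
  refine le_of_eq (if_neg ?_)
  rintro ⟨t, ht, -⟩
  exact hne ⟨_, ht⟩

/-- The three targets at `t₀` are reached. -/
theorem psi_U_pos (i : Fin 3) (hp : 0 < p) (h1 : p ≤ 1) : 0 < E.Psi E.blk p (E.tgtU i) := by
  classical
  obtain ⟨w, hw, hsup⟩ := E.σ_path i E.o₁
  have hσ : E.Φ (E.σ i) (E.rep E.o₁) ∈ E.pre (E.U i) := by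
    show E.pos _ ∈ E.U i
    rw [E.pos_eq]
    exact E.σ_mem_U i
  have hS : ∀ v ∈ w.support, v ∈ E.om E.blk := by
    intro v hv
    obtain ⟨q, hq, hd⟩ := hsup v hv
    refine E.mem_om.2 ⟨E.covers_ball _ _ _ w hw v hv, E.margin_at (q := q) ?_ (by omega)⟩
    rcases hq with rfl | hq
    · exact E.t₀_notMem _
    · exact Set.disjoint_left.1 (E.U_b₂ i) hq
  have h := hit_move E.hl (nb := E.nb) hp.le h1 w hS (E.pre (E.U i))
  rw [hit_self _ _ hσ, mul_one] at h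
  exact lt_of_lt_of_le (pow_pos hp _) h

theorem isClosed_bound : IsClosed {p : ℝ | E.Bound p 1} := by
  simp only [Bound, Real.rpow_one, Set.ofPred_forall]
  exact isClosed_iInter fun ρ => isClosed_iInter fun W => isClosed_iInter fun _ =>
    isClosed_iInter fun _ => isClosed_le
      (E.continuous_c₁.mul (continuous_finsetSum _ fun e _ => E.continuous_psi ρ e)) continuous_const

/-- The bound passes to larger exponents. -/
theorem bound_mono (hp : 0 ≤ p) (hp1 : p ≤ 1) {θ θ' : ℝ} (hθ : 0 ≤ θ) (h : θ ≤ θ')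
    (hB : E.Bound p θ) : E.Bound p θ' := by
  intro ρ W hW hs
  have hc := E.c₁_nonneg hp
  refine le_trans (mul_le_mul (Real.rpow_le_rpow_of_exponent_ge' hc (E.c₁_le_one hp hp1) hθ h)
    (sum_le_sum fun v _ => Real.rpow_le_rpow_of_exponent_ge' (E.psi_nonneg ρ hp hp1 v)
      (E.psi_le_one ρ hp hp1 v) hθ h)
    (sum_nonneg fun v _ => Real.rpow_nonneg (E.psi_nonneg ρ hp hp1 v) _) (Real.rpow_nonneg hc _))
    (hB ρ W hW hs)

/-- The bound fails for small exponents. -/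
theorem exists_not_bound (hp : 0 < p) (hp1 : p ≤ 1) : ∃ θ : ℝ, 0 < θ ∧ ¬ E.Bound p θ := by
  classical
  set W : Finset (Tgt X) := (univ : Finset (Fin 3)).image E.tgtU with hW
  have hcard : 2 ≤ W.card := by
    rw [hW, card_image_of_injective _ E.tgtU_injective, card_univ, Fintype.card_fin]
    norm_num
  set f : ℝ → ℝ := fun θ => E.c₁ p ^ θ * ∑ e ∈ W, E.Psi E.blk p e ^ θ
  have hf : Continuous f := (Real.continuous_const_rpow (E.c₁_pos hp).ne').mul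
    (continuous_finsetSum _ fun e he => by
      obtain ⟨i, -, rfl⟩ := mem_image.1 he
      exact Real.continuous_const_rpow (E.psi_U_pos i hp hp1).ne')
  have h0 : 1 < f 0 := by
    simp only [f, Real.rpow_zero, sum_const, nsmul_eq_mul, mul_one, one_mul]
    exact_mod_cast (by omega : 1 < W.card)
  obtain ⟨ε, hε, hb⟩ := Metric.eventually_nhds_iff.1 ((hf.tendsto 0).eventually_const_lt h0)
  refine ⟨ε / 2, half_pos hε, fun hB => not_le.2 (hb (y := ε / 2) ?_)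
    (hB E.blk W ?_ ?_)⟩
  · rw [Real.dist_eq, sub_zero, abs_of_pos (half_pos hε)]; linarith
  · intro e he e' he' hne
    obtain ⟨i, -, rfl⟩ := mem_image.1 (mem_coe.1 he)
    obtain ⟨j, -, rfl⟩ := mem_image.1 (mem_coe.1 he')
    exact E.U_apart i j fun h => hne (h ▸ rfl)
  · intro e he
    obtain ⟨i, -, rfl⟩ := mem_image.1 he
    exact E.strict_tgtU i

/-- Two exponents as close as wanted on either side of the critical one, bounded below. -/
theorem exists_exponents (hp : 0 < p) (hp1 : p ≤ 1) (hB : E.Bound p 1) :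
    ∃ θ₀ : ℝ, 0 < θ₀ ∧ ∀ δ : ℝ, 0 < δ → δ < 1 / 2 → ∃ θ θ' : ℝ, θ₀ ≤ θ ∧ θ ≤ θ' ∧ θ' ≤ 1 ∧
      θ' * (1 - δ) ≤ θ ∧ E.Bound p θ' ∧ ¬ E.Bound p θ := by
  obtain ⟨θ₁, hθ₁, hn₁⟩ := E.exists_not_bound hp hp1
  set A := {θ : ℝ | 0 < θ ∧ E.Bound p θ}
  have hA : (1 : ℝ) ∈ A := ⟨one_pos, hB⟩
  have hlow : θ₁ ≤ sInf A := le_csInf ⟨1, hA⟩ fun θ hθ => by
    by_contra hc
    exact hn₁ (E.bound_mono hp.le hp1 hθ.1.le (not_le.1 hc).le hθ.2)
  set s := sInf A
  have hs : 0 < s := hθ₁.trans_le hlow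
  have hs1 : s ≤ 1 := csInf_le ⟨0, fun θ hθ => hθ.1.le⟩ hA
  refine ⟨s / 2, half_pos hs, fun δ hδ hδ1 => ⟨s * (1 - δ / 2), min 1 (s * (1 + δ / 2)),
    by nlinarith, le_min (by nlinarith) (by nlinarith), min_le_left _ _, ?_, ?_, fun h => ?_⟩⟩
  · refine le_trans (mul_le_mul_of_nonneg_right (min_le_right _ _) (by linarith)) ?_
    nlinarith [mul_pos hs (mul_pos hδ hδ)]
  · rcases le_total 1 (s * (1 + δ / 2)) with h | h
    · rw [min_eq_left h]; exact hB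
    · rw [min_eq_right h]
      obtain ⟨θ, hθA, hlt⟩ := exists_lt_of_csInf_lt ⟨1, hA⟩ (show s < s * (1 + δ / 2) by nlinarith)
      exact E.bound_mono hp.le hp1 hθA.1.le hlt.le hθA.2
  · have hθ : 0 < s * (1 - δ / 2) := mul_pos hs (by linarith)
    have := csInf_le ⟨0, fun θ (hθ : θ ∈ A) => hθ.1.le⟩
      (show s * (1 - δ / 2) ∈ A from ⟨hθ, h⟩)
    change s ≤ _ at this
    nlinarith

omit [DecidableEq V] in
/-- Targets below those of a disjoint family. -/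
theorem disjoint_of_below {W : Finset (Tgt X)} (hW : Apart W) {S : Tgt X → Finset (Tgt X)}
    (hS : ∀ v ∈ W, ∀ e ∈ S v, E.Strict e ∧ e.2 ⊆ v.2 ∧ e.2.Nonempty) :
    (W : Set (Tgt X)).PairwiseDisjoint S := fun v hv v' hv' hne =>
  disjoint_left.2 fun e he he' => by
    obtain ⟨-, h1, q, hq⟩ := hS v hv e he
    exact Set.disjoint_left.1 (hW hv hv' hne) (h1 hq) ((hS v' hv' e he').2.1 hq)

theorem joinSum (h0 : 0 ≤ p) (h1 : p ≤ 1) : E.JoinSum p := by
  classical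
  intro ρ ρ' W W' hW hs hs'
  choose! S hS hSmin using fun v (hv : v ∈ W) =>
    E.exists_step h0 h1 ρ ρ' (inE E.nb (E.om ρ')).card (hs v hv) W' hs'
  refine ⟨ρ + E.blk + (ρ' + E.blk), W.biUnion S, fun e he => ?_, ?_⟩
  · obtain ⟨v, hv, he⟩ := mem_biUnion.1 he
    exact (hS v hv e he).1
  rw [sum_biUnion (E.disjoint_of_below hW hS), mul_assoc, sum_mul, mul_sum]
  refine sum_le_sum fun v hv => ?_
  refine le_trans ?_ ((hSmin v hv 1 zero_le_one).trans (sum_le_sum fun e _ =>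
    (min_le_left _ _).trans (E.psiN_le_psi _ _ h0 h1 e)))
  rw [mul_sum, mul_sum]
  refine sum_le_sum fun w _ => ?_
  have hw : E.PsiN ρ' (inE E.nb (E.om ρ')).card p w ≤ 1 :=
    (E.psiN_le_psi _ _ h0 h1 w).trans (E.psi_le_one _ h0 h1 w)
  rw [min_eq_left (mul_le_one₀ (mul_le_one₀ (pow_le_one₀ h0 h1) (E.psi_nonneg _ h0 h1 v)
    (E.psi_le_one _ h0 h1 v)) (E.psiN_nonneg _ _ h0 h1 w) hw), ← mul_assoc]
  exact mul_le_mul (mul_le_mul_of_nonneg_right (E.c₁_le_pow h0) (E.psi_nonneg _ h0 h1 v))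
    (E.psi_le_psiN _ h0 h1 w) (E.psi_nonneg _ h0 h1 w)
    (mul_nonneg (pow_nonneg h0 _) (E.psi_nonneg _ h0 h1 v))

variable [Fintype O]

theorem cover_rep (v : V) : ∃ g, E.Φ g v ∈ (univ : Finset O).image E.rep :=
  ⟨(E.sec v)⁻¹, mem_image.2 ⟨E.typ v, mem_univ _, by
    have h := congrArg (E.Φ (E.sec v)⁻¹) (E.sec_spec v)
    rwa [E.Φ_inv] at h⟩⟩

open Classical in
/-- With finite susceptibility the sums of `Psi` are bounded, however much the targets overlap. -/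
theorem exists_sum_psi_le (h0 : 0 ≤ p) (h1 : p ≤ 1) (hw : Witness E.nb p) :
    ∃ B : ℝ, ∀ (ρ : ℕ) (W : Finset (Tgt X)), (∀ e ∈ W, E.Strict e) →
      ∑ e ∈ W, E.Psi ρ p e ≤ B := by
  obtain ⟨S, hS⟩ := susceptibility E.hl E.Φ _ E.cover_rep h0 h1 hw
  refine ⟨(E.D : ℝ) * S, fun ρ W hs => ?_⟩
  set τ : V → ℝ := fun y => tauIn E.nb (E.om ρ) p E.a₁ y
  have hτ : ∀ y, 0 ≤ τ y := fun y => FF.tauIn_nonneg (nb := E.nb) (E.om ρ) h0 h1 _ y
  have hgate : ∀ e ∈ W, E.Psi ρ p e ≤ ∑ y ∈ (E.om ρ).filter (E.Gate e.2), τ y := by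
    intro e he
    simp only [τ, FF.tauIn_eq, ← avg_sum, Psi, hit]
    refine avg_mono _ h0 h1 fun η hη => ?_
    by_cases hh : FXZ.Hit (E.pre e.2) E.a₁ η
    swap
    · exact le_trans (le_of_eq (if_neg hh)) (sum_nonneg fun _ _ => ind_nonneg _)
    obtain ⟨t, ht, ⟨π⟩⟩ := hh
    rcases exit_split (E.pre e.2)ᶜ π (E.not_mem_pre_anchor (hs e he)) with
      hin | ⟨a, b, w1, hab, w2, ha, hb, -, hed, -⟩
    · exact absurd ht (hin t π.end_mem_support)
    have hbη : s(a, b) ∈ η := by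
      have := π.edges_subset_edgeSet (show s(a, b) ∈ π.edges by simp [hed])
      rw [SimpleGraph.edgeSet_fromEdgeSet] at this
      exact this.1
    obtain ⟨hG, hb'⟩ := (inE_iff E.hl).1 (hη hbη)
    have hz : b ∈ (E.om ρ).filter (E.Gate e.2) :=
      mem_filter.2 ⟨hb' b (Sym2.mem_mk_right a b), by simpa [pre] using hb, a, hG,
        by simpa [pre] using ha⟩
    refine le_trans (ind_le_one _) (le_trans ?_ (single_le_sum
      (f := fun y => ind (cl η E.a₁ y)) (fun _ _ => ind_nonneg _) hz))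
    exact le_of_eq (if_pos (w1.reachable.trans hab.reachable : cl η _ b)).symm
  refine (sum_le_sum hgate).trans ?_
  rw [sum_comm' (t' := E.om ρ) (s' := fun y => W.filter fun e => E.Gate e.2 y)
    (fun e y => ⟨fun h => ⟨mem_filter.2 ⟨h.1, (mem_filter.1 h.2).2⟩, (mem_filter.1 h.2).1⟩,
      fun h => ⟨(mem_filter.1 h.1).1, mem_filter.2 ⟨h.2, (mem_filter.1 h.1).2⟩⟩⟩)]
  refine (sum_le_sum (g := fun y => (E.D : ℝ) * τ y) fun y _ => ?_).trans ?_
  · rw [sum_const, nsmul_eq_mul]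
    exact mul_le_mul_of_nonneg_right
      (Nat.cast_le.2 (E.gate_count E.t₀ y W fun e he => (hs e he).1)) (hτ y)
  · rw [← mul_sum]
    exact mul_le_mul_of_nonneg_left (hS _ _ _) (Nat.cast_nonneg _)

omit [Fintype O] in
/-- Below the last parameter the bound holds, since joining would make the sums unbounded. -/
theorem bound_of_sum_le (hp : 0 < p) (hjoin : E.JoinSum p) {B : ℝ}
    (hB : ∀ (ρ : ℕ) (W : Finset (Tgt X)), (∀ e ∈ W, E.Strict e) → ∑ e ∈ W, E.Psi ρ p e ≤ B) :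
    E.Bound p 1 := by
  intro ρ W hW hs
  simp only [Real.rpow_one]
  by_contra hlt
  push Not at hlt
  set g : ℝ := E.c₁ p * ∑ e ∈ W, E.Psi ρ p e
  have hpow : ∀ n : ℕ, ∃ (ρ' : ℕ) (W' : Finset (Tgt X)), (∀ e ∈ W', E.Strict e) ∧
      g ^ (n + 1) ≤ E.c₁ p * ∑ e ∈ W', E.Psi ρ' p e := by
    intro n
    induction n with
    | zero => exact ⟨ρ, W, hs, le_of_eq (pow_one _)⟩
    | succ n ih =>
      obtain ⟨ρ', W', hs', hle⟩ := ih
      obtain ⟨ρ'', W'', hs'', hj⟩ := hjoin ρ ρ' W W' hW hs hs'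
      refine ⟨ρ'', W'', hs'', ?_⟩
      rw [pow_succ']
      refine (mul_le_mul_of_nonneg_left hle (by linarith)).trans
        (le_of_eq_of_le ?_ (mul_le_mul_of_nonneg_left hj (E.c₁_nonneg hp.le)))
      simp only [g]
      ring
  obtain ⟨n, hn⟩ := eventually_atTop.1
    ((tendsto_pow_atTop_atTop_of_one_lt hlt).eventually (eventually_gt_atTop (E.c₁ p * B)))
  obtain ⟨ρ', W', hs', hle⟩ := hpow n
  have h2 := hn (n + 1) (Nat.le_succ n)
  have h3 := mul_le_mul_of_nonneg_left (hB ρ' W' hs') (E.c₁_nonneg hp.le)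
  linarith

/-- The bound at the last subcritical parameter. -/
theorem bound_of_sub {ps : ℝ} (hs : Sub E.nb ps) : E.Bound ps 1 := by
  obtain ⟨h0, h1, hw⟩ := hs
  have hmem : ps ∈ closure (Set.Ioo 0 ps) := by
    rw [closure_Ioo h0.ne]; exact Set.right_mem_Icc.2 h0.le
  refine closure_minimal (fun p hp => ?_) E.isClosed_bound hmem
  obtain ⟨B, hB⟩ := E.exists_sum_psi_le hp.1.le (hp.2.le.trans h1) (hw p hp.1.le hp.2)
  exact E.bound_of_sum_le hp.1 (E.joinSum hp.1.le (hp.2.le.trans h1)) hB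

/-- The volume of short connections is subexponential at the last subcritical parameter. -/
theorem vol_subexp {ps : ℝ} (hs : Sub E.nb ps) {η : ℝ} (hη : 0 < η) :
    ∃ K : ℝ, ∀ n : ℕ, E.vol ps n ≤ K * Real.exp (η * n) := by
  obtain ⟨h0, h1, hw⟩ := hs
  set q := Real.exp (-η)
  have hq : 0 < q := Real.exp_pos _
  have hq1 : q < 1 := Real.exp_lt_one_iff.2 (by linarith)
  have hpq : ps * q < ps := by nlinarith
  have hpq0 : 0 ≤ ps * q := by positivity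
  obtain ⟨S, hS⟩ := susceptibility E.hl E.Φ _ E.cover_rep hpq0 (hpq.le.trans h1) (hw _ hpq0 hpq)
  refine ⟨(Fintype.card O : ℝ) * S, fun n => ?_⟩
  have h2 : q ^ n * E.vol ps n ≤ (Fintype.card O : ℝ) * S := by
    calc q ^ n * E.vol ps n
        = ∑ o : O, ∑ y ∈ E.ball (E.rep o) n, q ^ n * E.tau ps n (E.rep o) y := by
          simp only [vol, mul_sum]
      _ ≤ ∑ _o : O, S := sum_le_sum fun o _ => le_trans (sum_le_sum fun y _ =>
            (FQ.thin_tauW _ h0.le h1 hq.le hq1.le _ y n).trans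
              (FQ.tauW_le_tauIn _ hpq0 (hpq.le.trans h1) _ y n)) (hS _ _ _)
      _ = (Fintype.card O : ℝ) * S := by simp
  have e : Real.exp (η * n) = (q ^ n)⁻¹ := by
    rw [← Real.exp_nat_mul, ← Real.exp_neg]
    congr 1
    ring
  rw [e, ← div_eq_mul_inv, le_div_iff₀ (pow_pos hq n), mul_comm]
  exact h2

/-- The short balls cost a small power of the level. -/
theorem exists_short {ps : ℝ} (hs : Sub E.nb ps) (C : ℕ) {δ : ℝ} (hδ : 0 < δ) :
    ∃ M : ℝ, 0 ≤ M ∧ ∀ L : ℕ, 1 ≤ L →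
      ((C * (Nat.log 2 L + 1) : ℕ) + 1 : ℝ) * E.vol ps (C * (Nat.log 2 L + 1)) ≤
        M * (L : ℝ) ^ δ :=
  FQ.log_range_le (fun n => E.vol_nonneg hs.1.le hs.2.1 n) (fun _ hη => E.vol_subexp hs hη) C hδ

end Vale.Agent.P165.QT.Env
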