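import Vale.Agent.P165.QT.Basic
import Vale.Agent.P165.QT.Glue
import Vale.Agent.P165.FQ.Chains
import Vale.Agent.P165.FQ.Tail

/-!
# Joining connections to cells

A connection into a cell is pushed deeper at its gate. Seen through a frame that looks away from the
root, the pushed points of distinct cells lie in distinct cells of a deeper level. A family of targets
is so carried into a cell, and its chances, truncated at any level, are kept up to the chance of the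
first connection.
-/

namespace Vale.Agent.P165.QT.Env

open Finset FF
open Vale.Agent.P165.FP (OnBlock)
open Vale.Agent.P165.FQ (hitN HitN exists_walk_le hitN_nonneg hitN_map hitN_mono)

variable {Γ O ι V X : Type} [Group Γ] [Fintype ι] (E : Env Γ O ι V X)

/-- How much deeper a pushed point is. -/
def pushed : ℕ := E.M - 2 * E.Kf

/-- The vertices sent over a set by a translation. -/
def preT (γ : Γ) (A : Set X) : Set V := {v | E.act γ (E.pos v) ∈ A}

/-- The target in which a translated point of a target is counted. -/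
noncomputable def img (γ : Γ) (m : ℕ) (q : X) : Tgt X :=
  (E.H.dist E.t₀ (E.act γ E.t₀) + m + E.shift,
    cellAt E.H E.M E.t₀ (E.H.dist E.t₀ (E.act γ E.t₀) + m + E.shift) (E.act γ q))

theorem deeper_subset (c : ℕ) (e : Tgt X) : E.deeper c e ⊆ e.2 := fun _ h => h.1

/-- A frame avoiding a direction sends the root into the deepest shadow. -/
theorem back_of_avoid {z : V} {i : Fin 3}
    (hi : ∀ q ∈ E.Uat z i, GP E.H (E.base z) q E.t₀ ≤ E.Kf) :
    E.act (E.sec z * E.σ i)⁻¹ E.t₀ ∈ E.B E.k₀ 1 := by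
  by_contra h
  have h1 := E.σ_maps i _ h
  rw [mul_inv_rev, E.act_mul, E.act_act_inv] at h1
  have h2 : E.t₀ ∈ E.Uat z i := (E.mem_act_image _ _ _).2 h1
  have h3 := hi _ h2
  have h4 := (E.isCell_Uat z i).lt h2
  have h5 := gp_add E.hc (E.base z) E.t₀ E.t₀
  rw [E.H.dist_self] at h5
  have := E.hM
  omega

/-- A frame at the anchor looks away from the root. -/
theorem back_σ (i : Fin 3) : E.act (E.σ i)⁻¹ E.t₀ ∈ E.B E.k₀ 1 := by
  by_contra h
  have h1 := E.σ_maps i _ h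
  rw [E.act_act_inv] at h1
  exact (E.isCell_U i).notMem_root h1

/-- The translated pushed point is deep in its target. -/
theorem img_core {γ : Γ} (hb : E.act γ⁻¹ E.t₀ ∈ E.B E.k₀ 1) {w : Tgt X} (hw : E.Strict w) {q : X}
    (hq : q ∈ E.deeper E.pushed w) : E.act γ q ∈ E.core (E.img γ w.1 q) := by
  have hs := E.gp_sep (ψ := 1) (Set.disjoint_left.1 hw.2 hq.1) hb
  rw [E.act_one] at hs
  have h1 := gp_add E.hc E.t₀ q (E.act γ⁻¹ E.t₀)
  have h2 : E.H.dist q (E.act γ⁻¹ E.t₀) = E.H.dist E.t₀ (E.act γ q) := by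
    rw [← E.dist_act γ, E.act_act_inv, SimpleGraph.dist_comm]
  have h3 : E.H.dist E.t₀ (E.act γ⁻¹ E.t₀) = E.H.dist E.t₀ (E.act γ E.t₀) := by
    rw [← E.dist_act γ, E.act_act_inv, SimpleGraph.dist_comm]
  have hM := E.hM
  have hq2 := hq.2
  simp only [pushed] at hq2
  have hlt : E.H.dist E.t₀ (E.act γ E.t₀) + w.1 + E.shift + E.M + (E.Kf + E.shift) <
      E.H.dist E.t₀ (E.act γ q) := by
    simp only [shift]
    omega
  exact ⟨mem_cellAt_self (by omega), hlt⟩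

/-- It is a cell inside every cell that receives all translated points. -/
theorem img_spec {γ : Γ} (hb : E.act γ⁻¹ E.t₀ ∈ E.B E.k₀ 1) {v : Tgt X} (hv : E.Strict v)
    (hin : ∀ r, r ∉ E.B E.k₀ 1 → E.act γ r ∈ v.2) {w : Tgt X} (hw : E.Strict w) {q : X}
    (hq : q ∈ E.deeper E.pushed w) :
    E.Strict (E.img γ w.1 q) ∧ (E.img γ w.1 q).2 ⊆ v.2 ∧ E.act γ q ∈ (E.img γ w.1 q).2 := by
  have hmem : E.act γ q ∈ (E.img γ w.1 q).2 := (E.img_core hb hw hq).1
  have hcell : IsCell E.H E.M E.t₀ (E.img γ w.1 q).1 (E.img γ w.1 q).2 := cellAt_isCell _ _ _ _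
  have hqv : E.act γ q ∈ v.2 :=
    hin q fun h => Set.disjoint_left.1 hw.2 hq.1 (E.B₀_subset_B₂ 1 h)
  have hn : v.1 ≤ (E.img γ w.1 q).1 := by
    have h := hv.1.lt (hin E.t₀ (E.t₀_notMem _))
    simp only [img]
    omega
  have hsub := hv.1.subset_of_mem hcell hn hqv hmem
  exact ⟨⟨hcell, hv.2.mono_left hsub⟩, hsub, hmem⟩

/-- Distinct targets give distinct images under one translation. -/
theorem img_inj {γ : Γ} (hb : E.act γ⁻¹ E.t₀ ∈ E.B E.k₀ 1) {w w' : Tgt X} (hw : E.Strict w)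
    (hw' : E.Strict w') {q q' : X} (hq : q ∈ E.deeper E.pushed w) (hq' : q' ∈ E.deeper E.pushed w')
    (h : E.img γ w.1 q = E.img γ w'.1 q') : w = w' := by
  have h2 : E.act γ q' ∈ (E.img γ w.1 q).2 := h ▸ (E.img_core hb hw' hq').1
  have hm : w.1 = w'.1 := by
    have := congrArg Prod.fst h
    simp only [img] at this
    omega
  have hg := (cellAt_isCell E.M E.t₀ (E.img γ w.1 q).1 (E.act γ q)).gp_le E.thin
    (E.img_core hb hw hq).1 h2
  have hg2 := gp_base E.hc E.t₀ (E.act γ E.t₀) (E.act γ q) (E.act γ q')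
  rw [E.gp_act] at hg2
  simp only [img, shift] at hg
  have h3 : q' ∈ w.2 := hw.1.mem_of_gp E.hc hq.1
    (by rw [hm]; exact hw'.1.lt hq'.1) (by omega)
  refine Prod.ext hm (hw.1.eq_of_mem ?_ h3 hq'.1)
  rw [hm]
  exact hw'.1

/-- At a point of a target a short walk goes deep into it. -/
theorem exists_push {w : Tgt X} (hw : E.Strict w) {t : V} (ht : E.pos t ∈ w.2) :
    ∃ (u : V) (P : E.G.Walk t u), P.length ≤ E.blk ∧
      (∀ v ∈ P.support, E.pos v ∉ E.B E.k₀ 1) ∧ E.pos u ∈ E.deeper E.pushed w := by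
  obtain ⟨i, hi⟩ := E.avoid_at t E.t₀ E.t₀
  have hi' : ∀ q ∈ E.Uat t i, GP E.H (E.base t) q E.t₀ ≤ E.Kf := fun q hq => (hi q hq).1
  obtain ⟨P0, hP0, hs⟩ := E.σ_path i (E.typ t)
  obtain ⟨P, hP, hsP⟩ := E.exists_map_walk (E.sec t) P0
  refine ⟨E.Φ (E.sec t) (E.Φ (E.σ i) (E.rep E.o₁)), P.copy (E.sec_spec t) rfl,
    (SimpleGraph.Walk.length_copy _ _ _).trans_le (hP.trans_le hP0), fun v hv => ?_, ?_⟩
  · rw [SimpleGraph.Walk.support_copy] at hv
    obtain ⟨v0, hv0, rfl⟩ := hsP v hv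
    obtain ⟨r, hr, hd⟩ := hs v0 hv0
    rw [E.pos_eq]
    rcases hr with rfl | hr
    · refine E.margin_at (Set.disjoint_left.1 hw.2 ht) ?_
      have h1 := E.hc.dist_triangle (u := E.pos t) (v := E.base t)
        (w := E.act (E.sec t) (E.pos v0))
      have h2 := E.pos_base_le t
      rw [E.H.dist_comm (u := E.base t) (v := E.pos t)] at h2
      have h3 : E.H.dist (E.base t) (E.act (E.sec t) (E.pos v0)) ≤ E.R₀ :=
        (E.dist_act _ _ _).trans_le hd
      omega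
    · have hmem := (E.Uat_subset hw.1 ht hi' ((E.mem_act_image (E.sec t) (E.U i)
        (E.act (E.sec t) r)).2 (by rwa [E.act_inv_act]))).1
      refine E.margin_at (Set.disjoint_left.1 hw.2 hmem) ?_
      rw [E.dist_act]
      omega
  · have hmem : E.pos (E.Φ (E.sec t) (E.Φ (E.σ i) (E.rep E.o₁))) ∈ E.Uat t i := by
      rw [E.pos_eq, E.pos_eq]
      exact (E.mem_act_image _ _ _).2 (by
        rw [E.act_inv_act]; exact E.σ_maps i _ (E.t₀_notMem _))
    obtain ⟨h1, h2⟩ := E.Uat_subset hw.1 ht hi' hmem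
    refine ⟨h1, ?_⟩
    have := hw.1.lt ht
    have := E.hM
    simp only [pushed]
    omega

theorem not_mem_pre_anchor {e : Tgt X} (he : E.Strict e) : E.a₁ ∉ E.pre e.2 := he.1.notMem_root

variable [DecidableEq V] {p : ℝ}

theorem psiN_nonneg (ρ n : ℕ) (h0 : 0 ≤ p) (h1 : p ≤ 1) (e : Tgt X) : 0 ≤ E.PsiN ρ n p e :=
  hitN_nonneg _ h0 h1 _ _ _

/-- The push costs one block. -/
theorem push_le (h0 : 0 ≤ p) (h1 : p ≤ 1) (ρ n : ℕ) {w : Tgt X} (hw : E.Strict w) :
    p ^ E.blk * E.PsiN ρ n p w ≤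
      hitN E.nb (E.om (ρ + E.blk)) p E.a₁ (E.pre (E.deeper E.pushed w)) (n + E.blk) := by
  classical
  set Z := (E.om ρ).filter (E.Gate w.2)
  choose! g P hP hPs hg using fun t (ht : E.pos t ∈ w.2) => E.exists_push hw ht
  let B : V → Finset (Sym2 V) := fun t =>
    if h : E.pos t ∈ w.2 then (P t h).edges.toFinset else ∅
  have hZw : ∀ t ∈ Z, E.pos t ∈ w.2 := fun t ht => (mem_filter.1 ht).2.1
  have hsupp : ∀ t (ht : t ∈ Z), ∀ v ∈ (P t (hZw t ht)).support, v ∈ E.om (ρ + E.blk) := by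
    intro t ht v hv
    refine E.mem_om.2 ⟨E.ball_subset (E.mem_om.1 (mem_filter.1 ht).1).1 le_rfl
      (E.covers_ball E.blk t _ (P t (hZw t ht)) (hP t (hZw t ht)) v hv), hPs t (hZw t ht) v hv⟩
  have hB : ∀ t ∈ Z, B t ⊆ inE E.nb (E.om (ρ + E.blk)) ∧ (B t).card ≤ E.blk ∧
      ∀ v, OnBlock B t v → cl (B t) v (g t) := by
    intro t ht
    have e : B t = (P t (hZw t ht)).edges.toFinset := dif_pos _
    have htoB : ∀ v ∈ (P t (hZw t ht)).support, cl (B t) v (g t) := fun v hv => by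
      have hmem : ∀ d ∈ ((P t (hZw t ht)).dropUntil v hv).edges,
          d ∈ (SimpleGraph.fromEdgeSet ((B t : Finset _) : Set (Sym2 V))).edgeSet := by
        intro d hd
        have hd' := (P t (hZw t ht)).edges_dropUntil_subset_edges hv hd
        rw [SimpleGraph.edgeSet_fromEdgeSet, e]
        exact ⟨List.mem_toFinset.2 hd',
          E.G.not_isDiag_of_mem_edgeSet ((P t (hZw t ht)).edges_subset_edgeSet hd')⟩
      exact ⟨((P t (hZw t ht)).dropUntil v hv).transfer _ hmem⟩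
    rw [e]
    refine ⟨fun d hd => (inE_iff E.hl).2 ⟨(P t _).edges_subset_edgeSet (List.mem_toFinset.1 hd),
      fun v hv => hsupp t ht v
        (SimpleGraph.Walk.mem_support_of_mem_edges (List.mem_toFinset.1 hd) hv)⟩,
      ((P t _).edges.toFinset_card_le).trans ((P t _).length_edges.le.trans (hP t _)), ?_⟩
    rw [← e]
    rintro v (rfl | ⟨d, hd, hv⟩)
    · exact htoB _ (P v (hZw v ht)).start_mem_support
    · rw [e] at hd
      exact htoB v (SimpleGraph.Walk.mem_support_of_mem_edges (List.mem_toFinset.1 hd) hv)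
  obtain ⟨q, hq0, hq, hqT⟩ := glue_weights E.hl (E.om_mono (by omega : ρ ≤ ρ + E.blk)) h0 h1 Z
    (E.not_mem_pre_anchor hw) (fun x y hxy hx hy hys => mem_filter.2 ⟨hys, hy, x, hxy, hx⟩)
    B g E.blk hB (fun _ => ∅) (fun t _ => ⟨empty_subset _, by simp⟩) n
  refine le_trans (mul_le_mul_of_nonneg_left (hq.trans (le_of_eq ?_)) (pow_nonneg h0 _))
    (hqT (E.pre (E.deeper E.pushed w)) 0)
  refine sum_congr rfl fun t ht => ?_
  have : hitN E.nb (∅ : Finset V) p (g t) (E.pre (E.deeper E.pushed w)) 0 = 1 := by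
    refine le_antisymm ((avg_mono _ h0 h1 fun _ _ => ind_le_one _).trans_eq (avg_one _ _)) ?_
    refine (avg_one _ _).symm.le.trans (avg_mono _ h0 h1 fun η _ => le_of_eq (if_pos ?_).symm)
    exact ⟨g t, hg t (hZw t ht), .nil, le_rfl⟩
  rw [this, mul_one]

/-- The end of a short connection lies in its window. -/
theorem mem_of_hitN {S : Finset V} {η : Finset (Sym2 V)} (hη : η ⊆ inE E.nb S) {a : V} (ha : a ∈ S)
    {T : Set V} {n : ℕ} (h : HitN T n a η) :
    ∃ t ∈ T, t ∈ S ∧ ∃ w : (SimpleGraph.fromEdgeSet (η : Set (Sym2 V))).Walk a t, w.length ≤ n := by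
  obtain ⟨t, ht, w, hw⟩ := h
  refine ⟨t, ht, ?_, w, hw⟩
  cases hr : w.reverse with
  | nil => exact ha
  | cons hadj _ =>
    exact inE_mem (hη (mem_coe.1 ((SimpleGraph.fromEdgeSet_adj _).1 hadj).1))
      (Sym2.mem_mk_left _ _)

open Classical in
/-- The images of one target under a translation. -/
noncomputable def images (γ : Γ) (R : ℕ) (w : Tgt X) : Finset (Tgt X) :=
  ((E.om R).filter fun v => E.pos v ∈ E.deeper E.pushed w).image fun v => E.img γ w.1 (E.pos v)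

theorem mem_images {γ : Γ} {R : ℕ} {w f : Tgt X} (h : f ∈ E.images γ R w) :
    ∃ v ∈ E.om R, E.pos v ∈ E.deeper E.pushed w ∧ E.img γ w.1 (E.pos v) = f := by
  simp only [images, mem_image, mem_filter] at h
  obtain ⟨v, ⟨hv1, hv2⟩, e⟩ := h
  exact ⟨v, hv1, hv2, e⟩

theorem disjoint_images {γ : Γ} (hb : E.act γ⁻¹ E.t₀ ∈ E.B E.k₀ 1) (R : ℕ) (F : Finset (Tgt X))
    (hF : ∀ w ∈ F, E.Strict w) : (F : Set (Tgt X)).PairwiseDisjoint (E.images γ R) := by
  intro w hw w' hw' hne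
  refine disjoint_left.2 fun f hf hf' => hne ?_
  obtain ⟨v, -, hv, e⟩ := E.mem_images hf
  obtain ⟨v', -, hv', e'⟩ := E.mem_images hf'
  exact E.img_inj hb (hF w hw) (hF w' hw') hv hv' (e.trans e'.symm)

/-- A pushed connection lands in one of the images. -/
theorem hit_images (h0 : 0 ≤ p) (h1 : p ≤ 1) {γ : Γ} (hb : E.act γ⁻¹ E.t₀ ∈ E.B E.k₀ 1) (R ℓ : ℕ)
    {w : Tgt X} (hw : E.Strict w) :
    hitN E.nb (E.om R) p E.a₁ (E.pre (E.deeper E.pushed w)) ℓ ≤
      ∑ f ∈ E.images γ R w, hitN E.nb (E.om R) p E.a₁ (E.preT γ (E.core f)) ℓ := by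
  classical
  simp only [hitN]
  rw [← avg_sum]
  refine avg_mono _ h0 h1 fun η hη => ?_
  by_cases hh : HitN (E.pre (E.deeper E.pushed w)) ℓ E.a₁ η
  swap
  · rw [show ind _ = 0 from if_neg hh]
    exact sum_nonneg fun _ _ => ind_nonneg _
  obtain ⟨t, ht, htS, P, hP⟩ := E.mem_of_hitN hη (E.a₁_mem_om R) hh
  refine (ind_le_one _).trans (le_trans ?_ (single_le_sum (fun _ _ => ind_nonneg _)
    (show E.img γ w.1 (E.pos t) ∈ E.images γ R w by
      simp only [images, mem_image, mem_filter]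
      exact ⟨t, ⟨htS, ht⟩, rfl⟩)))
  exact le_of_eq (if_pos ⟨t, E.img_core hb hw ht, P, hP⟩).symm

theorem min_sum_le {β : Type} (s : Finset β) (a : β → ℝ) (ha : ∀ x ∈ s, 0 ≤ a x) {t : ℝ}
    (ht : 0 ≤ t) : min (∑ x ∈ s, a x) t ≤ ∑ x ∈ s, min (a x) t := by
  classical
  by_cases h : ∃ x ∈ s, t ≤ a x
  · obtain ⟨x, hx, hle⟩ := h
    refine (min_le_right _ _).trans (le_trans (le_of_eq (min_eq_right hle).symm) ?_)
    exact single_le_sum (f := fun x => min (a x) t) (fun y hy => le_min (ha y hy) ht) hx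
  · push Not at h
    exact (min_le_left _ _).trans (sum_le_sum fun x hx => (min_eq_left (h x hx).le).ge)

/-- A family of targets is carried into a cell. -/
theorem exists_step (h0 : 0 ≤ p) (h1 : p ≤ 1) (ρ ρ' ℓ : ℕ) {v : Tgt X} (hv : E.Strict v)
    (F : Finset (Tgt X)) (hF : ∀ w ∈ F, E.Strict w) :
    ∃ S : Finset (Tgt X), (∀ f ∈ S, E.Strict f ∧ f.2 ⊆ v.2 ∧ f.2.Nonempty) ∧ ∀ t : ℝ, 0 ≤ t →
      ∑ w ∈ F, min (p ^ (2 * E.blk) * E.Psi ρ p v * E.PsiN ρ' ℓ p w) t ≤ ∑ f ∈ S,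
        min (E.PsiN (ρ + E.blk + (ρ' + E.blk))
          ((inE E.nb (E.om ρ)).card + E.blk + (ℓ + E.blk)) p f) t := by
  classical
  set R := ρ' + E.blk
  set S0 := E.om (ρ + E.blk + R)
  choose i hi using fun z : V => E.avoid_at z E.t₀ E.t₀
  have hi' : ∀ z, ∀ q ∈ E.Uat z (i z), GP E.H (E.base z) q E.t₀ ≤ E.Kf :=
    fun z q hq => (hi z q hq).1
  set γ : V → Γ := fun z => E.sec z * E.σ (i z) with hγ
  set Z := (E.om ρ).filter (E.Gate v.2)
  have hZv : ∀ z ∈ Z, E.pos z ∈ v.2 := fun z hz => (mem_filter.1 hz).2.1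
  have hin : ∀ z ∈ Z, ∀ r, r ∉ E.B E.k₀ 1 → E.act (γ z) r ∈ v.2 := fun z hz r hr => by
    refine (E.Uat_subset hv.1 (hZv z hz) (hi' z) ((E.mem_act_image _ _ _).2 ?_)).1
    rw [hγ, E.act_mul, E.act_inv_act]
    exact E.σ_maps _ r hr
  choose P0 hP0 hs0 using fun z : V => E.σ_path (i z) (E.typ z)
  choose P1 hP1 hs1 using fun z : V => E.exists_map_walk (E.sec z) (P0 z)
  have e2 : ∀ z, E.Φ (E.sec z) (E.Φ (E.σ (i z)) (E.rep E.o₁)) = E.Φ (γ z) E.a₁ :=
    fun z => (E.Φ_mul _ _ _).symm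
  let P : ∀ z : V, E.G.Walk z (E.Φ (γ z) E.a₁) := fun z => (P1 z).copy (E.sec_spec z) (e2 z)
  have hPlen : ∀ z, (P z).length ≤ E.blk := fun z =>
    (SimpleGraph.Walk.length_copy _ _ _).trans_le ((hP1 z).trans_le (hP0 z))
  have hsupp : ∀ z ∈ Z, ∀ x ∈ (P z).support, x ∈ S0 := by
    intro z hz x hx
    refine E.mem_om.2 ⟨E.ball_subset (E.mem_om.1 (mem_filter.1 hz).1).1 (by omega)
      (E.covers_ball E.blk z _ (P z) (hPlen z) x hx), ?_⟩
    simp only [P, SimpleGraph.Walk.support_copy] at hx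
    obtain ⟨x0, hx0, rfl⟩ := hs1 z x hx
    obtain ⟨r, hr, hd⟩ := hs0 z x0 hx0
    rw [E.pos_eq]
    rcases hr with rfl | hr
    · refine E.margin_at (Set.disjoint_left.1 hv.2 (hZv z hz)) ?_
      have h3 := E.hc.dist_triangle (u := E.pos z) (v := E.base z)
        (w := E.act (E.sec z) (E.pos x0))
      have h4 := E.pos_base_le z
      rw [E.H.dist_comm (u := E.base z) (v := E.pos z)] at h4
      have h5 : E.H.dist (E.base z) (E.act (E.sec z) (E.pos x0)) ≤ E.R₀ :=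
        (E.dist_act _ _ _).trans_le hd
      omega
    · have hmem := (E.Uat_subset hv.1 (hZv z hz) (hi' z) ((E.mem_act_image (E.sec z) (E.U (i z))
        (E.act (E.sec z) r)).2 (by rwa [E.act_inv_act]))).1
      refine E.margin_at (Set.disjoint_left.1 hv.2 hmem) ?_
      rw [E.dist_act]
      omega
  let S2 : V → Finset V := fun z => (E.om R).image (E.Φ (γ z))
  have hS2 : ∀ z ∈ Z, S2 z ⊆ S0 ∧ ∀ x ∈ S2 z, x ∈ E.pre v.2 := by
    intro z hz
    have hmem : ∀ x ∈ S2 z, x ∈ S0 ∧ x ∈ E.pre v.2 := by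
      intro x hx
      obtain ⟨y, hy, rfl⟩ := mem_image.1 hx
      obtain ⟨hy1, hy2⟩ := E.mem_om.1 hy
      have hpv : E.pos (E.Φ (γ z) y) ∈ v.2 := by
        rw [E.pos_eq]; exact hin z hz _ hy2
      refine ⟨E.mem_om.2 ⟨?_, fun h =>
        Set.disjoint_left.1 hv.2 hpv (E.B₀_subset_B₂ 1 h)⟩, hpv⟩
      have h2 : E.Φ (γ z) y ∈ E.ball (E.Φ (γ z) E.a₁) R := by
        rw [← E.image_ball]; exact mem_image_of_mem _ hy1
      refine E.ball_subset (E.mem_ball.2 ?_) le_rfl h2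
      obtain ⟨w, hw⟩ := E.mem_ball.1 (E.mem_om.1 (mem_filter.1 hz).1).1
      exact ⟨w.append (P z), by rw [SimpleGraph.Walk.length_append]; have := hPlen z; omega⟩
    exact ⟨fun x hx => (hmem x hx).1, fun x hx => (hmem x hx).2⟩
  let B : V → Finset (Sym2 V) := fun z => (P z).edges.toFinset
  have hB : ∀ z ∈ Z, B z ⊆ inE E.nb S0 ∧ (B z).card ≤ E.blk ∧
      ∀ x, OnBlock B z x → cl (B z) x (E.Φ (γ z) E.a₁) := by
    intro z hz
    have htoB : ∀ x ∈ (P z).support, cl (B z) x (E.Φ (γ z) E.a₁) := fun x hx => by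
      have hmem : ∀ d ∈ ((P z).dropUntil x hx).edges,
          d ∈ (SimpleGraph.fromEdgeSet ((B z : Finset _) : Set (Sym2 V))).edgeSet := by
        intro d hd
        have hd' := (P z).edges_dropUntil_subset_edges hx hd
        rw [SimpleGraph.edgeSet_fromEdgeSet]
        exact ⟨List.mem_toFinset.2 hd',
          E.G.not_isDiag_of_mem_edgeSet ((P z).edges_subset_edgeSet hd')⟩
      exact ⟨((P z).dropUntil x hx).transfer _ hmem⟩
    refine ⟨fun d hd => (inE_iff E.hl).2 ⟨(P z).edges_subset_edgeSet (List.mem_toFinset.1 hd),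
      fun x hx => hsupp z hz x
        (SimpleGraph.Walk.mem_support_of_mem_edges (List.mem_toFinset.1 hd) hx)⟩,
      ((P z).edges.toFinset_card_le).trans ((P z).length_edges.le.trans (hPlen z)), ?_⟩
    rintro x (rfl | ⟨d, hd, hx⟩)
    · exact htoB _ (P x).start_mem_support
    · exact htoB x (SimpleGraph.Walk.mem_support_of_mem_edges (List.mem_toFinset.1 hd) hx)
  set n := (inE E.nb (E.om ρ)).card
  obtain ⟨q, hq0, hq, hqT⟩ := glue_weights E.hl (S := S0) (E.om_mono (by omega : ρ ≤ ρ + E.blk + R))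
    h0 h1 Z (E.not_mem_pre_anchor hv) (fun x y hxy hx hy hys => mem_filter.2 ⟨hys, hy, x, hxy, hx⟩)
    B (fun z => E.Φ (γ z) E.a₁) E.blk hB S2 hS2 n
  have hback : ∀ z, E.act (γ z)⁻¹ E.t₀ ∈ E.B E.k₀ 1 := fun z => E.back_of_avoid (hi' z)
  set S := Z.biUnion fun z => F.biUnion (E.images (γ z) R)
  refine ⟨S, fun f hf => ?_, fun t ht => ?_⟩
  · simp only [S, mem_biUnion] at hf
    obtain ⟨z, hz, w, hw, hf⟩ := hf
    obtain ⟨x, -, hx, rfl⟩ := E.mem_images hf
    obtain ⟨a, b, c⟩ := E.img_spec (hback z) hv (hin z hz) (hF w hw) hx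
    exact ⟨a, b, _, c⟩
  set Q := ∑ z ∈ Z, q z
  have hQ : 0 ≤ Q := sum_nonneg fun z _ => hq0 z
  set Ψv := E.Psi ρ p v
  have hΨ0 : 0 ≤ Ψv := FP.hit_nonneg _ h0 h1 _ _
  have hΨQ : Ψv ≤ Q := by
    refine le_trans (avg_mono _ h0 h1 fun η hη => ind_mono fun h => ?_) hq
    obtain ⟨u, hu, hc⟩ := h
    obtain ⟨w, hw⟩ := exists_walk_le hc
    exact ⟨u, hu, w, hw.trans (card_le_card hη)⟩
  set g : V → Tgt X → ℝ := fun z f =>
    hitN E.nb (E.om R) p E.a₁ (E.preT (γ z) (E.core f)) (ℓ + E.blk)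
  have hg0 : ∀ z f, 0 ≤ g z f := fun z f => hitN_nonneg _ h0 h1 _ _ _
  have hrhs : ∀ f, 0 ≤ min (E.PsiN (ρ + E.blk + R) (n + E.blk + (ℓ + E.blk)) p f) t :=
    fun f => le_min (E.psiN_nonneg _ _ h0 h1 f) ht
  rcases hQ.eq_or_lt with hQ0 | hQpos
  · have : Ψv = 0 := le_antisymm (hΨQ.trans hQ0.ge) hΨ0
    refine le_of_eq_of_le (sum_eq_zero fun w _ => ?_) (sum_nonneg fun f _ => hrhs f)
    rw [this, mul_zero, zero_mul, min_eq_left ht]
  set P2 := p ^ E.blk * Ψv
  have hP2 : 0 ≤ P2 := mul_nonneg (pow_nonneg h0 _) hΨ0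
  have hpt : ∀ f, ∑ z ∈ Z, q z / Q * min (P2 * g z f) t ≤
      min (E.PsiN (ρ + E.blk + R) (n + E.blk + (ℓ + E.blk)) p f) t := by
    intro f
    refine le_min ((sum_le_sum (g := fun z => p ^ E.blk * (q z * g z f)) fun z _ => ?_).trans
      (le_of_eq_of_le (mul_sum _ _ _).symm (le_trans ?_ (hqT (E.pre f.2) (ℓ + E.blk))))) ?_
    · refine (mul_le_mul_of_nonneg_left (min_le_left _ _) (div_nonneg (hq0 z) hQ)).trans ?_
      calc q z / Q * (P2 * g z f) ≤ q z / Q * (p ^ E.blk * Q * g z f) :=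
            mul_le_mul_of_nonneg_left (mul_le_mul_of_nonneg_right
              (mul_le_mul_of_nonneg_left hΨQ (pow_nonneg h0 _)) (hg0 z f)) (div_nonneg (hq0 z) hQ)
        _ = p ^ E.blk * (q z * g z f) := by field_simp
    · refine mul_le_mul_of_nonneg_left (sum_le_sum fun z _ =>
        mul_le_mul_of_nonneg_left ?_ (hq0 z)) (pow_nonneg h0 _)
      refine le_trans ?_ (le_of_eq (hitN_map E.hl (E.Φ (γ z)) _ p _ _ _).symm)
      refine hitN_mono E.hl Subset.rfl (fun x hx => ?_) le_rfl h0 h1 _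
      show E.pos (E.Φ (γ z) x) ∈ f.2
      rw [E.pos_eq]
      exact hx.1
    · calc ∑ z ∈ Z, q z / Q * min (P2 * g z f) t ≤ ∑ z ∈ Z, q z / Q * t :=
            sum_le_sum fun z _ =>
              mul_le_mul_of_nonneg_left (min_le_right _ _) (div_nonneg (hq0 z) hQ)
        _ = t := by rw [← sum_mul, ← sum_div, div_self hQpos.ne', one_mul]
  refine le_trans ?_ (sum_le_sum fun f _ => hpt f)
  rw [sum_comm]
  calc ∑ w ∈ F, min (p ^ (2 * E.blk) * Ψv * E.PsiN ρ' ℓ p w) t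
      = ∑ z ∈ Z, q z / Q * ∑ w ∈ F, min (p ^ (2 * E.blk) * Ψv * E.PsiN ρ' ℓ p w) t := by
        rw [← sum_mul, ← sum_div, div_self hQpos.ne', one_mul]
    _ ≤ _ := sum_le_sum fun z hz => ?_
  rw [← mul_sum]
  refine mul_le_mul_of_nonneg_left ?_ (div_nonneg (hq0 z) hQ)
  calc ∑ w ∈ F, min (p ^ (2 * E.blk) * Ψv * E.PsiN ρ' ℓ p w) t
      ≤ ∑ w ∈ F, ∑ f ∈ E.images (γ z) R w, min (P2 * g z f) t := by
        refine sum_le_sum fun w hw => le_trans (min_le_min_right t ?_)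
          (min_sum_le _ _ (fun f _ => mul_nonneg hP2 (hg0 z f)) ht)
        rw [← mul_sum]
        refine le_trans (le_of_eq ?_) (mul_le_mul_of_nonneg_left
          ((E.push_le h0 h1 ρ' ℓ (hF w hw)).trans (E.hit_images h0 h1 (hback z) R _ (hF w hw))) hP2)
        simp only [P2]
        rw [two_mul, pow_add]
        ring
    _ = ∑ f ∈ F.biUnion (E.images (γ z) R), min (P2 * g z f) t :=
        (sum_biUnion (E.disjoint_images (hback z) R F hF)).symm
    _ ≤ ∑ f ∈ S, min (P2 * g z f) t := sum_le_sum_of_subset_of_nonneg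
        (subset_biUnion_of_mem (fun z => F.biUnion (E.images (γ z) R)) hz)
        fun f _ _ => le_min (mul_nonneg hP2 (hg0 z f)) ht

end Vale.Agent.P165.QT.Env
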