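import Vale.Agent.P165.QT.Geo
import Vale.Agent.P165.SG.Classes
import Vale.Agent.P165.SG.FreeTree
import Vale.Agent.P165.TL.Markers
import Vale.Agent.P165.TR.EndsOf

/-!
# Models for the theorem on thin graphs

Trees have the bottleneck property with constant zero. A group acting freely and cofinitely on a
product of trees of minimal degree three has four ends on every factor, as has a free group on its
Cayley tree.
-/

namespace Vale.Agent.P165.QT

open SimpleGraph

/-- In a tree every walk passes through every vertex between its ends. -/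
theorem bottleneck_of_tree {X : Type} {T : SimpleGraph X} (hT : T.IsTree) : Bottleneck T 0 := by
  classical
  intro p q w m hm
  refine ⟨m, w.support_bypass_subset_support ?_, by rw [T.dist_self]⟩
  have h := TL.eq_pt_of_between hT hm
  rw [TL.pt_of_path hT w.bypass_isPath] at h
  rw [← h]
  exact w.bypass.getVert_mem_support _

/-! ### Lattices in products of trees -/

section Lattice

open TL

variable {κ Γ : Type} [Group Γ] (D : TreeAct κ Γ) (t : κ)

/-- If lengths add, the first step is that of the first factor. -/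
theorem dir_mul {a b : Γ} (ha : 1 ≤ D.len t a)
    (h : D.len t (a * b) = D.len t a + D.len t b) : D.dir (a * b) t = D.dir a t := by
  refine (pt_of_between (D.tree t) (u := D.o t) (v := D.at' (a * b) t) (x := D.at' a t) ?_ 1).1 ha
  rw [D.dist_at, inv_mul_cancel_left]
  exact h.symm

/-- Powers of a marker with different directions at its ends escape along its first step. -/
theorem marker_pow {c : Γ} (h1 : 1 ≤ D.len t c) (hne : D.dir c t ≠ D.dir c⁻¹ t) : ∀ n : ℕ,
    D.len t (c ^ (n + 1)) = (n + 1) * D.len t c ∧ D.dir (c ^ (n + 1)) t = D.dir c t := by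
  intro n
  induction n with
  | zero => simp
  | succ n ih =>
    have hadd := D.len_mul t c (c ^ (n + 1)) (Or.inr (Or.inr (by rw [ih.2]; exact hne.symm)))
    rw [pow_succ' c (n + 1)]
    exact ⟨by rw [hadd, ih.1]; ring, dir_mul D t h1 hadd⟩

/-- The powers of a marker conjugated by a marker of one direction. -/
theorem conj_marker_pow {c x : Γ} (h1 : 1 ≤ D.len t c) (hne : D.dir c t ≠ D.dir c⁻¹ t)
    (hx : 1 ≤ D.len t x) (h3 : D.dir x⁻¹ t = D.dir x t) (ha : D.dir c t ≠ D.dir x t)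
    (hb : D.dir c⁻¹ t ≠ D.dir x t) (n : ℕ) :
    n + 1 ≤ D.len t ((x * c * x⁻¹) ^ (n + 1)) ∧
      D.dir ((x * c * x⁻¹) ^ (n + 1)) t = D.dir x t := by
  obtain ⟨e1, e2⟩ := marker_pow D t h1 hne n
  have hc' : 1 ≤ D.len t c⁻¹ := by rw [D.len_inv]; exact h1
  obtain ⟨-, e3⟩ := marker_pow D t hc' (by rw [inv_inv]; exact hne.symm) n
  have hpos : 1 ≤ D.len t (c ^ (n + 1)) := by
    rw [e1]
    exact Nat.mul_pos (Nat.succ_pos n) h1
  have s1 := D.len_mul t (c ^ (n + 1)) x⁻¹
    (Or.inr (Or.inr (by rw [← inv_pow, e3, h3]; exact hb)))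
  have d1 : D.dir (c ^ (n + 1) * x⁻¹) t = D.dir c t := (dir_mul D t hpos s1).trans e2
  have s2 := D.len_mul t x (c ^ (n + 1) * x⁻¹)
    (Or.inr (Or.inr (by rw [d1, h3]; exact ha.symm)))
  rw [conj_pow, mul_assoc]
  refine ⟨?_, dir_mul D t hx s2⟩
  rw [s2, s1, e1]
  have := Nat.le_mul_of_pos_right (n + 1) h1
  omega

/-- Positions in different directions. -/
theorem diverge_of_dir {a b : ℕ → Γ} (ha : a 0 = 1) (hb : b 0 = 1)
    (h : ∀ n k, D.dir (a (n + 1)) t ≠ D.dir (b (k + 1)) t) :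
    SG.Diverge (D.H t) (D.o t) (fun n => D.φ t (a n) (D.o t)) (fun k => D.φ t (b k) (D.o t)) 0 := by
  intro n k
  show D.len t (a n) + D.len t (b k) ≤ (D.H t).dist (D.at' (a n) t) (D.at' (b k) t) + 0
  rw [add_zero, D.dist_at]
  rcases n with - | n
  · rw [ha, D.len_one, inv_one, one_mul, zero_add]
  rcases k with - | k
  · rw [hb, D.len_one, mul_one, D.len_inv, add_zero]
  rw [D.len_mul t (a (n + 1))⁻¹ (b (k + 1)) (Or.inr (Or.inr (by rw [inv_inv]; exact h n k))),
    D.len_inv]

/-- A free cofinite action on a product of trees has four ends on every factor. -/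
theorem fourEnds_treeAct [Finite κ] : SG.FourEnds (D.H t) (D.φ t) (D.o t) := by
  classical
  have pick : ∀ s, ∃ u v w, ((D.H s).Adj (D.o s) u ∧ (D.H s).Adj (D.o s) v ∧
      (D.H s).Adj (D.o s) w) ∧ u ≠ v ∧ u ≠ w ∧ v ≠ w := fun s => by
    have h : 2 < ((D.H s).neighborSet (D.o s)).ncard := D.deg s _
    obtain ⟨u, v, w, hu, hv, hw, h1, h2, h3⟩ := (Set.two_lt_ncard_iff (D.nbhd s _)).1 h
    exact ⟨u, v, w, ⟨hu, hv, hw⟩, h1, h2, h3⟩
  choose e1 e2 e3 he hd12 hd13 hd23 using pick
  obtain ⟨g, hg⟩ := D.exists_marker e1 e2 (fun s => (he s).1) fun s => (he s).2.1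
  obtain ⟨x, hx⟩ := D.exists_marker e3 e3 (fun s => (he s).2.2) fun s => (he s).2.2
  obtain ⟨g1, g2, g3⟩ := hg t
  obtain ⟨x1, x2, x3⟩ := hx t
  have hne : D.dir g t ≠ D.dir g⁻¹ t := by rw [g2, g3]; exact hd12 t
  have hg' : 1 ≤ D.len t g⁻¹ := by rw [D.len_inv]; exact g1
  have hne' : D.dir g⁻¹ t ≠ D.dir g⁻¹⁻¹ t := by rw [inv_inv]; exact hne.symm
  have hax : D.dir g t ≠ D.dir x t := by rw [g2, x2]; exact hd13 t
  have hbx : D.dir g⁻¹ t ≠ D.dir x t := by rw [g3, x2]; exact hd23 t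
  have hxx : D.dir x⁻¹ t = D.dir x t := by rw [x2, x3]
  have P := marker_pow D t g1 hne
  have P' := marker_pow D t hg' hne'
  have Q := conj_marker_pow D t g1 hne x1 hxx hax hbx
  have Q' := conj_marker_pow D t hg' hne' x1 hxx hbx (by rw [inv_inv]; exact hax)
  have hinv : (x * g * x⁻¹)⁻¹ = x * g⁻¹ * x⁻¹ := by group
  refine ⟨g, x * g * x⁻¹, 0, fun n => ?_, fun a ha => ?_⟩
  · show n ≤ D.len t (g ^ n) ∧ n ≤ D.len t ((x * g * x⁻¹) ^ n)
    rcases n with - | n
    · exact ⟨Nat.zero_le _, Nat.zero_le _⟩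
    · exact ⟨by rw [(P n).1]; exact Nat.le_mul_of_pos_right _ g1, (Q n).1⟩
  · simp only [List.mem_cons, List.not_mem_nil, or_false] at ha
    rcases ha with rfl | rfl | rfl | rfl <;>
      refine diverge_of_dir D t (pow_zero _) (pow_zero _) fun n k => ?_
    · rw [(P n).2, (Q k).2]; exact hax
    · rw [(P n).2, hinv, (Q' k).2]; exact hax
    · rw [(P' n).2, (Q k).2]; exact hbx
    · rw [(P' n).2, hinv, (Q' k).2]; exact hbx

/-- The same for the data of a lattice in a product of trees. -/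
theorem fourEnds_lattice (m : ℕ) (W : Fin m → Type) (H : ∀ t, SimpleGraph (W t))
    (hT : ∀ t, (H t).IsTree) (hfin : ∀ t x, ((H t).neighborSet x).Finite)
    (hdeg : ∀ t x, 3 ≤ ((H t).neighborSet x).ncard) (Λ : Type) [Group Λ]
    (act : ∀ t, Λ →* (H t ≃g H t))
    (hfree : ∀ (g : Λ) (x : ∀ t, W t), (∀ t, act t g (x t) = x t) → g = 1)
    (hcof : ∃ R : Finset (∀ t, W t), ∀ x : ∀ t, W t, ∃ g, ∃ r ∈ R, ∀ t, act t g (r t) = x t)
    (t : Fin m) : ∃ o, SG.FourEnds (H t) (act t) o := by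
  obtain ⟨reps, hcov⟩ := hcof
  let D : TreeAct (Fin m) Λ :=
    { V := W, H := H, tree := hT, nbhd := hfin, deg := hdeg, φ := act, free := hfree
      o := fun t => (hT t).connected.nonempty.some, reps := reps, cover := hcov }
  exact ⟨D.o t, fourEnds_treeAct D t⟩

end Lattice

/-! ### Free groups -/

/-- The free group of rank at least two has four ends on its Cayley tree. -/
theorem fourEnds_ftree (r : ℕ) (hr : 2 ≤ r) :
    SG.FourEnds (SG.ftree (Fin r)) (SG.fact (Fin r)) (1 : FreeGroup (Fin r)) := by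
  have h : ∃ g k : FreeGroup (Fin r), g * k ≠ k * g := by
    refine ⟨FreeGroup.of ⟨0, by omega⟩, FreeGroup.of ⟨1, by omega⟩, fun e => ?_⟩
    have e' := congrArg FreeGroup.toWord e
    simp [FreeGroup.toWord_mul, FreeGroup.reduce] at e'
  exact TR.fourEnds_free_image (MonoidHom.id _) h

end Vale.Agent.P165.QT
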