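import Vale.Agent.P165.QT.Basic
import Vale.Agent.P165.TR.LastExit

/-!
# The shells and the closing

A connection from `x` to a point at distance `j` avoids a given deep cell or leaves it for the last
time at a gate, and the rest is a tail seen from that gate, whose anchor looks into the cell. The
`2 ^ m` deep cells are disjoint, so every point is outside all but one of them. Hence the largest
shell is a fixed power of the tail, and everything is a small power of the length.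
-/

namespace Vale.Agent.P165.QT.Env

open Finset FF
open Vale.Agent.P165.FQ
open Vale.Agent.P165.TR (tauW_last_exit)

variable {Γ O ι V X : Type} [Group Γ] [Fintype ι] (E : Env Γ O ι V X) [DecidableEq V] [Fintype O]
  {p : ℝ}

omit [Fintype O] in
/-- The tail over the points at one distance from a point near the root and near `t₀`. -/
theorem tail_shell {K : ℕ} {T : ℝ} (hT : E.TailLe p K T) {ψ : Γ} {ℓ : ℕ} {z : V}
    (hz : E.Joined ψ ℓ z) (c : X) (j L : ℕ)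
    (hL : E.H.dist c (E.act ψ E.t₀) + E.H.dist c E.t₀ ≤ L) (S Y : Finset V)
    (hS : ∀ v ∈ S, E.pos v ∉ E.B E.k₀ ψ)
    (hY : ∀ y ∈ Y, E.pos y ∉ E.B E.k₁ ψ ∧ E.H.dist c (E.pos y) = j) :
    p ^ ℓ * ∑ y ∈ Y, tauW E.nb S p z y K ≤ ((4 * L + 1 : ℕ) : ℝ) * T := by
  classical
  set r := E.act ψ E.t₀
  set f : V → ℕ := fun y => GP E.H (E.pos y) r E.t₀ with hf
  have hmap : ∀ y ∈ Y, f y ∈ Ico (2 * j - 2 * L) (2 * j - 2 * L + (4 * L + 1)) := by
    intro y hy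
    simp only [hf, mem_Ico]
    have h1 := gp_add E.hc (E.pos y) r E.t₀
    have a1 := E.hc.dist_triangle (u := E.pos y) (v := c) (w := r)
    have a2 := E.hc.dist_triangle (u := E.pos y) (v := c) (w := E.t₀)
    have a3 := E.hc.dist_triangle (u := c) (v := r) (w := E.pos y)
    have a4 := E.hc.dist_triangle (u := c) (v := E.t₀) (w := E.pos y)
    have a5 := E.hc.dist_triangle (u := r) (v := c) (w := E.t₀)
    have a6 := (hY y hy).2
    rw [E.H.dist_comm (u := E.pos y) (v := c)] at a1 a2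
    rw [E.H.dist_comm (u := r) (v := E.pos y)] at a3
    rw [E.H.dist_comm (u := E.t₀) (v := E.pos y)] at a4
    rw [E.H.dist_comm (u := r) (v := c)] at a5
    omega
  rw [← sum_fiberwise_of_maps_to hmap, mul_sum]
  refine (sum_le_card_nsmul _ _ T fun d _ => ?_).trans (le_of_eq (by
    rw [Nat.card_Ico, nsmul_eq_mul, Nat.add_sub_cancel_left]))
  exact hT ψ ℓ z hz E.t₀ d S _ hS fun y hy =>
    ⟨(hY y (mem_filter.1 hy).1).1, (mem_filter.1 hy).2⟩

/-- The largest shell is a fixed power of the tail. -/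
theorem ownBound (hp : 0 < p) (hp1 : p ≤ 1) : E.OwnBound p := by
  classical
  have h0 := hp.le
  set c : ℕ := 4 * (E.D * E.blk + E.blk + E.M + E.D + 2 * E.Kf) + 1
  set q : ℝ := (p ^ E.blk)⁻¹
  have hq0 : 0 ≤ q := inv_nonneg.2 (pow_nonneg h0 _)
  obtain ⟨a, ha⟩ := pow_unbounded_of_one_lt p⁻¹ (one_lt_two (α := ℝ))
  set s := a * E.blk
  set C₂ : ℝ := 4 * (36 * (c : ℝ) ^ 2 * q + 1)
  refine ⟨12 * (c : ℝ) * 2 ^ s * C₂ ^ (3 * s + 1), 3 * s + 2, by positivity, fun K T hT1 hT => ?_⟩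
  have hT0 : 0 ≤ T := zero_le_one.trans hT1
  set R : ℝ := 36 * (c : ℝ) ^ 2 * q * T + 1
  have hR : 1 ≤ R := le_add_of_nonneg_left (by positivity)
  set n := Nat.log 2 ⌈R⌉₊
  set j := n + 1
  have hjR : R ≤ (2 : ℝ) ^ j := by
    have h1 : ⌈R⌉₊ < 2 ^ (n + 1) := Nat.lt_pow_succ_log_self one_lt_two _
    have h2 : (⌈R⌉₊ : ℝ) ≤ ((2 ^ (n + 1) : ℕ) : ℝ) := Nat.cast_le.2 h1.le
    push_cast at h2
    exact (Nat.le_ceil R).trans h2
  have hj2 : (2 : ℝ) ^ j ≤ C₂ * T := by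
    have h1 : 2 ^ n ≤ ⌈R⌉₊ := Nat.pow_log_le_self 2
      (Nat.pos_iff_ne_zero.1 (Nat.ceil_pos.2 (by linarith)))
    have h2 : ((2 ^ n : ℕ) : ℝ) ≤ (⌈R⌉₊ : ℝ) := Nat.cast_le.2 h1
    push_cast at h2
    have h3 : (2 : ℝ) ^ n ≤ 2 * R := by linarith [Nat.ceil_lt_add_one (zero_le_one.trans hR)]
    calc (2 : ℝ) ^ j = 2 ^ n * 2 := pow_succ _ _
      _ ≤ 2 * R * 2 := mul_le_mul_of_nonneg_right h3 (by norm_num)
      _ ≤ C₂ * T := by simp only [R, C₂]; nlinarith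
  set m := 3 * j
  set ℓ := E.blk * (m + 1)
  have hm1 : ((m : ℝ) + 1) ≤ 3 * 2 ^ j := by
    have h1 : j + 1 ≤ 2 ^ j := Nat.lt_two_pow_self
    have h2 : ((j + 1 : ℕ) : ℝ) ≤ ((2 ^ j : ℕ) : ℝ) := Nat.cast_le.2 h1
    push_cast [m] at h2 ⊢
    linarith
  have hbig : 4 * (E.D * ℓ + E.D * E.blk + ℓ + E.M + E.D + 2 * E.Kf) + 1 ≤ c * (m + 1) + 4 * (E.D * ℓ) ∧
      4 * (E.D * ℓ + E.Kf) + 1 ≤ c * (m + 1) := by
    have e : c * (m + 1) = 4 * (E.D * ℓ) + 4 * ℓ + 4 * ((E.M + E.D + 2 * E.Kf) * (m + 1)) + (m + 1) := by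
      simp only [c, ℓ]; ring
    have e1 : E.M + E.D + 2 * E.Kf ≤ (E.M + E.D + 2 * E.Kf) * (m + 1) :=
      Nat.le_mul_of_pos_right _ (Nat.succ_pos m)
    have e2 : E.D * E.blk ≤ E.D * ℓ :=
      Nat.mul_le_mul_left _ (Nat.le_mul_of_pos_right _ (Nat.succ_pos m))
    omega
  set cm : ℝ := (c : ℝ) * ((m : ℝ) + 1) with hcm
  have hcm0 : 0 ≤ cm := by positivity
  have hcast : ∀ L : ℕ, L ≤ c * (m + 1) → (L : ℝ) ≤ cm := fun L hL => by
    rw [hcm]; exact_mod_cast hL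
  obtain ⟨⟨o, i⟩, -, hmax⟩ := exists_mem_eq_sup'
    (s := (univ : Finset O) ×ˢ range (E.D * K + 1)) ⟨(E.o₁, 0), by simp⟩
    fun q => E.shell p K q.1 q.2
  change E.own p K = E.shell p K o i at hmax
  have hown := E.own_nonneg h0 hp1 K
  set x := E.rep o
  set S := E.ball x K
  set F := S.filter fun y => E.H.dist (E.pos x) (E.pos y) = i with hFdef
  have hx0 : 4 * E.H.dist E.t₀ (E.pos x) ≤ E.Kf := E.hrep o
  obtain ⟨P, lv, C, hPc, hP, hPd⟩ := E.deep m o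
  have hcell : ∀ ψ ∈ P, IsCell E.H E.M E.t₀ (lv ψ) (C ψ) := fun ψ hψ => (hP ψ hψ).1
  have hJ : ∀ ψ ∈ P, ∀ z : V, E.Gate (C ψ) z →
      E.H.dist (E.pos x) (E.pos z) ≤ ℓ + E.M + E.D + E.Kf := by
    intro ψ hψ z hz
    have h1 := (E.gate_dist (hcell ψ hψ) hz).2
    have h2 := E.hc.dist_triangle (u := E.pos x) (v := E.t₀) (w := E.pos z)
    have h3 := (hP ψ hψ).2.1
    rw [E.H.dist_comm (u := E.pos x) (v := E.t₀)] at h2
    simp only [ℓ] at *
    omega
  have hstep : ∀ ψ ∈ P, ∑ y ∈ F.filter (fun y => E.pos y ∉ C ψ), E.tau p K x y ≤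
      cm * T * (p ^ ℓ)⁻¹ + cm * T * q * ∑ z ∈ S.filter (E.Gate (C ψ)), E.tau p K x z := by
    intro ψ hψ
    obtain ⟨-, hlv, hj, hB⟩ := hP ψ hψ
    set S₀ := S.filter fun v => v ∉ E.pre (C ψ)
    set F' := F.filter fun y => E.pos y ∉ C ψ
    have hsplit : ∀ y ∈ F', E.tau p K x y ≤ tauW E.nb S₀ p x y K
        + ∑ z ∈ S.filter (E.Gate (C ψ)), E.tau p K x z * tauW E.nb (insert z S₀) p z y K :=
      fun y hy => tauW_last_exit E.hl S (E.pre (C ψ)) _ (fun z => insert z S₀) h0 hp1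
        (mem_filter.1 hy).2 (fun u z hadj hu hz hzS => mem_filter.2 ⟨hzS, hz, u, hadj, hu⟩)
        (fun z _ => ⟨mem_insert_self _ _, fun v hv hv' =>
          mem_insert_of_mem (mem_filter.2 ⟨hv, hv'⟩)⟩) K
    refine (sum_le_sum hsplit).trans ?_
    rw [sum_add_distrib, sum_comm, mul_sum]
    refine add_le_add ?_ (sum_le_sum fun z hz => ?_)
    · rw [← div_eq_mul_inv, le_div_iff₀' (pow_pos hp _)]
      refine (E.tail_shell hT (ψ := ψ) hj (E.pos x) i (E.D * ℓ + E.Kf) ?_ S₀ F' ?_ ?_).trans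
        (mul_le_mul_of_nonneg_right (hcast _ ?_) hT0)
      · have := E.joined_dist (ψ := ψ) hj
        rw [E.H.dist_comm (u := E.pos x) (v := E.t₀)]
        simp only [x, ℓ] at *
        omega
      · exact fun v hv h => (mem_filter.1 hv).2 (hB (E.B₀_subset_B₁ ψ h))
      · exact fun y hy => ⟨fun h => (mem_filter.1 hy).2 (hB h),
          (mem_filter.1 (mem_filter.1 hy).1).2⟩
      · omega
    · obtain ⟨-, hg⟩ := mem_filter.1 hz
      obtain ⟨k, hk⟩ := E.avoid_at z E.t₀ E.t₀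
      have hsub : E.B E.k₁ (E.sec z * E.τ k) ⊆ C ψ := fun r hr =>
        (E.Uat_subset (hcell ψ hψ) hg.1 (fun u hu => (hk u hu).1) (E.B₁_frame z k hr)).1
      rw [← mul_sum, mul_comm]
      refine mul_le_mul_of_nonneg_right ?_ (E.tau_nonneg h0 hp1 K x z)
      simp only [q]
      rw [← div_eq_mul_inv, le_div_iff₀' (pow_pos hp _)]
      have hjz := E.joined_τ z k
      refine (E.tail_shell hT hjz (E.pos x) i (E.D * E.blk + (ℓ + E.M + E.D + E.Kf) + E.Kf) ?_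
        (insert z S₀) F' ?_ ?_).trans (mul_le_mul_of_nonneg_right (hcast _ ?_) hT0)
      · have h1 := E.joined_dist hjz
        have h2 := hJ ψ hψ z hg
        have h3 := E.hc.dist_triangle (u := E.pos x) (v := E.pos z)
          (w := E.act (E.sec z * E.τ k) E.t₀)
        rw [E.H.dist_comm (u := E.pos x) (v := E.t₀)]
        omega
      · intro v hv h
        rcases mem_insert.1 hv with rfl | hv
        · obtain ⟨w, -, hs⟩ := hjz
          exact hs _ w.start_mem_support h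
        · exact (mem_filter.1 hv).2 (hsub (E.B₀_subset_B₁ _ h))
      · exact fun y hy => ⟨fun h => (mem_filter.1 hy).2 (hsub h),
          (mem_filter.1 (mem_filter.1 hy).1).2⟩
      · omega
  -- a point is in at most one cell
  have hone : ∀ y, (P.filter fun ψ => E.pos y ∈ C ψ).card ≤ 1 := fun y =>
    card_le_one.2 fun ψ hψ ψ' hψ' => by
      by_contra hne
      exact Set.disjoint_left.1 (hPd (mem_filter.1 hψ).1 (mem_filter.1 hψ').1 hne)
        (mem_filter.1 hψ).2 (mem_filter.1 hψ').2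
  have hlow : ((2 : ℝ) ^ m - 1) * E.own p K ≤
      ∑ ψ ∈ P, ∑ y ∈ F.filter (fun y => E.pos y ∉ C ψ), E.tau p K x y := by
    rw [sum_comm' (t' := F) (s' := fun y => P.filter fun ψ => E.pos y ∉ C ψ)
      (fun ψ y => by simp only [mem_filter]; tauto), hmax, shell, mul_sum, ← hFdef]
    refine sum_le_sum fun y _ => ?_
    rw [sum_const, nsmul_eq_mul]
    refine mul_le_mul_of_nonneg_right ?_ (E.tau_nonneg h0 hp1 K x y)
    have h2 := card_filter_add_card_filter_not (s := P) fun ψ => E.pos y ∈ C ψ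
    rw [hPc] at h2
    have h3 := hone y
    have h4 : ((2 ^ m : ℕ) : ℝ) ≤ (((P.filter fun ψ => ¬ E.pos y ∈ C ψ).card + 1 : ℕ) : ℝ) :=
      Nat.cast_le.2 (by omega)
    push_cast at h4
    linarith
  have hgates : ∑ ψ ∈ P, ∑ z ∈ S.filter (E.Gate (C ψ)), E.tau p K x z ≤ cm * E.own p K := by
    rw [← sum_biUnion fun ψ hψ ψ' hψ' hne => disjoint_left.2 fun z hz hz' =>
      Set.disjoint_left.1 (hPd hψ hψ' hne) (mem_filter.1 hz).2.1 (mem_filter.1 hz').2.1]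
    refine (E.sum_near_le h0 hp1 K x _ (ℓ + E.M + E.D + E.Kf) fun z hz => ?_).trans
      (mul_le_mul_of_nonneg_right ?_ hown)
    · obtain ⟨ψ, hψ, hz⟩ := mem_biUnion.1 hz
      exact hJ ψ hψ z (mem_filter.1 hz).2
    · refine le_of_eq_of_le (by push_cast; ring_nf) (hcast (ℓ + E.M + E.D + E.Kf + 1) ?_)
      omega
  have htot := hlow.trans (sum_le_sum hstep)
  rw [sum_add_distrib, sum_const, hPc, nsmul_eq_mul, ← mul_sum] at htot
  push_cast at htot
  have hb : cm * T * q * cm ≤ ((2 : ℝ) ^ m - 1) / 2 := by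
    have h1 : cm * cm ≤ 9 * (c : ℝ) ^ 2 * (2 ^ j * 2 ^ j) := by
      have : cm ≤ 3 * (c : ℝ) * 2 ^ j := by rw [hcm]; nlinarith [(Nat.cast_nonneg c : (0 : ℝ) ≤ c)]
      calc cm * cm ≤ (3 * (c : ℝ) * 2 ^ j) * (3 * (c : ℝ) * 2 ^ j) :=
            mul_le_mul this this hcm0 (by positivity)
        _ = _ := by ring
    have h2 : (2 : ℝ) ^ m = 2 ^ j * 2 ^ j * 2 ^ j := by
      rw [show m = j + j + j by simp only [m]; ring, pow_add, pow_add]
    have h3 : cm * T * q * cm * 4 ≤ 2 ^ m := by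
      calc cm * T * q * cm * 4 = cm * cm * (4 * (T * q)) := by ring
        _ ≤ 9 * (c : ℝ) ^ 2 * (2 ^ j * 2 ^ j) * (4 * (T * q)) :=
            mul_le_mul_of_nonneg_right h1 (by positivity)
        _ = (R - 1) * (2 ^ j * 2 ^ j) := by simp only [R]; ring
        _ ≤ 2 ^ j * (2 ^ j * 2 ^ j) := mul_le_mul_of_nonneg_right (by linarith) (by positivity)
        _ = _ := by rw [h2]; ring
    have h4 : (2 : ℝ) ≤ 2 ^ m := le_self_pow₀ one_le_two (by simp only [m, j]; omega)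
    linarith
  have hmain : E.own p K ≤ 4 * (cm * T * (p ^ ℓ)⁻¹) := by
    have h4 : (2 : ℝ) ≤ 2 ^ m := le_self_pow₀ one_le_two (by simp only [m, j]; omega)
    have h5 : cm * T * q * ∑ ψ ∈ P, ∑ z ∈ S.filter (E.Gate (C ψ)), E.tau p K x z ≤
        ((2 : ℝ) ^ m - 1) / 2 * E.own p K := by
      calc _ ≤ cm * T * q * (cm * E.own p K) := mul_le_mul_of_nonneg_left hgates (by positivity)
        _ = cm * T * q * cm * E.own p K := by ring
        _ ≤ _ := mul_le_mul_of_nonneg_right hb hown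
    have h6 : 0 ≤ cm * T * (p ^ ℓ)⁻¹ := by positivity
    have h7 : ((2 : ℝ) ^ m - 1) * E.own p K ≤ ((2 : ℝ) ^ m - 1) * (4 * (cm * T * (p ^ ℓ)⁻¹)) := by
      nlinarith
    exact le_of_mul_le_mul_left h7 (by linarith)
  have hq : (p ^ ℓ)⁻¹ ≤ 2 ^ s * ((2 : ℝ) ^ j) ^ (3 * s) := by
    rw [← inv_pow]
    refine (pow_le_pow_left₀ (by positivity) ha.le ℓ).trans (le_of_eq ?_)
    rw [← pow_mul, ← pow_mul, ← pow_add]
    congr 1
    simp only [ℓ, m, s]; ring
  calc E.own p K ≤ 4 * (cm * T * (p ^ ℓ)⁻¹) := hmain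
    _ ≤ 4 * ((c : ℝ) * (3 * 2 ^ j) * T * (2 ^ s * ((2 : ℝ) ^ j) ^ (3 * s))) := by
        rw [hcm]; gcongr
    _ = 12 * (c : ℝ) * 2 ^ s * ((2 : ℝ) ^ j) ^ (3 * s + 1) * T := by ring
    _ ≤ 12 * (c : ℝ) * 2 ^ s * (C₂ * T) ^ (3 * s + 1) * T := by gcongr
    _ = _ := by ring_nf

/-- The volume through the largest shell. -/
theorem exists_vol_le (hp : 0 < p) (hp1 : p ≤ 1) : ∃ C : ℝ, 0 ≤ C ∧ ∀ (K : ℕ) (T : ℝ), 1 ≤ T →
    E.TailLe p K T → E.vol p K ≤ C * ((K : ℝ) + 1) * (E.own p K * T) := by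
  refine ⟨(Fintype.card O : ℝ) * ((E.D : ℝ) + 1), by positivity, fun K T hT _ => ?_⟩
  refine (E.vol_le_own hp.le hp1 K).trans ?_
  have hown := E.own_nonneg hp.le hp1 K
  have h1 : ((E.D * K : ℕ) : ℝ) + 1 ≤ ((E.D : ℝ) + 1) * ((K : ℝ) + 1) := by
    push_cast
    nlinarith [(Nat.cast_nonneg K : (0 : ℝ) ≤ K), (Nat.cast_nonneg E.D : (0 : ℝ) ≤ E.D)]
  calc (Fintype.card O : ℝ) * (((E.D * K : ℕ) : ℝ) + 1) * E.own p K
      ≤ (Fintype.card O : ℝ) * (((E.D : ℝ) + 1) * ((K : ℝ) + 1)) * E.own p K := by gcongr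
    _ ≤ (Fintype.card O : ℝ) * (((E.D : ℝ) + 1) * ((K : ℝ) + 1)) * (E.own p K * T) :=
        mul_le_mul_of_nonneg_left (le_mul_of_one_le_right hown hT) (by positivity)
    _ = _ := by ring

/-- The tail closes at the last parameter. -/
theorem closed_of_tails {ps : ℝ} (hp : 0 < ps) (hp1 : ps ≤ 1) (ht : E.Tails ps) :
    E.Closed ps := by
  intro ε hε
  obtain ⟨Cv, hCv, hvol⟩ := E.exists_vol_le hp hp1
  obtain ⟨Co, A, hCo, hown⟩ := E.ownBound hp hp1
  set η : ℝ := min ε 1 / (2 * ((A : ℝ) + 1))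
  have hη : 0 < η := div_pos (lt_min hε one_pos) (by positivity)
  obtain ⟨Ct, hCt, htail⟩ := ht η hη
  set C₀ : ℝ := Cv * (Co * (Ct + 1) ^ A * (Ct + 1)) + 1
  set Q : ℝ := (C₀ ^ 2) ^ η
  have hC₀1 : 1 ≤ C₀ := le_add_of_nonneg_left (by positivity)
  have hQ : 1 ≤ Q := Real.one_le_rpow (one_le_pow₀ hC₀1) hη.le
  set CB : ℝ := (Ct + 1) * Q
  refine ⟨max CB (Co * CB ^ A), le_max_of_le_left (by positivity), fun K => ?_⟩
  set V : ℝ := E.vol ps K + 1
  have hV : 1 ≤ V := le_add_of_nonneg_left (E.vol_nonneg hp.le hp1 K)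
  have hV0 : 0 < V := zero_lt_one.trans_le hV
  set B : ℝ := (Ct + 1) * V ^ η
  have hVη : 1 ≤ V ^ η := Real.one_le_rpow hV hη.le
  have hB : 1 ≤ B := by nlinarith
  have hTB : E.TailLe ps K B := fun ψ ℓ z hz w d S Y hS hY => (htail K ψ ℓ z hz w d S Y hS hY).trans
    (mul_le_mul_of_nonneg_right (by linarith) (zero_le_one.trans hVη))
  have h1 := hown K B hB hTB
  have h2 := hvol K B hB hTB
  have hK1 : (1 : ℝ) ≤ (K : ℝ) + 1 := le_add_of_nonneg_left (Nat.cast_nonneg K)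
  have hA1 : η * ((A : ℝ) + 1) ≤ 1 / 2 := by
    simp only [η]
    rw [div_mul_eq_mul_div, div_le_iff₀ (by positivity)]
    nlinarith [min_le_right ε 1, (Nat.cast_nonneg A : (0 : ℝ) ≤ A)]
  -- the volume
  have hV2 : V ≤ C₀ ^ 2 * ((K : ℝ) + 1) ^ 2 := by
    have h3 : V ≤ C₀ * ((K : ℝ) + 1) * V ^ ((1 : ℝ) / 2) := by
      have h4 : E.own ps K * B ≤ Co * (Ct + 1) ^ A * (Ct + 1) * V ^ (η * ((A : ℝ) + 1)) := by
        refine (mul_le_mul_of_nonneg_right h1 (zero_le_one.trans hB)).trans (le_of_eq ?_)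
        rw [show η * ((A : ℝ) + 1) = η * A + η by ring, Real.rpow_add hV0, Real.rpow_mul hV0.le,
          Real.rpow_natCast, mul_pow]
        ring
      have h5 : V ^ (η * ((A : ℝ) + 1)) ≤ V ^ ((1 : ℝ) / 2) :=
        Real.rpow_le_rpow_of_exponent_le hV hA1
      have h6 : 1 ≤ ((K : ℝ) + 1) * V ^ ((1 : ℝ) / 2) :=
        one_le_mul_of_one_le_of_one_le hK1 (Real.one_le_rpow hV (by norm_num))
      calc V = E.vol ps K + 1 := rfl
        _ ≤ Cv * ((K : ℝ) + 1) * (Co * (Ct + 1) ^ A * (Ct + 1) * V ^ ((1 : ℝ) / 2))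
            + ((K : ℝ) + 1) * V ^ ((1 : ℝ) / 2) := add_le_add (h2.trans (mul_le_mul_of_nonneg_left
              (h4.trans (mul_le_mul_of_nonneg_left h5 (by positivity))) (by positivity))) h6
        _ = _ := by simp only [C₀]; ring
    have h7 : V ^ ((1 : ℝ) / 2) * V ^ ((1 : ℝ) / 2) = V := by
      rw [← Real.rpow_add hV0]; norm_num
    have h8 : V ^ ((1 : ℝ) / 2) ≤ C₀ * ((K : ℝ) + 1) :=
      le_of_mul_le_mul_right (h7.trans_le h3) (Real.rpow_pos_of_pos hV0 _)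
    rw [← h7, ← mul_pow, sq]
    exact mul_le_mul h8 h8 (Real.rpow_nonneg hV0.le _) (by positivity)
  have hBK : B ≤ CB * ((K : ℝ) + 1) ^ (2 * η) := by
    simp only [B, CB]
    rw [mul_assoc]
    refine mul_le_mul_of_nonneg_left ((Real.rpow_le_rpow hV0.le hV2 hη.le).trans (le_of_eq ?_))
      (by linarith)
    rw [Real.mul_rpow (by positivity) (by positivity), ← Real.rpow_natCast ((K : ℝ) + 1) 2,
      ← Real.rpow_mul (by positivity)]
    norm_num [Q]
  have hexp : 2 * η * ((A : ℝ) + 1) ≤ ε := by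
    simp only [η]
    field_simp
    exact min_le_left ε 1
  constructor
  · refine h1.trans ((mul_le_mul_of_nonneg_left (pow_le_pow_left₀ (zero_le_one.trans hB) hBK A)
      hCo).trans ?_)
    rw [mul_pow, ← mul_assoc, ← Real.rpow_natCast (((K : ℝ) + 1) ^ (2 * η)) A,
      ← Real.rpow_mul (by positivity)]
    refine mul_le_mul (le_max_right _ _) (Real.rpow_le_rpow_of_exponent_le hK1 ?_)
      (by positivity) (le_max_of_le_left (by positivity))
    nlinarith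
  · intro ψ ℓ z hz w d S Y hS hY
    refine (hTB ψ ℓ z hz w d S Y hS hY).trans (hBK.trans ?_)
    refine mul_le_mul (le_max_left _ _) (Real.rpow_le_rpow_of_exponent_le hK1 ?_)
      (by positivity) (le_max_of_le_left (by positivity))
    nlinarith [(Nat.cast_nonneg A : (0 : ℝ) ≤ A)]

end Vale.Agent.P165.QT.Env
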