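import Vale.Agent.P165.QT.Models
import Vale.Agent.P165.TL.Tree

/-!
# Quasi-trees have the bottleneck property
-/

namespace Vale.Agent.P165.QT

open SimpleGraph

variable {X Y : Type} {H : SimpleGraph X} {T : SimpleGraph Y}

/-- The graph embeds quasi-isometrically in a tree. -/
def QuasiTree (H : SimpleGraph X) : Prop :=
  ∃ (Y : Type) (T : SimpleGraph Y) (f : X → Y) (K : ℕ), T.IsTree ∧ ∀ p q,
    T.dist (f p) (f q) ≤ K * H.dist p q + K ∧ H.dist p q ≤ K * T.dist (f p) (f q) + K

/-- The image of a walk comes within the size of its steps of every vertex between its ends. -/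
theorem exists_near_between (hT : T.IsTree) (f : X → Y) {C : ℕ}
    (hstep : ∀ p q, H.dist p q ≤ 1 → T.dist (f p) (f q) ≤ C) {p q : X} (w : H.Walk p q) (t : Y)
    (ht : T.dist (f p) t + T.dist t (f q) = T.dist (f p) (f q)) :
    ∃ v ∈ w.support, T.dist (f v) t ≤ C := by
  induction w with
  | nil =>
    refine ⟨_, Walk.start_mem_support _, ?_⟩
    rw [T.dist_self] at ht
    omega
  | @cons u x q h w ih =>
    obtain ⟨w₁, hw₁⟩ := hT.connected.exists_walk_length_eq_dist (f u) (f x)
    obtain ⟨w₂, hw₂⟩ := hT.connected.exists_walk_length_eq_dist (f x) (f q)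
    obtain ⟨c, hc, hd⟩ := bottleneck_of_tree hT (f u) (f q) (w₁.append w₂) t ht
    obtain rfl : c = t := hT.connected.dist_eq_zero_iff.1 (Nat.le_zero.1 hd)
    rcases (Walk.mem_support_append_iff _ _).1 hc with hc | hc
    · have h1 := dist_support hT.connected w₁ hw₁ hc
      have h2 := hstep u x (dist_eq_one_iff_adj.2 h).le
      exact ⟨u, by simp, by omega⟩
    · obtain ⟨v, hv, hvd⟩ := ih (dist_support hT.connected w₂ hw₂ hc)
      exact ⟨v, by simp [hv], hvd⟩

/-- A quasi-tree has the bottleneck property. -/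
theorem bottleneck_of_quasiTree (hH : H.Connected) (h : QuasiTree H) : ∃ Δ, Bottleneck H Δ := by
  obtain ⟨Y, T, f, K, hT, hf⟩ := h
  have hstep : ∀ p q, H.dist p q ≤ 1 → T.dist (f p) (f q) ≤ 2 * K := fun p q hpq =>
    (hf p q).1.trans (by nlinarith)
  set C := K * (4 * K) + K
  refine ⟨C + C, fun p q w m hm => ?_⟩
  obtain ⟨g1, g2, g3, -, g5⟩ := TL.gp_spec hT (f m) (f p) (f q)
  set h := TL.gp T (f m) (f p) (f q)
  set t := TL.pt T (f m) (f p) h
  obtain ⟨a1, a2⟩ := TL.dist_pt hT g1
  obtain ⟨b1, b2⟩ := TL.dist_pt hT g2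
  rw [← g3 h le_rfl] at b1 b2
  change T.dist (f m) t = h at a1
  change T.dist t (f p) = _ at a2
  change T.dist t (f q) = _ at b2
  obtain ⟨α, hα⟩ := hH.exists_walk_length_eq_dist p m
  obtain ⟨β, hβ⟩ := hH.exists_walk_length_eq_dist m q
  rw [T.dist_comm (u := t) (v := f p)] at a2
  obtain ⟨a, ha, had⟩ := exists_near_between hT f hstep α t (by
    rw [T.dist_comm (u := t) (v := f m), T.dist_comm (u := f p) (v := f m)]
    omega)
  obtain ⟨b, hb, hbd⟩ := exists_near_between hT f hstep β t (by omega)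
  obtain ⟨v, hv, hvd⟩ := exists_near_between hT f hstep w t (by omega)
  have hclose : ∀ x y, T.dist (f x) t ≤ 2 * K → T.dist (f y) t ≤ 2 * K → H.dist x y ≤ C := by
    intro x y hx hy
    have h1 := hT.connected.dist_triangle (u := f x) (v := t) (w := f y)
    rw [T.dist_comm (u := t) (v := f y)] at h1
    exact (hf x y).2.trans (Nat.add_le_add_right (Nat.mul_le_mul_left _ (by omega)) _)
  have h1 := hclose a b had hbd
  have h2 := hclose v a hvd had
  have h3 := dist_support hH α hα ha
  have h4 := dist_support hH β hβ hb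
  have h5 := hH.dist_triangle (u := p) (v := a) (w := b)
  have h6 := hH.dist_triangle (u := p) (v := b) (w := q)
  have h7 := hH.dist_triangle (u := v) (v := a) (w := m)
  exact ⟨v, hv, by omega⟩

end Vale.Agent.P165.QT
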